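import Vale.Agent.P309.Sharp.Tools
import Mathlib.Analysis.InnerProductSpace.Adjoint

/-! The smoothing kernel, its multiplier, and superpositions of waves of bounded frequency. -/

namespace Vale.Agent.P309.Sharp

open MeasureTheory ProbabilityTheory Complex
open scoped RealInnerProductSpace Real ENNReal

variable {d : ℕ}

/-- The smoothing kernel: the inverse transform of the ball times a Gaussian window. -/
noncomputable def kerK (σ R : ℝ) (x : Vec d) : ℝ :=
  ((2 * π) ^ d)⁻¹ * (∫ η in Metric.closedBall (0 : Vec d) R, Real.cos ⟪η, x⟫)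
    * Real.exp (-‖x‖ ^ 2 / (2 * σ ^ 2))

/-- The multiplier of the smoothing kernel. -/
noncomputable def mult (σ R : ℝ) (ξ : Vec d) : ℝ :=
  (stdGaussian (Vec d)).real {Z | ‖ξ + σ⁻¹ • Z‖ ≤ R}

/-- A smoothed indicator of the ball of radius `r`. -/
noncomputable def chi (σ r : ℝ) (y : Vec d) : ℝ := mult σ⁻¹ r y

/-- Convolution with the smoothing kernel. -/
noncomputable def convK (σ R : ℝ) (v : Vec d → ℝ) (x : Vec d) : ℝ :=
  ∫ y, kerK σ R (x - y) * v y

/-- The smoothing kernel in the coordinates of an invertible map. -/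
noncomputable def kerB (B : Vec d ≃ₗ[ℝ] Vec d) (σ R : ℝ) (x : Vec d) : ℝ :=
  |LinearMap.det (B : Vec d →ₗ[ℝ] Vec d)|⁻¹ * kerK σ R (B.symm x)

/-! ### Gaussian integrals -/

lemma integral_stdGaussian_vec {E : Type*} [NormedAddCommGroup E] [NormedSpace ℝ E]
    (F : Vec d → E) : ∫ z, F z ∂stdGaussian (Vec d) = ∫ z, gaussKer z • F z := by
  rw [stdGaussian_eq_withDensity, integral_withDensity_eq_integral_toReal_smul
    measurable_gaussKer.ennreal_ofReal (ae_of_all _ fun _ => ENNReal.ofReal_lt_top)]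
  simp only [ENNReal.toReal_ofReal (gaussKer_nonneg _)]

/-- Transform of a dilated Gaussian kernel. -/
lemma ft_gaussKer {c : ℝ} (hc : 0 < c) (t : Vec d) :
    ∫ z : Vec d, (gaussKer (c • z) : ℂ) * cexp ((⟪z, t⟫ : ℝ) * I)
      = (((c ^ d)⁻¹ * Real.exp (-‖t‖ ^ 2 / (2 * c ^ 2)) : ℝ) : ℂ) := by
  set G : Vec d → ℂ := fun z => (gaussKer z : ℂ) * cexp ((⟪z, c⁻¹ • t⟫ : ℝ) * I)
  have h := Measure.integral_comp_smul_of_nonneg (μ := (volume : Measure (Vec d))) G c (hR := hc.le)
  have e : ∀ z : Vec d, G (c • z) = (gaussKer (c • z) : ℂ) * cexp ((⟪z, t⟫ : ℝ) * I) := by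
    intro z
    simp only [G, inner_smul_left, inner_smul_right, conj_trivial]
    rw [← mul_assoc c⁻¹, mul_comm c⁻¹, mul_assoc, ← mul_assoc c, mul_inv_cancel₀ hc.ne', one_mul]
  have hG : ∫ z, G z = charFun (stdGaussian (Vec d)) (c⁻¹ • t) := by
    rw [charFun_apply, integral_stdGaussian_vec]
    simp only [G, Complex.real_smul]
  simp only [e] at h
  rw [h, hG, charFun_stdGaussian, finrank_euclideanSpace_fin, Complex.real_smul,
    Complex.ofReal_mul, Complex.ofReal_exp, norm_smul, Real.norm_eq_abs, abs_inv, abs_of_pos hc]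
  congr 2
  push_cast
  field_simp

lemma ft_exp {σ : ℝ} (hσ : 0 < σ) (t : Vec d) :
    ∫ x : Vec d, (Real.exp (-‖x‖ ^ 2 / (2 * σ ^ 2)) : ℂ) * cexp ((⟪x, t⟫ : ℝ) * I)
      = ((gaussConst (Vec d) * σ ^ d * Real.exp (-σ ^ 2 * ‖t‖ ^ 2 / 2) : ℝ) : ℂ) := by
  have e : ∀ x : Vec d, Real.exp (-‖x‖ ^ 2 / (2 * σ ^ 2))
      = gaussConst (Vec d) * gaussKer (σ⁻¹ • x) := by
    intro x
    rw [gaussKer, ← mul_assoc, mul_inv_cancel₀ gaussConst_pos.ne', one_mul, norm_smul,
      Real.norm_eq_abs, abs_inv, abs_of_pos hσ]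
    congr 1
    field_simp
  simp only [e, Complex.ofReal_mul, mul_assoc]
  rw [integral_const_mul, ft_gaussKer (inv_pos.2 hσ)]
  push_cast
  congr 1
  rw [inv_pow, inv_inv]
  congr 1
  field_simp

lemma integral_exp_neg_smul {c : ℝ} (hc : 0 < c) :
    Integrable (fun z : Vec d => Real.exp (-(c * ‖z‖ ^ 2))) ∧
    ∫ z : Vec d, Real.exp (-(c * ‖z‖ ^ 2)) = √(π / c) ^ d := by
  have hs : 0 < √(2 * c) := Real.sqrt_pos.2 (by linarith)
  have e : ∀ z : Vec d, Real.exp (-(c * ‖z‖ ^ 2)) = Real.exp (-‖√(2 * c) • z‖ ^ 2 / 2) := by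
    intro z
    rw [norm_smul, Real.norm_eq_abs, abs_of_pos hs, mul_pow, Real.sq_sqrt (by linarith)]
    ring_nf
  simp only [e]
  refine ⟨(integrable_gauss (V := Vec d)).comp_smul hs.ne', ?_⟩
  rw [Measure.integral_comp_smul_of_nonneg (μ := (volume : Measure (Vec d)))
    (fun z : Vec d => Real.exp (-‖z‖ ^ 2 / 2)) _ (hR := hs.le), gauss_integral, gaussConst_vec,
    finrank_euclideanSpace_fin, smul_eq_mul, ← inv_pow, ← mul_pow]
  congr 1
  rw [← Real.sqrt_inv, ← Real.sqrt_mul (by positivity)]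
  congr 1
  field_simp

/-- Gaussian moment generating function of the squared norm. -/
lemma integral_exp_sq_stdGaussian {a : ℝ} (ha : a < 1/2) :
    Integrable (fun z => Real.exp (a * ‖z‖ ^ 2)) (stdGaussian (Vec d)) ∧
    ∫ z, Real.exp (a * ‖z‖ ^ 2) ∂stdGaussian (Vec d) = √((1 - 2 * a)⁻¹) ^ d := by
  obtain ⟨hi, hv⟩ := integral_exp_neg_smul (d := d) (show 0 < 1/2 - a by linarith)
  have e : ∀ z : Vec d, gaussKer z • Real.exp (a * ‖z‖ ^ 2)
      = (gaussConst (Vec d))⁻¹ * Real.exp (-((1/2 - a) * ‖z‖ ^ 2)) := by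
    intro z
    rw [smul_eq_mul, gaussKer, mul_assoc, ← Real.exp_add]
    ring_nf
  constructor
  · rw [stdGaussian_eq_withDensity, integrable_withDensity_iff_integrable_smul'
      measurable_gaussKer.ennreal_ofReal (ae_of_all _ fun _ => ENNReal.ofReal_lt_top)]
    simp only [ENNReal.toReal_ofReal (gaussKer_nonneg _), e]
    exact hi.const_mul _
  · rw [integral_stdGaussian_vec]
    simp only [e]
    rw [integral_const_mul, hv, gaussConst_vec, ← inv_pow, ← mul_pow, ← Real.sqrt_inv,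
      ← Real.sqrt_mul (by positivity)]
    congr 2
    have : 1 - 2 * a ≠ 0 := by linarith
    have : 1/2 - a ≠ 0 := by linarith
    field_simp

/-- Gaussian tail of the norm. -/
lemma stdGaussian_tail_le {u : ℝ} (hu : 0 ≤ u) :
    (stdGaussian (Vec d)).real {z | u ≤ ‖z‖} ≤ √2 ^ d * Real.exp (-u ^ 2 / 4) := by
  obtain ⟨hi, hv⟩ := integral_exp_sq_stdGaussian (d := d) (a := 1/4) (by norm_num)
  have hs : MeasurableSet {z : Vec d | u ≤ ‖z‖} := measurableSet_le measurable_const measurable_norm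
  rw [← integral_indicator_one hs]
  refine (integral_mono ((integrable_const (1:ℝ)).indicator hs)
    (hi.const_mul (Real.exp (-u ^ 2 / 4))) fun z => ?_).trans (le_of_eq ?_)
  · by_cases hz : z ∈ {z : Vec d | u ≤ ‖z‖}
    · simp only [Set.indicator_of_mem hz]
      rw [← Real.exp_add]
      refine Real.one_le_exp ?_
      have := pow_le_pow_left₀ hu (show u ≤ ‖z‖ from hz) 2
      linarith
    · rw [Set.indicator_of_notMem hz]
      positivity
  · rw [integral_const_mul, hv]
    norm_num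
    ring

lemma sqrt_two_pow_le {w : ℝ} (hw : 32 * (d:ℝ) ≤ w) (c : ℝ) :
    √2 ^ d * Real.exp (c * w) ≤ Real.exp ((c + 1/64) * w) := by
  have h2 : √2 ≤ Real.exp (1/2) := by
    rw [Real.exp_half]
    exact Real.sqrt_le_sqrt (by linarith [Real.exp_one_gt_d9])
  calc √2 ^ d * Real.exp (c * w) ≤ Real.exp (1/2) ^ d * Real.exp (c * w) := by gcongr
    _ = Real.exp ((d:ℝ) * (1/2) + c * w) := by rw [← Real.exp_nat_mul, ← Real.exp_add]
    _ ≤ _ := Real.exp_le_exp.2 (by linarith)

/-! ### The ball -/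

lemma volume_closedBall_le {R : ℝ} (hR : 0 ≤ R) :
    volume.real (Metric.closedBall (0 : Vec d) R)
      ≤ Real.exp ((d:ℝ) / 2) * (√(2 * π) * R / √(d:ℝ)) ^ d := by
  rcases Nat.eq_zero_or_pos d with rfl | hd
  · have : Metric.closedBall (0 : Vec 0) R = Set.univ := by
      ext x; simp [Subsingleton.elim x 0, hR]
    rw [this]
    simp [measureReal_def, volume_euclideanSpace_eq_dirac]
  rcases eq_or_lt_of_le hR with rfl | hR'
  · have : Nontrivial (Vec d) := Module.nontrivial_of_finrank_pos (R := ℝ) (by simp; omega)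
    simp [measureReal_def]
    positivity
  set c : ℝ := (d:ℝ) / (2 * R ^ 2)
  have hc : 0 < c := by positivity
  obtain ⟨hi, hv⟩ := integral_exp_neg_smul (d := d) hc
  rw [← integral_indicator_one measurableSet_closedBall]
  refine (integral_mono ?_ (hi.const_mul (Real.exp ((d:ℝ) / 2))) fun z => ?_).trans (le_of_eq ?_)
  · exact (integrableOn_const (C := (1:ℝ)) measure_closedBall_lt_top.ne).integrable_indicator
      measurableSet_closedBall
  · by_cases hz : z ∈ Metric.closedBall (0 : Vec d) R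
    · rw [Set.indicator_of_mem hz, Pi.one_apply, ← Real.exp_add]
      refine Real.one_le_exp ?_
      rw [mem_closedBall_zero_iff] at hz
      have h1 := mul_le_mul_of_nonneg_left (pow_le_pow_left₀ (norm_nonneg z) hz 2) hc.le
      have h2 : c * R ^ 2 = (d:ℝ) / 2 := by simp only [c]; field_simp
      linarith
    · rw [Set.indicator_of_notMem hz]
      positivity
  · rw [integral_const_mul, hv]
    congr 2
    simp only [c]
    rw [show π / ((d:ℝ) / (2 * R ^ 2)) = 2 * π * R ^ 2 / d by field_simp,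
      Real.sqrt_div' _ (Nat.cast_nonneg d), Real.sqrt_mul (by positivity : (0:ℝ) ≤ 2 * π),
      Real.sqrt_sq hR]

lemma abs_ball_cos_le (R : ℝ) (x : Vec d) :
    |∫ η in Metric.closedBall (0 : Vec d) R, Real.cos ⟪η, x⟫|
      ≤ volume.real (Metric.closedBall (0 : Vec d) R) := by
  rw [← Real.norm_eq_abs]
  refine (norm_setIntegral_le_of_norm_le_const measure_closedBall_lt_top
    fun η _ => ?_).trans (le_of_eq (one_mul _))
  exact Real.abs_cos_le_one _

lemma ball_cos_eq (R : ℝ) (x : Vec d) :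
    ((∫ η in Metric.closedBall (0 : Vec d) R, Real.cos ⟪η, x⟫ : ℝ) : ℂ)
      = ∫ η in Metric.closedBall (0 : Vec d) R, cexp ((⟪η, x⟫ : ℝ) * I) := by
  have hi : IntegrableOn (fun η : Vec d => cexp ((⟪η, x⟫ : ℝ) * I))
      (Metric.closedBall (0 : Vec d) R) :=
    (Continuous.continuousOn (by fun_prop)).integrableOn_compact (isCompact_closedBall _ _)
  have hneg : ∫ η in Metric.closedBall (0 : Vec d) R, cexp (-(⟪η, x⟫ : ℝ) * I)
      = ∫ η in Metric.closedBall (0 : Vec d) R, cexp ((⟪η, x⟫ : ℝ) * I) := by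
    rw [← integral_indicator measurableSet_closedBall, ← integral_indicator measurableSet_closedBall,
      ← integral_neg_eq_self]
    refine integral_congr_ae (ae_of_all _ fun η => ?_)
    by_cases h : η ∈ Metric.closedBall (0 : Vec d) R
    · have h' : -η ∈ Metric.closedBall (0 : Vec d) R := by simpa [mem_closedBall_zero_iff] using h
      simp [Set.indicator_of_mem h, Set.indicator_of_mem h']
    · have h' : -η ∉ Metric.closedBall (0 : Vec d) R := by simpa [mem_closedBall_zero_iff] using h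
      simp [Set.indicator_of_notMem h, Set.indicator_of_notMem h']
  have hi' : IntegrableOn (fun η : Vec d => cexp (-(⟪η, x⟫ : ℝ) * I))
      (Metric.closedBall (0 : Vec d) R) :=
    (Continuous.continuousOn (by fun_prop)).integrableOn_compact (isCompact_closedBall _ _)
  rw [← integral_complex_ofReal]
  simp only [Complex.ofReal_cos, Complex.cos]
  rw [integral_div, integral_add hi hi', hneg]
  ring

/-! ### The kernel -/

lemma continuous_kerK (σ R : ℝ) : Continuous (kerK (d := d) σ R) := by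
  have h : Continuous fun x : Vec d =>
      ∫ η in Metric.closedBall (0 : Vec d) R, Real.cos ⟪η, x⟫ :=
    continuous_parametric_integral_of_continuous (f := fun (x η : Vec d) => Real.cos ⟪η, x⟫)
      (by simp only [Function.uncurry_def]; fun_prop) (isCompact_closedBall _ _)
  unfold kerK
  exact (continuous_const.mul h).mul (by fun_prop)

lemma measurable_kerK (σ R : ℝ) : Measurable (kerK (d := d) σ R) :=
  (continuous_kerK σ R).measurable

lemma kerK_neg (σ R : ℝ) (x : Vec d) : kerK σ R (-x) = kerK σ R x := by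
  simp [kerK, inner_neg_right, Real.cos_neg]

/-- The kernel is at most the ball volume times a Gaussian window. -/
lemma abs_kerK_le (σ R : ℝ) (x : Vec d) :
    |kerK σ R x| ≤ ((2 * π) ^ d)⁻¹ * volume.real (Metric.closedBall (0 : Vec d) R)
      * Real.exp (-‖x‖ ^ 2 / (2 * σ ^ 2)) := by
  rw [kerK, abs_mul, abs_mul, abs_of_pos (Real.exp_pos _),
    abs_of_nonneg (show (0:ℝ) ≤ ((2 * π) ^ d)⁻¹ by positivity)]
  gcongr
  exact abs_ball_cos_le R x

lemma integrable_kerK {σ : ℝ} (hσ : 0 < σ) (R : ℝ) : Integrable (kerK (d := d) σ R) := by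
  have h := ((integral_exp_neg_smul (d := d) (c := (2 * σ ^ 2)⁻¹) (by positivity)).1).const_mul
    (((2 * π) ^ d)⁻¹ * volume.real (Metric.closedBall (0 : Vec d) R))
  refine h.mono' (continuous_kerK σ R).aestronglyMeasurable (ae_of_all _ fun x => ?_)
  rw [Real.norm_eq_abs]
  refine (abs_kerK_le σ R x).trans (le_of_eq ?_)
  congr 2
  ring

lemma integral_abs_kerK_le {σ : ℝ} (hσ : 0 < σ) (R : ℝ) :
    ∫ x : Vec d, |kerK σ R x|
      ≤ ((2 * π) ^ d)⁻¹ * volume.real (Metric.closedBall (0 : Vec d) R) * (√(2 * π) * σ) ^ d := by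
  obtain ⟨hi, hv⟩ := integral_exp_neg_smul (d := d) (c := (2 * σ ^ 2)⁻¹) (by positivity)
  refine (integral_mono (integrable_kerK hσ R).abs (hi.const_mul
    (((2 * π) ^ d)⁻¹ * volume.real (Metric.closedBall (0 : Vec d) R))) fun x => ?_).trans
    (le_of_eq ?_)
  · refine (abs_kerK_le σ R x).trans (le_of_eq ?_)
    congr 2
    ring
  · rw [integral_const_mul, hv, div_inv_eq_mul, ← mul_assoc π, mul_comm π 2,
      Real.sqrt_mul (by positivity), Real.sqrt_sq hσ.le]

lemma ball_coeff_le {R : ℝ} (hR : 0 ≤ R) :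
    ((2 * π) ^ d)⁻¹ * volume.real (Metric.closedBall (0 : Vec d) R)
      ≤ Real.exp ((d:ℝ) / 2) * (R / (√(2 * π) * √(d:ℝ))) ^ d := by
  refine (mul_le_mul_of_nonneg_left (volume_closedBall_le hR) (by positivity)).trans (le_of_eq ?_)
  have hp : ((2 * π) ^ d : ℝ) = √(2 * π) ^ d * √(2 * π) ^ d := by
    rw [← mul_pow, Real.mul_self_sqrt (by positivity)]
  rw [hp, div_pow, div_pow, mul_pow, mul_pow]
  field_simp

/-- The kernel is at most an exponential multiple of a Gaussian window. -/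
lemma abs_kerK_le' (σ : ℝ) {R : ℝ} (hR : 0 ≤ R) (x : Vec d) :
    |kerK σ R x| ≤ Real.exp ((d:ℝ) / 2) * (R / (√(2 * π) * √(d:ℝ))) ^ d
      * Real.exp (-‖x‖ ^ 2 / (2 * σ ^ 2)) :=
  (abs_kerK_le σ R x).trans (mul_le_mul_of_nonneg_right (ball_coeff_le hR) (Real.exp_pos _).le)

lemma integral_abs_kerK_le' {σ R : ℝ} (hσ : 0 < σ) (hR : 0 ≤ R) :
    ∫ x : Vec d, |kerK σ R x| ≤ Real.exp ((d:ℝ) / 2) * (σ * R / √(d:ℝ)) ^ d := by
  refine (integral_abs_kerK_le hσ R).trans ?_
  refine (mul_le_mul_of_nonneg_right (ball_coeff_le hR) (by positivity)).trans (le_of_eq ?_)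
  rw [mul_assoc, ← mul_pow]
  congr 2
  have : 0 < √(2 * π) := by positivity
  field_simp

/-- The mass of the kernel outside a ball. -/
lemma setIntegral_abs_kerK_le {σ T : ℝ} (hσ : 0 < σ) (hT : 0 ≤ T) (R : ℝ) :
    ∫ x in {x : Vec d | T < ‖x‖}, |kerK σ R x|
      ≤ ((2 * π) ^ d)⁻¹ * volume.real (Metric.closedBall (0 : Vec d) R)
        * (√(4 * π) * σ) ^ d * Real.exp (-(T / σ) ^ 2 / 4) := by
  obtain ⟨hi, hv⟩ := integral_exp_neg_smul (d := d) (c := (4 * σ ^ 2)⁻¹) (by positivity)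
  set c₀ := ((2 * π) ^ d)⁻¹ * volume.real (Metric.closedBall (0 : Vec d) R)
    * Real.exp (-(T / σ) ^ 2 / 4)
  have hU : MeasurableSet {w : Vec d | T < ‖w‖} := measurableSet_lt measurable_const measurable_norm
  rw [← integral_indicator hU]
  refine (integral_mono ((integrable_kerK hσ R).abs.indicator hU) (hi.const_mul c₀)
    fun w => ?_).trans (le_of_eq ?_)
  · by_cases hw : w ∈ {w : Vec d | T < ‖w‖}
    · rw [Set.indicator_of_mem hw]
      refine (abs_kerK_le σ R w).trans ?_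
      simp only [c₀]
      rw [mul_assoc _ (Real.exp (-(T / σ) ^ 2 / 4)), ← Real.exp_add]
      refine mul_le_mul_of_nonneg_left (Real.exp_le_exp.2 ?_) (by positivity)
      have h1 := pow_le_pow_left₀ hT (le_of_lt (show T < ‖w‖ from hw)) 2
      rw [div_pow]
      have h2 := div_le_div_of_nonneg_right h1 (sq_nonneg σ)
      have h3 : -‖w‖ ^ 2 / (2 * σ ^ 2) = -(‖w‖ ^ 2 / σ ^ 2) / 2 := by field_simp
      have h4 : (4 * σ ^ 2)⁻¹ * ‖w‖ ^ 2 = (‖w‖ ^ 2 / σ ^ 2) / 4 := by field_simp
      rw [h3, h4]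
      linarith
    · rw [Set.indicator_of_notMem hw]
      positivity
  · rw [integral_const_mul, hv]
    have : √(π / (4 * σ ^ 2)⁻¹) = √(4 * π) * σ := by
      rw [show π / (4 * σ ^ 2)⁻¹ = 4 * π * σ ^ 2 by field_simp, Real.sqrt_mul (by positivity),
        Real.sqrt_sq hσ.le]
    rw [this]
    simp only [c₀]
    ring

/-! ### The multiplier -/

lemma mult_nonneg (σ R : ℝ) (ξ : Vec d) : 0 ≤ mult σ R ξ := measureReal_nonneg

lemma mult_le_one (σ R : ℝ) (ξ : Vec d) : mult σ R ξ ≤ 1 := measureReal_le_one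

lemma abs_mult_le_one (σ R : ℝ) (ξ : Vec d) : |mult σ R ξ| ≤ 1 := by
  rw [abs_of_nonneg (mult_nonneg σ R ξ)]; exact mult_le_one σ R ξ

lemma measurableSet_multSet (σ R : ℝ) :
    MeasurableSet {p : Vec d × Vec d | ‖p.1 + σ⁻¹ • p.2‖ ≤ R} :=
  measurableSet_le (by fun_prop) measurable_const

lemma measurable_mult (σ R : ℝ) : Measurable (mult (d := d) σ R) :=
  (measurable_measure_prodMk_left (ν := stdGaussian (Vec d)) (measurableSet_multSet σ R)).ennreal_toReal

lemma mult_eq_integral {σ : ℝ} (hσ : 0 < σ) (R : ℝ) (ξ : Vec d) :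
    mult σ R ξ = ∫ η in Metric.closedBall (0 : Vec d) R, σ ^ d * gaussKer (σ • (η - ξ)) := by
  have hs : MeasurableSet {Z : Vec d | ‖ξ + σ⁻¹ • Z‖ ≤ R} :=
    measurableSet_le (by fun_prop) measurable_const
  rw [mult, ← integral_indicator_one hs, integral_stdGaussian_vec,
    ← integral_indicator measurableSet_closedBall]
  set F : Vec d → ℝ := fun y =>
    gaussKer (σ • y) * (Metric.closedBall (0 : Vec d) R).indicator 1 (ξ + y)
  have h := Measure.integral_comp_smul_of_nonneg (μ := (volume : Measure (Vec d))) F σ⁻¹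
    (hR := (inv_pos.2 hσ).le)
  have e : ∀ z : Vec d, gaussKer z • Set.indicator {Z : Vec d | ‖ξ + σ⁻¹ • Z‖ ≤ R} 1 z
      = F (σ⁻¹ • z) := by
    intro z
    simp only [F, smul_inv_smul₀ hσ.ne', smul_eq_mul]
    by_cases hz : ‖ξ + σ⁻¹ • z‖ ≤ R
    · rw [Set.indicator_of_mem (mem_closedBall_zero_iff.2 hz),
        Set.indicator_of_mem (show z ∈ {Z : Vec d | ‖ξ + σ⁻¹ • Z‖ ≤ R} from hz)]
      simp
    · rw [Set.indicator_of_notMem (mt mem_closedBall_zero_iff.1 hz),
        Set.indicator_of_notMem (show z ∉ {Z : Vec d | ‖ξ + σ⁻¹ • Z‖ ≤ R} from hz)]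
  simp only [e]
  rw [h, finrank_euclideanSpace_fin, inv_pow, inv_inv, smul_eq_mul, ← integral_const_mul]
  conv_rhs => rw [← integral_add_left_eq_self _ ξ]
  refine integral_congr_ae (ae_of_all _ fun y => ?_)
  simp only [F]
  by_cases hy : ξ + y ∈ Metric.closedBall (0 : Vec d) R
  · simp [Set.indicator_of_mem hy]
  · simp [Set.indicator_of_notMem hy]

/-- The transform of the kernel is the multiplier. -/
theorem integral_kerK_exp {σ : ℝ} (hσ : 0 < σ) (R : ℝ) (ξ : Vec d) :
    ∫ x, (kerK σ R x : ℂ) * cexp ((⟪x, ξ⟫ : ℝ) * I) = (mult σ R ξ : ℂ) := by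
  set S := Metric.closedBall (0 : Vec d) R
  have : IsFiniteMeasure (volume.restrict S) := ⟨by simpa using measure_closedBall_lt_top⟩
  set f : Vec d → Vec d → ℂ := fun x η => (((2 * π) ^ d)⁻¹ : ℝ) *
    ((Real.exp (-‖x‖ ^ 2 / (2 * σ ^ 2)) : ℂ) * cexp ((⟪x, ξ + η⟫ : ℝ) * I))
  have hf : Integrable (Function.uncurry f) (volume.prod (volume.restrict S)) := by
    have h := ((integral_exp_neg_smul (d := d) (c := (2 * σ ^ 2)⁻¹) (by positivity)).1).const_mul
      ((2 * π) ^ d)⁻¹
    refine (h.comp_fst (volume.restrict S)).mono' (Continuous.aestronglyMeasurable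
      (by simp only [f, Function.uncurry_def]; fun_prop)) (ae_of_all _ fun p => ?_)
    simp only [Function.uncurry, f, norm_mul, Complex.norm_exp_ofReal_mul_I, mul_one,
      Complex.norm_real, Real.norm_eq_abs, Real.abs_exp]
    rw [abs_of_pos (by positivity)]
    refine le_of_eq ?_
    congr 2
    ring
  have e : ∀ x, (kerK σ R x : ℂ) * cexp ((⟪x, ξ⟫ : ℝ) * I) = ∫ η in S, f x η := by
    intro x
    simp only [f]
    rw [integral_const_mul, integral_const_mul, kerK, Complex.ofReal_mul, Complex.ofReal_mul,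
      ball_cos_eq, mul_assoc, mul_assoc]
    congr 1
    rw [← mul_assoc, mul_comm _ (Real.exp _ : ℂ), mul_assoc, ← integral_mul_const]
    congr 1
    refine integral_congr_ae (ae_of_all _ fun η => ?_)
    simp only
    rw [← Complex.exp_add, inner_add_right, real_inner_comm x η]
    congr 1
    push_cast
    ring
  simp only [e]
  rw [integral_integral_swap hf]
  simp only [f, integral_const_mul, ft_exp hσ, ← Complex.ofReal_mul]
  rw [integral_complex_ofReal, mult_eq_integral hσ]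
  congr 1
  rw [← integral_indicator measurableSet_closedBall, ← integral_indicator measurableSet_closedBall,
    ← integral_neg_eq_self]
  refine integral_congr_ae (ae_of_all _ fun η => ?_)
  simp only
  by_cases h : η ∈ Metric.closedBall (0 : Vec d) R
  · have h' : -η ∈ Metric.closedBall (0 : Vec d) R := by simpa [mem_closedBall_zero_iff] using h
    rw [Set.indicator_of_mem h', Set.indicator_of_mem h, gaussKer, norm_smul, Real.norm_eq_abs, abs_of_pos hσ, ← sub_eq_add_neg, norm_sub_rev ξ η,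
      gaussConst_vec]
    have hp : ((2 * π) ^ d : ℝ) = √(2 * π) ^ d * √(2 * π) ^ d := by
      rw [← mul_pow, Real.mul_self_sqrt (by positivity)]
    rw [hp, mul_pow]
    field_simp
  · have h' : -η ∉ Metric.closedBall (0 : Vec d) R := by simpa [mem_closedBall_zero_iff] using h
    rw [Set.indicator_of_notMem h', Set.indicator_of_notMem h]

lemma mult_neg (σ R : ℝ) (ξ : Vec d) : mult σ R (-ξ) = mult σ R ξ := by
  have hmap : (stdGaussian (Vec d)).map (fun z : Vec d => -z) = stdGaussian (Vec d) := by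
    refine Measure.ext_of_charFun (funext fun t => ?_)
    rw [charFun_apply, integral_map (by fun_prop) (by fun_prop)]
    have : ∀ z : Vec d, cexp ((⟪-z, t⟫ : ℝ) * I) = cexp ((⟪z, -t⟫ : ℝ) * I) := fun z => by
      rw [inner_neg_left, inner_neg_right]
    simp only [this]
    rw [← charFun_apply, charFun_stdGaussian, charFun_stdGaussian, norm_neg]
  unfold mult
  conv_lhs => rw [← hmap]
  rw [map_measureReal_apply measurable_neg (measurableSet_le (by fun_prop) measurable_const)]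
  congr 1
  ext z
  simp only [Set.mem_preimage, Set.mem_ofPred_eq, smul_neg, ← neg_add, norm_neg]

lemma integrable_mult_prod {σ : ℝ} (hσ : 0 < σ) (R : ℝ) :
    Integrable (fun p : Vec d × Vec d => σ ^ d * gaussKer (σ • (p.2 - p.1)))
      (volume.prod (volume.restrict (Metric.closedBall (0 : Vec d) R))) := by
  have : IsFiniteMeasure (volume.restrict (Metric.closedBall (0 : Vec d) R)) :=
    ⟨by simpa using measure_closedBall_lt_top⟩
  have hg : Integrable fun z : Vec d => σ ^ d * gaussKer (σ • z) :=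
    (integrable_gaussKer.comp_smul hσ.ne').const_mul _
  refine (integrable_prod_iff' ?_).2 ⟨ae_of_all _ fun η => ?_, ?_⟩
  · exact Continuous.aestronglyMeasurable (by unfold gaussKer; fun_prop)
  · exact hg.comp_sub_left η
  · have hc : ∀ η : Vec d, ∫ ξ, ‖σ ^ d * gaussKer (σ • (η - ξ))‖
        = ∫ z, ‖σ ^ d * gaussKer (σ • z)‖ := fun η =>
      integral_sub_left_eq_self (fun z => ‖σ ^ d * gaussKer (σ • z)‖) volume η
    simp only [hc]
    exact integrable_const _

lemma integrable_mult {σ : ℝ} (hσ : 0 < σ) (R : ℝ) : Integrable (mult (d := d) σ R) := by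
  have h := (integrable_mult_prod (d := d) hσ R).integral_prod_left
  exact h.congr (ae_of_all _ fun ξ => (mult_eq_integral hσ R ξ).symm)

/-- The kernel is the inverse transform of the multiplier. -/
theorem kerK_eq_integral {σ : ℝ} (hσ : 0 < σ) (R : ℝ) (x : Vec d) :
    (kerK σ R x : ℂ)
      = (((2 * π) ^ d)⁻¹ : ℝ) * ∫ ξ, (mult σ R ξ : ℂ) * cexp ((⟪x, ξ⟫ : ℝ) * I) := by
  set S := Metric.closedBall (0 : Vec d) R
  set f : Vec d → Vec d → ℂ := fun ξ η =>
    ((σ ^ d * gaussKer (σ • (η - ξ)) : ℝ) : ℂ) * cexp ((⟪x, ξ⟫ : ℝ) * I)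
  have hf : Integrable (Function.uncurry f) (volume.prod (volume.restrict S)) := by
    refine ((integrable_mult_prod (d := d) hσ R).ofReal (𝕜 := ℂ)).mul_bdd (c := 1)
      (Continuous.aestronglyMeasurable (by fun_prop)) (ae_of_all _ fun p => ?_)
    simp [Complex.norm_exp_ofReal_mul_I]
  have e : ∀ ξ, (mult σ R ξ : ℂ) * cexp ((⟪x, ξ⟫ : ℝ) * I) = ∫ η in S, f ξ η := fun ξ => by
    simp only [f]
    rw [integral_mul_const, integral_complex_ofReal, ← mult_eq_integral hσ]
  have e2 : ∀ η, ∫ ξ, f ξ η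
      = cexp ((⟪η, x⟫ : ℝ) * I) * (Real.exp (-‖x‖ ^ 2 / (2 * σ ^ 2)) : ℂ) := by
    intro η
    have h1 : ∀ u, f (u + η) η = ((σ ^ d : ℝ) : ℂ) * (cexp ((⟪η, x⟫ : ℝ) * I) *
        ((gaussKer (σ • u) : ℂ) * cexp ((⟪u, x⟫ : ℝ) * I))) := by
      intro u
      simp only [f, sub_add_cancel_right, smul_neg, inner_add_right]
      rw [show gaussKer (-(σ • u)) = gaussKer (σ • u) by simp [gaussKer], real_inner_comm u x,
        real_inner_comm η x]
      push_cast
      rw [add_mul, Complex.exp_add]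
      ring
    rw [← integral_add_right_eq_self (fun ξ => f ξ η) η]
    simp only [h1]
    rw [integral_const_mul, integral_const_mul, ft_gaussKer hσ]
    push_cast
    field_simp
    exact div_self (pow_ne_zero _ (by exact_mod_cast hσ.ne'))
  simp only [e]
  rw [integral_integral_swap hf]
  simp only [e2]
  rw [integral_mul_const, ← ball_cos_eq, kerK]
  push_cast
  ring

lemma integral_mult {σ : ℝ} (hσ : 0 < σ) (R : ℝ) :
    ∫ ξ : Vec d, mult σ R ξ = volume.real (Metric.closedBall (0 : Vec d) R) := by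
  simp only [mult_eq_integral hσ]
  rw [integral_integral_swap (f := fun (ξ η : Vec d) => σ ^ d * gaussKer (σ • (η - ξ)))
    (integrable_mult_prod hσ R)]
  have e : ∀ η : Vec d, ∫ ξ, σ ^ d * gaussKer (σ • (η - ξ)) = 1 := by
    intro η
    rw [integral_sub_left_eq_self (fun z : Vec d => σ ^ d * gaussKer (σ • z)) volume η,
      integral_const_mul, Measure.integral_comp_smul_of_nonneg (μ := (volume : Measure (Vec d)))
      gaussKer σ (hR := hσ.le), integral_gaussKer, finrank_euclideanSpace_fin, smul_eq_mul, mul_one,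
      mul_inv_cancel₀ (by positivity)]
  simp only [e]
  simp

/-- The multiplier is close to one well inside the ball. -/
lemma one_sub_mult_le {σ R : ℝ} (hσ : 0 < σ) (hR : 0 ≤ R) (hσR : 32 * (d:ℝ) ≤ (σ * R) ^ 2)
    {ξ : Vec d} (hξ : ‖ξ‖ ≤ R / 2) : 1 - mult σ R ξ ≤ Real.exp (-(σ * R) ^ 2 / 32) := by
  have hs : MeasurableSet {Z : Vec d | ‖ξ + σ⁻¹ • Z‖ ≤ R} :=
    measurableSet_le (by fun_prop) measurable_const
  have h1 : 1 - mult σ R ξ ≤ (stdGaussian (Vec d)).real {Z | σ * R / 2 ≤ ‖Z‖} := by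
    rw [mult, ← probReal_compl_eq_one_sub hs]
    refine measureReal_mono (fun Z hZ => ?_) (measure_ne_top _ _)
    simp only [Set.mem_compl_iff, Set.mem_ofPred_eq, not_le] at hZ ⊢
    have h := norm_add_le ξ (σ⁻¹ • Z)
    rw [norm_smul, Real.norm_eq_abs, abs_inv, abs_of_pos hσ] at h
    have h2 : R / 2 ≤ σ⁻¹ * ‖Z‖ := by linarith
    rw [inv_mul_eq_div, le_div_iff₀ hσ] at h2
    linarith
  refine h1.trans ((stdGaussian_tail_le (by positivity)).trans ?_)
  have h3 := sqrt_two_pow_le hσR (-(1/16))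
  rw [show -(σ * R / 2) ^ 2 / 4 = -(1/16) * (σ * R) ^ 2 by ring]
  refine h3.trans (Real.exp_le_exp.2 ?_)
  linarith [sq_nonneg (σ * R)]

/-- The multiplier far outside the ball. -/
lemma mult_le_tail {σ R T : ℝ} (hσ : 0 < σ) (hT : R ≤ T) {ξ : Vec d} (hξ : T ≤ ‖ξ‖) :
    mult σ R ξ ≤ √2 ^ d * Real.exp (-(σ * (T - R)) ^ 2 / 4) := by
  refine le_trans (measureReal_mono (fun Z hZ => ?_) (measure_ne_top _ _))
    (stdGaussian_tail_le (mul_nonneg hσ.le (by linarith)))
  simp only [Set.mem_ofPred_eq] at hZ ⊢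
  have h := norm_sub_le (ξ + σ⁻¹ • Z) (σ⁻¹ • Z)
  rw [add_sub_cancel_right, norm_smul, Real.norm_eq_abs, abs_inv, abs_of_pos hσ] at h
  have h2 : T - R ≤ σ⁻¹ * ‖Z‖ := by linarith
  rw [inv_mul_eq_div, le_div_iff₀ hσ] at h2
  linarith

lemma mult_le_of_two_mul_le {σ R : ℝ} (hσ : 0 < σ) (hR : 0 ≤ R)
    (hσR : 32 * (d:ℝ) ≤ (σ * R) ^ 2) {ξ : Vec d} (hξ : 2 * R ≤ ‖ξ‖) :
    mult σ R ξ ≤ Real.exp (-(σ * R) ^ 2 / 8) := by
  refine (mult_le_tail hσ (by linarith) hξ).trans ?_
  rw [show -(σ * (2 * R - R)) ^ 2 / 4 = -(1/4) * (σ * R) ^ 2 by ring]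
  refine (sqrt_two_pow_le hσR _).trans (Real.exp_le_exp.2 ?_)
  linarith [sq_nonneg (σ * R)]

/-- Gaussian domination of the multiplier. -/
lemma mult_le_exp {σ R l : ℝ} (hσ : 0 < σ) (hl : 0 ≤ l) (hl' : 4 * l < σ ^ 2) (ξ : Vec d) :
    mult σ R ξ ≤ Real.exp (2 * l * R ^ 2) * √((1 - 4 * l / σ ^ 2)⁻¹) ^ d
      * Real.exp (-(l * ‖ξ‖ ^ 2)) := by
  have ha : 2 * l / σ ^ 2 < 1/2 := by rw [div_lt_iff₀ (by positivity)]; linarith
  obtain ⟨hi, hv⟩ := integral_exp_sq_stdGaussian (d := d) ha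
  have hs : MeasurableSet {Z : Vec d | ‖ξ + σ⁻¹ • Z‖ ≤ R} :=
    measurableSet_le (by fun_prop) measurable_const
  rw [mult, ← integral_indicator_one hs]
  refine (integral_mono ((integrable_const (1:ℝ)).indicator hs)
    (hi.const_mul (Real.exp (2 * l * R ^ 2 - l * ‖ξ‖ ^ 2))) fun Z => ?_).trans (le_of_eq ?_)
  · by_cases hZ : Z ∈ {Z : Vec d | ‖ξ + σ⁻¹ • Z‖ ≤ R}
    · simp only [Set.indicator_of_mem hZ]
      rw [← Real.exp_add]
      refine Real.one_le_exp ?_
      rw [Set.mem_ofPred_eq] at hZ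
      have h := norm_sub_le (ξ + σ⁻¹ • Z) (σ⁻¹ • Z)
      rw [add_sub_cancel_right, norm_smul, Real.norm_eq_abs, abs_inv, abs_of_pos hσ] at h
      have hR : 0 ≤ R := (norm_nonneg _).trans hZ
      have h2 : ‖ξ‖ ^ 2 ≤ 2 * R ^ 2 + 2 * (σ⁻¹ * ‖Z‖) ^ 2 := by
        have := pow_le_pow_left₀ (norm_nonneg ξ) (h.trans (add_le_add hZ le_rfl)) 2
        have := two_mul_le_add_sq R (σ⁻¹ * ‖Z‖)
        nlinarith
      have h3 := mul_le_mul_of_nonneg_left h2 hl
      have h4 : l * (2 * (σ⁻¹ * ‖Z‖) ^ 2) = 2 * l / σ ^ 2 * ‖Z‖ ^ 2 := by field_simp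
      linarith
    · rw [Set.indicator_of_notMem hZ]
      positivity
  · rw [integral_const_mul, hv, sub_eq_add_neg, Real.exp_add,
      show 2 * (2 * l / σ ^ 2) = 4 * l / σ ^ 2 by ring]
    ring

/-- The mass of the multiplier outside a larger ball. -/
lemma setIntegral_mult_le {σ R T : ℝ} (hσ : 0 < σ) (hT : R ≤ T) :
    ∫ ξ in {ξ : Vec d | T < ‖ξ‖}, mult σ R ξ
      ≤ volume.real (Metric.closedBall (0 : Vec d) R)
        * (√2 ^ d * Real.exp (-(σ * (T - R)) ^ 2 / 4)) := by
  set U := {ξ : Vec d | T < ‖ξ‖}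
  set S := Metric.closedBall (0 : Vec d) R
  have hU : MeasurableSet U := measurableSet_lt measurable_const measurable_norm
  have : IsFiniteMeasure (volume.restrict S) := ⟨by simpa using measure_closedBall_lt_top⟩
  set f : Vec d → Vec d → ℝ := fun ξ η => U.indicator (fun ξ => σ ^ d * gaussKer (σ • (η - ξ))) ξ
  have hf : Integrable (Function.uncurry f) (volume.prod (volume.restrict S)) := by
    refine ((integrable_mult_prod (d := d) hσ R).indicator
      (hU.preimage (measurable_fst (β := Vec d)))).congr (ae_of_all _ fun p => ?_)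
    by_cases h : p.1 ∈ U
    · simp [Function.uncurry, f, Set.indicator_of_mem h,
        Set.indicator_of_mem (show p ∈ Prod.fst ⁻¹' U from h)]
    · simp [Function.uncurry, f, Set.indicator_of_notMem h,
        Set.indicator_of_notMem (show p ∉ Prod.fst ⁻¹' U from h)]
  have e : ∀ ξ, U.indicator (mult σ R) ξ = ∫ η in S, f ξ η := by
    intro ξ
    by_cases h : ξ ∈ U
    · simp only [f, Set.indicator_of_mem h, mult_eq_integral hσ, S]
    · simp [f, Set.indicator_of_notMem h]
  rw [← integral_indicator hU]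
  simp only [e]
  rw [integral_integral_swap hf]
  have hb : ∀ η ∈ S, ∫ ξ, f ξ η ≤ √2 ^ d * Real.exp (-(σ * (T - R)) ^ 2 / 4) := by
    intro η hη
    refine le_trans ?_ (stdGaussian_tail_le (mul_nonneg hσ.le (sub_nonneg.2 hT)))
    have hs : MeasurableSet {z : Vec d | σ * (T - R) ≤ ‖z‖} :=
      measurableSet_le measurable_const measurable_norm
    rw [← integral_indicator_one hs, integral_stdGaussian_vec]
    set H : Vec d → ℝ := fun z => gaussKer z • {z : Vec d | σ * (T - R) ≤ ‖z‖}.indicator 1 z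
    have hH : Integrable H := by
      refine (integrable_gaussKer.indicator hs).congr (ae_of_all _ fun z => ?_)
      simp only [H, Set.indicator_apply, smul_eq_mul, Pi.one_apply]
      split_ifs <;> ring
    have h2 : ∫ ξ, σ ^ d * H (σ • (η - ξ)) = ∫ z, H z := by
      rw [integral_sub_left_eq_self (fun z : Vec d => σ ^ d * H (σ • z)) volume η, integral_const_mul,
        Measure.integral_comp_smul_of_nonneg (μ := (volume : Measure (Vec d))) H σ (hR := hσ.le),
        finrank_euclideanSpace_fin, smul_eq_mul, ← mul_assoc, mul_inv_cancel₀ (by positivity), one_mul]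
    rw [← h2]
    refine integral_mono ?_ (((hH.comp_smul hσ.ne').comp_sub_left η).const_mul (σ ^ d)) fun ξ => ?_
    · exact (((integrable_gaussKer.comp_smul hσ.ne').const_mul _).comp_sub_left η).indicator hU
    · by_cases h : ξ ∈ U
      · simp only [f, Set.indicator_of_mem h, H]
        have hmem : σ • (η - ξ) ∈ {z : Vec d | σ * (T - R) ≤ ‖z‖} := by
          rw [Set.mem_ofPred_eq, norm_smul, Real.norm_eq_abs, abs_of_pos hσ]
          refine mul_le_mul_of_nonneg_left ?_ hσ.le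
          have h1 : T < ‖ξ‖ := h
          have h3 : ‖η‖ ≤ R := mem_closedBall_zero_iff.1 hη
          have h4 := norm_sub_norm_le ξ η
          rw [norm_sub_rev] at h4
          linarith
        rw [Set.indicator_of_mem hmem, Pi.one_apply, smul_eq_mul, mul_one]
      · simp only [f, Set.indicator_of_notMem h, H, smul_eq_mul]
        exact mul_nonneg (by positivity) (mul_nonneg (gaussKer_nonneg _)
          (Set.indicator_nonneg (fun _ _ => zero_le_one) _))
  refine (setIntegral_mono_on hf.integral_prod_right (integrableOn_const measure_closedBall_lt_top.ne)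
    measurableSet_closedBall hb).trans (le_of_eq ?_)
  simp [S]

/-! ### The kernel in other coordinates -/

lemma measurable_kerB (B : Vec d ≃ₗ[ℝ] Vec d) (σ R : ℝ) : Measurable (kerB B σ R) :=
  measurable_const.mul
    ((measurable_kerK σ R).comp B.symm.toContinuousLinearEquiv.continuous.measurable)

lemma integral_comp_equiv {E : Type*} [NormedAddCommGroup E] [NormedSpace ℝ E]
    (B : Vec d ≃ₗ[ℝ] Vec d) (f : Vec d → E) :
    ∫ x, f (B x) = |LinearMap.det (B : Vec d →ₗ[ℝ] Vec d)|⁻¹ • ∫ x, f x := by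
  have hD : LinearMap.det (B : Vec d →ₗ[ℝ] Vec d) ≠ 0 := (LinearEquiv.isUnit_det' B).ne_zero
  have he : MeasurableEmbedding (B : Vec d → Vec d) :=
    B.toContinuousLinearEquiv.toHomeomorph.toMeasurableEquiv.measurableEmbedding
  have hmap : (volume : Measure (Vec d)).map B
      = ENNReal.ofReal |(LinearMap.det (B : Vec d →ₗ[ℝ] Vec d))⁻¹| • volume :=
    Measure.map_linearMap_addHaar_eq_smul_addHaar volume (f := (B : Vec d →ₗ[ℝ] Vec d)) hD
  rw [← he.integral_map, hmap, integral_smul_measure, ENNReal.toReal_ofReal (abs_nonneg _), abs_inv]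

/-- The multiplier of the kernel in other coordinates. -/
theorem integral_kerB_exp (B : Vec d ≃ₗ[ℝ] Vec d) {σ : ℝ} (hσ : 0 < σ) (R : ℝ) (ξ : Vec d) :
    ∫ x, (kerB B σ R x : ℂ) * cexp ((⟪x, ξ⟫ : ℝ) * I)
      = (mult σ R (LinearMap.adjoint (B : Vec d →ₗ[ℝ] Vec d) ξ) : ℂ) := by
  set D := |LinearMap.det (B : Vec d →ₗ[ℝ] Vec d)|
  have hD : 0 < D := abs_pos.2 (LinearEquiv.isUnit_det' B).ne_zero
  have h := integral_comp_equiv B fun x => (kerB B σ R x : ℂ) * cexp ((⟪x, ξ⟫ : ℝ) * I)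
  have e : ∀ z, (kerB B σ R (B z) : ℂ) * cexp ((⟪B z, ξ⟫ : ℝ) * I)
      = (D⁻¹ : ℝ) • ((kerK σ R z : ℂ)
        * cexp ((⟪z, LinearMap.adjoint (B : Vec d →ₗ[ℝ] Vec d) ξ⟫ : ℝ) * I)) := by
    intro z
    simp only [kerB, LinearEquiv.symm_apply_apply, LinearMap.adjoint_inner_right, Complex.real_smul,
      Complex.ofReal_mul, LinearEquiv.coe_coe, D]
    ring
  simp only [e, integral_smul] at h
  rw [integral_kerK_exp hσ] at h
  exact (smul_right_injective ℂ (inv_ne_zero hD.ne') h).symm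

/-- Convolution with the kernel in other coordinates. -/
lemma integral_kerB_mul (B : Vec d ≃ₗ[ℝ] Vec d) (σ R : ℝ) (v : Vec d → ℝ) (g : Vec d) :
    ∫ x, kerB B σ R (g - x) * v x = convK σ R (fun y => v (B y)) (B.symm g) := by
  set D := |LinearMap.det (B : Vec d →ₗ[ℝ] Vec d)|
  have hD : 0 < D := abs_pos.2 (LinearEquiv.isUnit_det' B).ne_zero
  have h := integral_comp_equiv B fun x => kerB B σ R (g - x) * v x
  have e : ∀ z, kerB B σ R (g - B z) * v (B z)
      = D⁻¹ * (kerK σ R (B.symm g - z) * v (B z)) := by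
    intro z
    simp only [kerB, map_sub, LinearEquiv.symm_apply_apply, D, mul_assoc]
  simp only [e, smul_eq_mul, integral_const_mul] at h
  exact (mul_left_cancel₀ (inv_ne_zero hD.ne') h).symm

/-! ### Superpositions of waves -/

/-- `u` is a superposition of waves of total weight at most `M`, of which at most `ε` is carried
by frequencies above `T`. -/
def Band (u : Vec d → ℝ) (T M ε : ℝ) : Prop :=
  ∃ (Ω : Type) (_ : MeasurableSpace Ω) (μ : Measure Ω) (_ : SFinite μ) (ζ : Ω → Vec d) (f : Ω → ℂ),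
    Measurable ζ ∧ Integrable f μ ∧ ∫ ω, ‖f ω‖ ∂μ ≤ M ∧
    ∫ ω in {ω | T < ‖ζ ω‖}, ‖f ω‖ ∂μ ≤ ε ∧
    ∀ x, (u x : ℂ) = ∫ ω, f ω * cexp ((⟪ζ ω, x⟫ : ℝ) * I) ∂μ

namespace Band

variable {u v : Vec d → ℝ} {T T' M M' ε ε' : ℝ}

lemma abs_le (h : Band u T M ε) (x : Vec d) : |u x| ≤ M := by
  obtain ⟨Ω, _, μ, _, ζ, f, hζ, hf, hM, -, hu⟩ := h
  rw [← Real.norm_eq_abs, ← Complex.norm_real, hu]
  refine le_trans (norm_integral_le_integral_norm _) (le_of_eq_of_le ?_ hM)
  simp [Complex.norm_exp_ofReal_mul_I]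

lemma mono (h : Band u T M ε) (hT : T ≤ T') (hM : M ≤ M') (hε : ε ≤ ε') : Band u T' M' ε' := by
  obtain ⟨Ω, _, μ, _, ζ, f, hζ, hf, hM0, hε0, hu⟩ := h
  refine ⟨Ω, _, μ, inferInstance, ζ, f, hζ, hf, hM0.trans hM, ?_, hu⟩
  exact le_trans (setIntegral_mono_set hf.norm.integrableOn
    (ae_of_all _ fun _ => norm_nonneg _) (Filter.Eventually.of_forall fun ω (hω : T' < ‖ζ ω‖) =>
      show T < ‖ζ ω‖ from lt_of_le_of_lt hT hω)) (hε0.trans hε)

lemma const (c : ℝ) (hT : 0 ≤ T) : Band (fun _ : Vec d => c) T |c| 0 := by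
  refine ⟨Unit, inferInstance, Measure.dirac (), inferInstance, fun _ => 0, fun _ => (c : ℂ),
    measurable_const, integrable_const _, ?_, ?_, fun x => ?_⟩
  · simp
  · rw [show {ω : Unit | T < ‖(0 : Vec d)‖} = ∅ by ext ω; simp [hT]]
    simp
  · simp

lemma continuous (h : Band u T M ε) : Continuous u := by
  obtain ⟨Ω, _, μ, _, ζ, f, hζ, hf, -, -, hu⟩ := h
  have e : u = fun x => (∫ ω, f ω * cexp ((⟪ζ ω, x⟫ : ℝ) * I) ∂μ).re := funext fun x => by
    rw [← hu, Complex.ofReal_re]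
  rw [e]
  refine Complex.continuous_re.comp (continuous_of_dominated (bound := fun ω => ‖f ω‖)
    (fun x => hf.aestronglyMeasurable.mul (Measurable.aestronglyMeasurable (by fun_prop)))
    (fun x => ae_of_all _ fun ω => by simp [Complex.norm_exp_ofReal_mul_I]) hf.norm
    (ae_of_all _ fun ω => by fun_prop))

lemma mul (hu : Band u T M ε) (hv : Band v T' M' ε') :
    Band (fun x => u x * v x) (T + T') (M * M') (M * ε' + ε * M') := by
  obtain ⟨Ω, _, μ, _, ζ, f, hζ, hf, hM, hε, hu⟩ := hu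
  obtain ⟨Ω', _, μ', _, ζ', g, hζ', hg, hM', hε', hv⟩ := hv
  have hζp : Measurable fun p : Ω × Ω' => ζ p.1 + ζ' p.2 :=
    (hζ.comp measurable_fst).add (hζ'.comp measurable_snd)
  have hfg : Integrable (fun p : Ω × Ω' => f p.1 * g p.2) (μ.prod μ') := hf.mul_prod hg
  have hM0 : 0 ≤ M := le_trans (integral_nonneg fun _ => norm_nonneg _) hM
  have hM0' : 0 ≤ M' := le_trans (integral_nonneg fun _ => norm_nonneg _) hM'
  refine ⟨Ω × Ω', inferInstance, μ.prod μ', inferInstance, fun p => ζ p.1 + ζ' p.2,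
    fun p => f p.1 * g p.2, hζp, hfg, ?_, ?_, fun x => ?_⟩
  · simp only [norm_mul]
    rw [integral_prod_mul (f := fun a => ‖f a‖) (g := fun b => ‖g b‖)]
    exact mul_le_mul hM hM' (integral_nonneg fun _ => norm_nonneg _) hM0
  · set S := {a : Ω | T < ‖ζ a‖}
    set S' := {b : Ω' | T' < ‖ζ' b‖}
    have hS : MeasurableSet S := measurableSet_lt measurable_const hζ.norm
    have hS' : MeasurableSet S' := measurableSet_lt measurable_const hζ'.norm
    set F₁ := fun p : Ω × Ω' => S.indicator (fun a => ‖f a‖) p.1 * ‖g p.2‖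
    set F₂ := fun p : Ω × Ω' => ‖f p.1‖ * S'.indicator (fun b => ‖g b‖) p.2
    have h1 : Integrable F₁ (μ.prod μ') := (hf.norm.indicator hS).mul_prod hg.norm
    have h2 : Integrable F₂ (μ.prod μ') := hf.norm.mul_prod (hg.norm.indicator hS')
    have hP : MeasurableSet {p : Ω × Ω' | T + T' < ‖ζ p.1 + ζ' p.2‖} :=
      measurableSet_lt measurable_const hζp.norm
    rw [← integral_indicator hP]
    calc ∫ p, {p : Ω × Ω' | T + T' < ‖ζ p.1 + ζ' p.2‖}.indicator
          (fun p => ‖f p.1 * g p.2‖) p ∂μ.prod μ'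
        ≤ ∫ p, (F₁ p + F₂ p) ∂μ.prod μ' := by
          refine integral_mono (hfg.norm.indicator hP) (h1.add h2) fun p => ?_
          have n1 : 0 ≤ F₁ p := mul_nonneg (Set.indicator_nonneg (fun _ _ => norm_nonneg _) _)
            (norm_nonneg _)
          have n2 : 0 ≤ F₂ p := mul_nonneg (norm_nonneg _)
            (Set.indicator_nonneg (fun _ _ => norm_nonneg _) _)
          by_cases hp : T + T' < ‖ζ p.1 + ζ' p.2‖
          · rw [Set.indicator_of_mem (show p ∈ {p : Ω × Ω' | T + T' < ‖ζ p.1 + ζ' p.2‖} from hp),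
              norm_mul]
            by_cases ha : p.1 ∈ S
            · have : ‖f p.1‖ * ‖g p.2‖ = F₁ p := by simp [F₁, Set.indicator_of_mem ha]
              linarith
            · have hb : p.2 ∈ S' := by
                have := norm_add_le (ζ p.1) (ζ' p.2)
                simp only [S, S', Set.mem_ofPred_eq, not_lt] at ha ⊢
                linarith
              have : ‖f p.1‖ * ‖g p.2‖ = F₂ p := by simp [F₂, Set.indicator_of_mem hb]
              linarith
          · rw [Set.indicator_of_notMem (show p ∉ {p : Ω × Ω' | T + T' < ‖ζ p.1 + ζ' p.2‖} from hp)]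
            linarith
      _ = (∫ a in S, ‖f a‖ ∂μ) * (∫ b, ‖g b‖ ∂μ') + (∫ a, ‖f a‖ ∂μ) * ∫ b in S', ‖g b‖ ∂μ' := by
          rw [integral_add h1 h2]
          simp only [F₁, F₂]
          rw [integral_prod_mul (f := S.indicator fun a => ‖f a‖) (g := fun b => ‖g b‖),
            integral_prod_mul (f := fun a => ‖f a‖) (g := S'.indicator fun b => ‖g b‖),
            integral_indicator hS, integral_indicator hS']
      _ ≤ ε * M' + M * ε' := add_le_add
          (mul_le_mul hε hM' (integral_nonneg fun _ => norm_nonneg _)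
            (le_trans (setIntegral_nonneg hS fun _ _ => norm_nonneg _) hε))
          (mul_le_mul hM hε' (setIntegral_nonneg hS' fun _ _ => norm_nonneg _) hM0)
      _ = _ := by ring
  · rw [Complex.ofReal_mul, hu, hv, ← integral_prod_mul]
    refine integral_congr_ae (ae_of_all _ fun p => ?_)
    simp only [inner_add_left, Complex.ofReal_add, add_mul, Complex.exp_add]
    ring

lemma const_mul (c : ℝ) (hv : Band v T M ε) : Band (fun x => c * v x) T (|c| * M) (|c| * ε) := by
  have h := (const (d := d) c (le_refl 0)).mul hv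
  simpa using h

/-- Composition with an affine map. -/
lemma comp_affine (hu : Band u T M ε) (a : Vec d) (C : Vec d →ₗ[ℝ] Vec d)
    (hC : ∀ ξ, ‖ξ‖ ≤ T → ‖LinearMap.adjoint C ξ‖ ≤ T') :
    Band (fun y => u (a + C y)) T' M ε := by
  obtain ⟨Ω, _, μ, _, ζ, f, hζ, hf, hM, hε, hu⟩ := hu
  have hζ' : Measurable fun ω => LinearMap.adjoint C (ζ ω) :=
    (LinearMap.adjoint C).continuous_of_finiteDimensional.measurable.comp hζ
  have hn : ∀ ω, ‖f ω * cexp ((⟪ζ ω, a⟫ : ℝ) * I)‖ = ‖f ω‖ := fun ω => by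
    simp [Complex.norm_exp_ofReal_mul_I]
  refine ⟨Ω, _, μ, inferInstance, fun ω => LinearMap.adjoint C (ζ ω),
    fun ω => f ω * cexp ((⟪ζ ω, a⟫ : ℝ) * I), hζ', ?_, ?_, ?_, fun y => ?_⟩
  · exact hf.mul_bdd (c := 1) (Measurable.aestronglyMeasurable (by fun_prop))
      (ae_of_all _ fun ω => by simp [Complex.norm_exp_ofReal_mul_I])
  · simpa only [hn] using hM
  · simp only [hn]
    refine le_trans (setIntegral_mono_set hf.norm.integrableOn
      (ae_of_all _ fun _ => norm_nonneg _) (Filter.Eventually.of_forall fun ω hω => ?_)) hε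
    by_contra h
    exact absurd (hC _ (not_lt.1 h)) (not_le.2 hω)
  · rw [hu]
    refine integral_congr_ae (ae_of_all _ fun ω => ?_)
    simp only [inner_add_right, LinearMap.adjoint_inner_left, Complex.ofReal_add, add_mul,
      Complex.exp_add]
    ring

/-- A band function is nearly fixed by the kernel. -/
theorem abs_sub_convK_le (hu : Band u T M ε) {σ R δ : ℝ} (hσ : 0 < σ)
    (hδ : ∀ ξ : Vec d, ‖ξ‖ ≤ T → 1 - mult σ R ξ ≤ δ) (hδ0 : 0 ≤ δ) (x : Vec d) :
    |u x - convK σ R u x| ≤ M * δ + ε := by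
  obtain ⟨Ω, _, μ, _, ζ, f, hζ, hf, hM, hε, hu⟩ := hu
  have hk := (integrable_kerK (d := d) hσ R)
  have e1 : (convK σ R u x : ℂ)
      = ∫ ω, f ω * cexp ((⟪ζ ω, x⟫ : ℝ) * I) * (mult σ R (ζ ω) : ℂ) ∂μ := by
    have hsub : ∫ y, kerK σ R (x - y) * u y = ∫ z, kerK σ R z * u (x - z) := by
      rw [← integral_sub_left_eq_self (fun z => kerK σ R z * u (x - z)) volume x]
      simp only [sub_sub_cancel]
    rw [convK, hsub, ← integral_complex_ofReal]
    simp only [Complex.ofReal_mul, hu, ← integral_const_mul]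
    have hF : Integrable (Function.uncurry fun (z : Vec d) (ω : Ω) =>
        (kerK σ R z : ℂ) * (f ω * cexp ((⟪ζ ω, x - z⟫ : ℝ) * I))) (volume.prod μ) := by
      refine (((hk.ofReal (𝕜 := ℂ)).mul_prod hf).mul_bdd (c := 1)
        (g := fun p : Vec d × Ω => cexp ((⟪ζ p.2, x - p.1⟫ : ℝ) * I)) ?_
        (ae_of_all _ fun p => ?_)).congr (ae_of_all _ fun p => ?_)
      · exact (Measurable.aestronglyMeasurable (by fun_prop))
      · simp [Complex.norm_exp_ofReal_mul_I]
      · simp only [Function.uncurry, RCLike.ofReal_eq_complex_ofReal]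
        ring
    rw [integral_integral_swap hF]
    refine integral_congr_ae (ae_of_all _ fun ω => ?_)
    simp only
    have e : ∀ z, (kerK σ R z : ℂ) * (f ω * cexp ((⟪ζ ω, x - z⟫ : ℝ) * I))
        = f ω * cexp ((⟪ζ ω, x⟫ : ℝ) * I) * ((kerK σ R z : ℂ) * cexp ((⟪z, -ζ ω⟫ : ℝ) * I)) := by
      intro z
      rw [inner_sub_right, inner_neg_right, real_inner_comm z (ζ ω), sub_eq_add_neg,
        Complex.ofReal_add, add_mul, Complex.exp_add]
      ring
    simp only [e]
    rw [integral_const_mul, integral_kerK_exp hσ, mult_neg]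
  have hi : Integrable (fun ω => f ω * cexp ((⟪ζ ω, x⟫ : ℝ) * I)) μ :=
    hf.mul_bdd (c := 1) (Measurable.aestronglyMeasurable (by fun_prop))
      (ae_of_all _ fun ω => by simp [Complex.norm_exp_ofReal_mul_I])
  have hi2 : Integrable (fun ω => f ω * cexp ((⟪ζ ω, x⟫ : ℝ) * I) * (mult σ R (ζ ω) : ℂ)) μ :=
    hi.mul_bdd (c := 1)
      ((Complex.measurable_ofReal.comp ((measurable_mult σ R).comp hζ)).aestronglyMeasurable)
      (ae_of_all _ fun ω => by
        simpa [Complex.norm_real] using abs_mult_le_one σ R (ζ ω))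
  rw [← Real.norm_eq_abs, ← Complex.norm_real, Complex.ofReal_sub, hu, e1, ← integral_sub hi hi2]
  set S := {ω : Ω | T < ‖ζ ω‖}
  have hS : MeasurableSet S := measurableSet_lt measurable_const hζ.norm
  refine (norm_integral_le_integral_norm _).trans ?_
  refine (integral_mono (hi.sub hi2).norm
    ((hf.norm.const_mul δ).add (hf.norm.indicator hS)) fun ω => ?_).trans ?_
  · simp only [Pi.add_apply, Pi.sub_apply]
    rw [← mul_one_sub, norm_mul, norm_mul, Complex.norm_exp_ofReal_mul_I, mul_one,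
      ← Complex.ofReal_one, ← Complex.ofReal_sub, Complex.norm_real, Real.norm_eq_abs,
      abs_of_nonneg (by linarith [mult_le_one σ R (ζ ω)])]
    by_cases hω : ω ∈ S
    · rw [Set.indicator_of_mem hω]
      have := mul_le_of_le_one_right (norm_nonneg (f ω))
        (show 1 - mult σ R (ζ ω) ≤ 1 by linarith [mult_nonneg σ R (ζ ω)])
      linarith [mul_nonneg hδ0 (norm_nonneg (f ω))]
    · rw [Set.indicator_of_notMem hω, add_zero, mul_comm δ]
      exact mul_le_mul_of_nonneg_left (hδ _ (not_lt.1 hω)) (norm_nonneg _)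
  · rw [integral_add' (hf.norm.const_mul δ) (hf.norm.indicator hS), integral_const_mul,
      integral_indicator hS, mul_comm M]
    exact add_le_add (mul_le_mul_of_nonneg_left hM hδ0) hε

end Band

/-- A convolution with the kernel is a band function. -/
theorem band_convK {σ R T : ℝ} (hσ : 0 < σ) (hT : R ≤ T) {v : Vec d → ℝ} (hv : Integrable v) :
    Band (convK σ R v) T
      (((2 * π) ^ d)⁻¹ * volume.real (Metric.closedBall (0 : Vec d) R) * ∫ y, |v y|)
      (((2 * π) ^ d)⁻¹ * volume.real (Metric.closedBall (0 : Vec d) R)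
        * (√2 ^ d * Real.exp (-(σ * (T - R)) ^ 2 / 4)) * ∫ y, |v y|) := by
  set c : ℝ := ((2 * π) ^ d)⁻¹
  have hc : 0 ≤ c := by positivity
  set f : Vec d × Vec d → ℂ := fun p => ((c * mult σ R p.1 : ℝ) : ℂ) *
    ((v p.2 : ℂ) * cexp (-(⟪p.1, p.2⟫ : ℝ) * I))
  have hf : Integrable f (volume.prod volume) := by
    refine ((((integrable_mult (d := d) hσ R).const_mul c).ofReal (𝕜 := ℂ)).mul_prod
      (hv.ofReal (𝕜 := ℂ))).mul_bdd (c := 1)
      (g := fun p : Vec d × Vec d => cexp (-(⟪p.1, p.2⟫ : ℝ) * I))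
      (Continuous.aestronglyMeasurable (by fun_prop)) (ae_of_all _ fun p => ?_) |>.congr
      (ae_of_all _ fun p => ?_)
    · simp [Complex.norm_exp]
    · simp only [f, RCLike.ofReal_eq_complex_ofReal]
      ring
  have hn : ∀ p : Vec d × Vec d, ‖f p‖ = c * mult σ R p.1 * |v p.2| := fun p => by
    simp only [f, norm_mul, Complex.norm_real, Real.norm_eq_abs]
    rw [abs_of_nonneg hc, abs_of_nonneg (mult_nonneg σ R p.1),
      show ‖cexp (-(⟪p.1, p.2⟫ : ℝ) * I)‖ = 1 by simp [Complex.norm_exp], mul_one]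
  refine ⟨Vec d × Vec d, inferInstance, volume.prod volume, inferInstance, Prod.fst, f,
    measurable_fst, hf, ?_, ?_, fun x => ?_⟩
  · simp only [hn]
    rw [integral_prod_mul (f := fun ξ => c * mult σ R ξ) (g := fun y => |v y|), integral_const_mul,
      integral_mult hσ]
  · simp only [hn]
    have hset : {p : Vec d × Vec d | T < ‖p.1‖} = {ξ : Vec d | T < ‖ξ‖} ×ˢ Set.univ := by
      ext p; simp
    rw [hset, setIntegral_prod_mul (fun ξ => c * mult σ R ξ) (fun y => |v y|), integral_const_mul,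
      setIntegral_univ]
    refine (mul_le_mul_of_nonneg_right (mul_le_mul_of_nonneg_left (setIntegral_mult_le hσ hT) hc)
      (integral_nonneg fun y => abs_nonneg (v y))).trans (le_of_eq (by ring))
  · have hfx : Integrable (fun p => f p * cexp ((⟪p.1, x⟫ : ℝ) * I)) (volume.prod volume) :=
      hf.mul_bdd (c := 1) (Continuous.aestronglyMeasurable (by fun_prop))
        (ae_of_all _ fun p => by simp [Complex.norm_exp_ofReal_mul_I])
    rw [integral_prod_symm _ hfx, convK, ← integral_complex_ofReal]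
    refine integral_congr_ae (ae_of_all _ fun y => ?_)
    simp only
    have e : ∀ ξ, f (ξ, y) * cexp ((⟪ξ, x⟫ : ℝ) * I)
        = (c : ℂ) * (v y : ℂ) * ((mult σ R ξ : ℂ) * cexp ((⟪x - y, ξ⟫ : ℝ) * I)) := by
      intro ξ
      simp only [f]
      rw [inner_sub_left, real_inner_comm ξ y, real_inner_comm ξ x, sub_eq_add_neg, add_comm,
        Complex.ofReal_add, Complex.ofReal_neg, add_mul, Complex.exp_add]
      push_cast
      ring
    simp only [e]
    rw [integral_const_mul, Complex.ofReal_mul, kerK_eq_integral hσ]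
    ring

/-- A convolution with the kernel in other coordinates is a band function of those coordinates. -/
theorem band_convKB (B : Vec d ≃ₗ[ℝ] Vec d) {σ R T : ℝ} (hσ : 0 < σ) (hT : R ≤ T) {v : Vec d → ℝ}
    (hv : Integrable v) :
    Band (fun z => ∫ x, kerB B σ R (B z - x) * v x) T
      (((2 * π) ^ d)⁻¹ * volume.real (Metric.closedBall (0 : Vec d) R)
        * (|LinearMap.det (B : Vec d →ₗ[ℝ] Vec d)|⁻¹ * ∫ x, |v x|))
      (((2 * π) ^ d)⁻¹ * volume.real (Metric.closedBall (0 : Vec d) R)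
        * (√2 ^ d * Real.exp (-(σ * (T - R)) ^ 2 / 4))
        * (|LinearMap.det (B : Vec d →ₗ[ℝ] Vec d)|⁻¹ * ∫ x, |v x|)) := by
  have hD : LinearMap.det (B : Vec d →ₗ[ℝ] Vec d) ≠ 0 := (LinearEquiv.isUnit_det' B).ne_zero
  have he : MeasurableEmbedding (B : Vec d → Vec d) :=
    B.toContinuousLinearEquiv.toHomeomorph.toMeasurableEquiv.measurableEmbedding
  have hvB : Integrable fun y => v (B y) := by
    refine (he.integrable_map_iff (g := v)).1 ?_
    have hmap : (volume : Measure (Vec d)).map B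
        = ENNReal.ofReal |(LinearMap.det (B : Vec d →ₗ[ℝ] Vec d))⁻¹| • volume :=
      Measure.map_linearMap_addHaar_eq_smul_addHaar volume (f := (B : Vec d →ₗ[ℝ] Vec d)) hD
    rw [hmap]
    exact hv.smul_measure ENNReal.ofReal_ne_top
  have h := band_convK (T := T) hσ hT hvB
  have e : (fun z => ∫ x, kerB B σ R (B z - x) * v x) = convK σ R fun y => v (B y) :=
    funext fun z => by rw [integral_kerB_mul, LinearEquiv.symm_apply_apply]
  have e2 : ∫ y, |v (B y)| = |LinearMap.det (B : Vec d →ₗ[ℝ] Vec d)|⁻¹ * ∫ x, |v x| :=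
    (integral_comp_equiv B fun x => |v x|).trans (smul_eq_mul _ _)
  rw [e, ← e2]
  exact h

/-! ### The smoothed indicator -/

lemma chi_nonneg (σ r : ℝ) (y : Vec d) : 0 ≤ chi σ r y := mult_nonneg _ _ _

lemma chi_le_one (σ r : ℝ) (y : Vec d) : chi σ r y ≤ 1 := mult_le_one _ _ _

lemma measurable_chi (σ r : ℝ) : Measurable (chi (d := d) σ r) := measurable_mult _ _

lemma one_sub_chi_le {σ r : ℝ} (hσ : 0 < σ) (hr : 0 ≤ r) (hσr : 32 * (d:ℝ) ≤ (r / σ) ^ 2)
    {y : Vec d} (hy : ‖y‖ ≤ r / 2) : 1 - chi σ r y ≤ Real.exp (-(r / σ) ^ 2 / 32) := by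
  rw [div_eq_inv_mul r σ] at hσr ⊢
  exact one_sub_mult_le (inv_pos.2 hσ) hr hσr hy

lemma chi_le_outside {σ r : ℝ} (hσ : 0 < σ) (hr : 0 ≤ r) (hσr : 32 * (d:ℝ) ≤ (r / σ) ^ 2)
    {y : Vec d} (hy : 2 * r ≤ ‖y‖) : chi σ r y ≤ Real.exp (-(r / σ) ^ 2 / 8) := by
  rw [div_eq_inv_mul r σ] at hσr ⊢
  exact mult_le_of_two_mul_le (inv_pos.2 hσ) hr hσr hy

/-- The smoothed indicator is a band function. -/
theorem band_chi {σ r T : ℝ} (hσ : 0 < σ) (hT : 0 ≤ T) :
    Band (chi (d := d) σ r) T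
      (((2 * π) ^ d)⁻¹ * volume.real (Metric.closedBall (0 : Vec d) r) * (√(2 * π) / σ) ^ d)
      (((2 * π) ^ d)⁻¹ * volume.real (Metric.closedBall (0 : Vec d) r) * (√(4 * π) / σ) ^ d
        * Real.exp (-(σ * T) ^ 2 / 4)) := by
  have hσi : 0 < σ⁻¹ := inv_pos.2 hσ
  refine ⟨Vec d, inferInstance, volume, inferInstance, id, fun w => (kerK σ⁻¹ r w : ℂ),
    measurable_id, (integrable_kerK hσi r).ofReal, ?_, ?_, fun y => ?_⟩
  · simp only [Complex.norm_real, Real.norm_eq_abs]
    exact (integral_abs_kerK_le hσi r).trans (le_of_eq (by rw [← div_eq_mul_inv]))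
  · simp only [Complex.norm_real, Real.norm_eq_abs, id]
    refine (setIntegral_abs_kerK_le hσi hT r).trans (le_of_eq ?_)
    rw [div_inv_eq_mul, ← div_eq_mul_inv, mul_comm T σ]
  · rw [chi, ← integral_kerK_exp hσi]
    rfl

end Vale.Agent.P309.Sharp
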