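import Vale.Agent.P309.Sharp.Tools
import Mathlib.Analysis.InnerProductSpace.Spectrum

/-! Diagonal maps, the preconditioner of a list of picks, and sub-families. -/

namespace Vale.Agent.P309.Sharp

open MeasureTheory ProbabilityTheory
open scoped RealInnerProductSpace Real ENNReal

variable {d : ℕ}

/-- The map with given eigenvalues in an orthonormal basis. -/
noncomputable def diag (b : OrthonormalBasis (Fin d) ℝ (Vec d)) (f : Fin d → ℝ) :
    Vec d →ₗ[ℝ] Vec d where
  toFun x := ∑ i, (f i * ⟪b i, x⟫) • b i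
  map_add' x y := by simp [inner_add_right, mul_add, add_smul, Finset.sum_add_distrib]
  map_smul' c x := by simp [inner_smul_right, Finset.smul_sum, smul_smul, mul_left_comm]

variable {b : OrthonormalBasis (Fin d) ℝ (Vec d)} {f h : Fin d → ℝ}

lemma inner_diag (x : Vec d) (i : Fin d) : ⟪b i, diag b f x⟫ = f i * ⟪b i, x⟫ := by
  simp only [diag, LinearMap.coe_mk, AddHom.coe_mk]
  exact b.orthonormal.inner_right_fintype _ i

lemma diag_diag (x : Vec d) : diag b f (diag b h x) = diag b (fun i => f i * h i) x := by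
  conv_lhs => rw [diag]
  simp only [LinearMap.coe_mk, AddHom.coe_mk, inner_diag]
  simp [diag, mul_assoc]

lemma diag_one (x : Vec d) : diag b (fun _ => 1) x = x := by
  simp [diag, b.sum_repr' x]

lemma diag_congr (hfh : ∀ i, f i = h i) (x : Vec d) : diag b f x = diag b h x := by
  rw [funext hfh]

lemma inner_diag_left (x y : Vec d) : ⟪diag b f x, y⟫ = ∑ i, f i * ⟪b i, x⟫ * ⟪b i, y⟫ := by
  simp [diag, sum_inner, inner_smul_left]

lemma diag_symm (x y : Vec d) : ⟪diag b f x, y⟫ = ⟪x, diag b f y⟫ := by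
  rw [inner_diag_left, real_inner_comm (diag b f y), inner_diag_left]
  exact Finset.sum_congr rfl fun i _ => by ring

lemma norm_sq_diag (x : Vec d) : ‖diag b f x‖ ^ 2 = ∑ i, f i ^ 2 * ⟪b i, x⟫ ^ 2 := by
  rw [← b.sum_sq_inner_right]
  simp [inner_diag, mul_pow]

lemma norm_diag_le {c : ℝ} (hc : ∀ i, |f i| ≤ c) (hc0 : 0 ≤ c) (x : Vec d) :
    ‖diag b f x‖ ≤ c * ‖x‖ := by
  rw [← sq_le_sq₀ (norm_nonneg _) (by positivity), norm_sq_diag, mul_pow, ← b.sum_sq_inner_right x,
    Finset.mul_sum]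
  refine Finset.sum_le_sum fun i _ => mul_le_mul_of_nonneg_right ?_ (sq_nonneg _)
  rw [← sq_abs]
  exact pow_le_pow_left₀ (abs_nonneg _) (hc i) 2

/-- An invertible diagonal map. -/
noncomputable def diagEquiv (b : OrthonormalBasis (Fin d) ℝ (Vec d)) (f : Fin d → ℝ)
    (hf : ∀ i, f i ≠ 0) : Vec d ≃ₗ[ℝ] Vec d :=
  LinearEquiv.ofLinearMap (diag b f) (diag b fun i => (f i)⁻¹)
    (LinearMap.ext fun x => by
      rw [LinearMap.comp_apply, diag_diag, diag_congr fun i => mul_inv_cancel₀ (hf i), diag_one]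
      rfl)
    (LinearMap.ext fun x => by
      rw [LinearMap.comp_apply, diag_diag, diag_congr fun i => inv_mul_cancel₀ (hf i), diag_one]
      rfl)

lemma diagEquiv_apply (hf : ∀ i, f i ≠ 0) (x : Vec d) : diagEquiv b f hf x = diag b f x := rfl

lemma diagEquiv_symm_apply (hf : ∀ i, f i ≠ 0) (x : Vec d) :
    (diagEquiv b f hf).symm x = diag b (fun i => (f i)⁻¹) x := rfl

lemma det_diag : LinearMap.det (diag b f) = ∏ i, f i := by
  classical
  rw [← LinearMap.det_toMatrix b.toBasis]
  have : LinearMap.toMatrix b.toBasis b.toBasis (diag b f) = Matrix.diagonal f := by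
    ext i j
    rw [LinearMap.toMatrix_apply, OrthonormalBasis.coe_toBasis_repr_apply,
      OrthonormalBasis.repr_apply_apply, inner_diag, OrthonormalBasis.coe_toBasis,
      orthonormal_iff_ite.1 b.orthonormal i j, Matrix.diagonal_apply]
    split <;> simp
  rw [this, Matrix.det_diagonal]

/-- A basis adapted to the symmetric form given by finitely many vectors. -/
lemma exists_basis_quad {i : ℕ} (W : Fin i → Vec d) :
    ∃ (b : OrthonormalBasis (Fin d) ℝ (Vec d)) (lam : Fin d → ℝ), (∀ j, 0 ≤ lam j) ∧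
      (∀ g, ∑ j, ⟪W j, g⟫ ^ 2 = ∑ j, lam j * ⟪b j, g⟫ ^ 2) ∧
      ∀ v, (∀ j, ⟪W j, v⟫ = 0) → ∀ j, lam j * ⟪b j, v⟫ = 0 := by
  set M : Vec d →ₗ[ℝ] Vec d :=
    { toFun := fun g => ∑ j, ⟪W j, g⟫ • W j
      map_add' := fun x y => by simp [inner_add_right, add_smul, Finset.sum_add_distrib]
      map_smul' := fun c x => by simp [inner_smul_right, Finset.smul_sum, smul_smul] }
  have hM : M.IsSymmetric := fun x y => by
    simp [M, sum_inner, inner_sum, inner_smul_left, inner_smul_right, real_inner_comm x, mul_comm]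
  have hn : Module.finrank ℝ (Vec d) = d := finrank_euclideanSpace_fin
  set b := hM.eigenvectorBasis hn
  set lam := hM.eigenvalues hn
  have hev : ∀ j, M (b j) = lam j • b j := fun j =>
    hM.apply_eigenvectorBasis hn j
  have hip : ∀ v j, ⟪M v, b j⟫ = lam j * ⟪b j, v⟫ := fun v j => by
    rw [hM, hev, inner_smul_right, real_inner_comm]
  have hform : ∀ g, ∑ j, ⟪W j, g⟫ ^ 2 = ⟪M g, g⟫ := fun g => by
    simp [M, sum_inner, inner_smul_left, sq]
  refine ⟨b, lam, fun j => ?_, fun g => ?_, fun v hv j => ?_⟩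
  · have h1 : ⟪M (b j), b j⟫ = lam j := by
      rw [hev, real_inner_smul_left, real_inner_self_eq_norm_sq, b.orthonormal.norm_eq_one]
      ring
    rw [← h1, ← hform]
    positivity
  · rw [hform, ← b.sum_inner_mul_inner (M g) g]
    refine Finset.sum_congr rfl fun j _ => ?_
    rw [hip]
    ring
  · have : M v = 0 := by simp [M, hv]
    rw [← hip, this, inner_zero_left]

/-- The basis of a list of picks. -/
noncomputable def pickBasis {i : ℕ} (W : Fin i → Vec d) : OrthonormalBasis (Fin d) ℝ (Vec d) :=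
  (exists_basis_quad W).choose

/-- The eigenvalues of a list of picks. -/
noncomputable def pickVal {i : ℕ} (W : Fin i → Vec d) : Fin d → ℝ :=
  (exists_basis_quad W).choose_spec.choose

lemma pick_spec {i : ℕ} (W : Fin i → Vec d) : (∀ j, 0 ≤ pickVal W j) ∧
      (∀ g, ∑ j, ⟪W j, g⟫ ^ 2 = ∑ j, pickVal W j * ⟪pickBasis W j, g⟫ ^ 2) ∧
      ∀ v, (∀ j, ⟪W j, v⟫ = 0) → ∀ j, pickVal W j * ⟪pickBasis W j, v⟫ = 0 :=
  (exists_basis_quad W).choose_spec.choose_spec

/-- The singular values of the preconditioner. -/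
noncomputable def pickScale {i : ℕ} (W : Fin i → Vec d) (j : Fin d) : ℝ := (√(1 + pickVal W j))⁻¹

lemma pickScale_pos {i : ℕ} (W : Fin i → Vec d) (j : Fin d) : 0 < pickScale W j := by
  have := (pick_spec W).1 j
  unfold pickScale
  positivity

lemma pickScale_le_one {i : ℕ} (W : Fin i → Vec d) (j : Fin d) : pickScale W j ≤ 1 := by
  have := (pick_spec W).1 j
  exact inv_le_one_of_one_le₀ (Real.one_le_sqrt.2 (by linarith))

/-- The preconditioner `(1 + ∑ w wᵀ)^(-1/2)`. -/
noncomputable def precond {i : ℕ} (W : Fin i → Vec d) : Vec d ≃ₗ[ℝ] Vec d :=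
  diagEquiv (pickBasis W) (pickScale W) fun j => (pickScale_pos W j).ne'

lemma precond_eq_self {i : ℕ} {W : Fin i → Vec d} {v : Vec d} (hv : ∀ j, ⟪W j, v⟫ = 0) :
    precond W v = v := by
  rw [precond, diagEquiv_apply]
  conv_rhs => rw [← diag_one (b := pickBasis W) v]
  simp only [diag, LinearMap.coe_mk, AddHom.coe_mk]
  refine Finset.sum_congr rfl fun j _ => ?_
  rcases mul_eq_zero.1 ((pick_spec W).2.2 v hv j) with h | h
  · simp [pickScale, h]
  · simp [h]

lemma norm_sq_precond_symm {i : ℕ} (W : Fin i → Vec d) (g : Vec d) :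
    ‖(precond W).symm g‖ ^ 2 = ‖g‖ ^ 2 + ∑ j, ⟪W j, g⟫ ^ 2 := by
  rw [precond, diagEquiv_symm_apply, norm_sq_diag, (pick_spec W).2.1,
    ← (pickBasis W).sum_sq_inner_right g, ← Finset.sum_add_distrib]
  refine Finset.sum_congr rfl fun j _ => ?_
  have := (pick_spec W).1 j
  rw [pickScale, inv_inv, Real.sq_sqrt (by linarith)]
  ring

/-- The Gaussian volume of a list of picks. -/
noncomputable def pickVol {i : ℕ} (W : Fin i → Vec d) : ℝ :=
  ∫ g, Real.exp (-(∑ j, ⟪W j, g⟫ ^ 2) / 2) ∂stdGaussian (Vec d)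

lemma pickVol_eq {i : ℕ} (W : Fin i → Vec d) :
    pickVol W = |LinearMap.det (precond W : Vec d →ₗ[ℝ] Vec d)| := by
  have h : ∀ g, gaussKer g * Real.exp (-(∑ j, ⟪W j, g⟫ ^ 2) / 2) = gaussKer ((precond W).symm g) := by
    intro g
    rw [gaussKer, gaussKer, mul_assoc, ← Real.exp_add, norm_sq_precond_symm]
    ring_nf
  rw [pickVol, stdGaussian_eq_withDensity, integral_withDensity_eq_integral_toReal_smul
    measurable_gaussKer.ennreal_ofReal (ae_of_all _ fun _ => ENNReal.ofReal_lt_top)]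
  simp only [ENNReal.toReal_ofReal (gaussKer_nonneg _), smul_eq_mul, h]
  set P := (precond W : Vec d →ₗ[ℝ] Vec d)
  have hD : LinearMap.det P ≠ 0 := (LinearEquiv.isUnit_det' (precond W)).ne_zero
  have hm : Measurable (precond W).symm :=
    (precond W).toContinuousLinearEquiv.symm.continuous.measurable
  have hP : Measurable P := (precond W).toContinuousLinearEquiv.continuous.measurable
  have hmap := Measure.map_linearMap_addHaar_eq_smul_addHaar (volume : Measure (Vec d)) hD
  have h2 : ∫ g, gaussKer ((precond W).symm g) ∂((volume : Measure (Vec d)).map P)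
      = ∫ g : Vec d, gaussKer g := by
    rw [integral_map (f := fun g => gaussKer ((precond W).symm g)) hP.aemeasurable
      (measurable_gaussKer.comp hm).aestronglyMeasurable]
    simp [P]
  rw [hmap, integral_smul_measure, integral_gaussKer, ENNReal.toReal_ofReal (abs_nonneg _),
    smul_eq_mul, abs_inv, inv_mul_eq_div, div_eq_one_iff_eq (abs_ne_zero.2 hD)] at h2
  exact h2

lemma pickVol_pos {i : ℕ} (W : Fin i → Vec d) : 0 < pickVol W := by
  rw [pickVol_eq]
  exact abs_pos.2 (LinearEquiv.isUnit_det' (precond W)).ne_zero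

lemma integral_exp_inner (v : Vec d) :
    ∫ g, Real.exp (-⟪v, g⟫ ^ 2 / 2) ∂stdGaussian (Vec d) = (√(1 + ‖v‖ ^ 2))⁻¹ := by
  have := gauss_duality (d := d) (fun _ : Fin 1 => v)
  simp only [Fin.sum_univ_one] at this
  rw [this, stdGaussian_eq_withDensity, integral_withDensity_eq_integral_toReal_smul
    measurable_gaussKer.ennreal_ofReal (ae_of_all _ fun _ => ENNReal.ofReal_lt_top)]
  simp only [ENNReal.toReal_ofReal (gaussKer_nonneg _), smul_eq_mul]
  have h : ∀ η : Vec 1, gaussKer η * Real.exp (-‖η 0 • v‖ ^ 2 / 2)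
      = (gaussConst (Vec 1))⁻¹ * Real.exp (-((1 + ‖v‖ ^ 2) / 2) * ‖η‖ ^ 2) := by
    intro η
    rw [gaussKer, mul_assoc, ← Real.exp_add, norm_smul, Real.norm_eq_abs, mul_pow, sq_abs,
      EuclideanSpace.real_norm_sq_eq η, Fin.sum_univ_one]
    ring_nf
  simp only [h]
  rw [integral_const_mul, GaussianFourier.integral_rexp_neg_mul_sq_norm (by positivity), gaussConst,
    finrank_euclideanSpace_fin, ← Real.inv_rpow (by positivity),
    ← Real.mul_rpow (by positivity) (by positivity), Real.sqrt_eq_rpow, ← Real.inv_rpow (by positivity)]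
  push_cast
  congr 1
  field_simp

/-- The effect of one more pick. -/
lemma pickVol_cons {i : ℕ} (W : Fin i → Vec d) (w : Vec d) :
    pickVol (Fin.cons w W) = pickVol W * (√(1 + ‖precond W w‖ ^ 2))⁻¹ := by
  have hc : ∀ g, Real.exp (-(∑ j, ⟪(Fin.cons w W : Fin (i + 1) → Vec d) j, g⟫ ^ 2) / 2)
      = Real.exp (-(∑ j, ⟪W j, g⟫ ^ 2) / 2) * Real.exp (-⟪w, g⟫ ^ 2 / 2) := fun g => by
    rw [← Real.exp_add, Fin.sum_univ_succ]
    simp only [Fin.cons_zero, Fin.cons_succ]
    ring_nf
  have h : ∀ g, gaussKer g * Real.exp (-(∑ j, ⟪W j, g⟫ ^ 2) / 2) = gaussKer ((precond W).symm g) := by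
    intro g
    rw [gaussKer, gaussKer, mul_assoc, ← Real.exp_add, norm_sq_precond_symm]
    ring_nf
  rw [pickVol_eq W, ← integral_exp_inner, pickVol]
  simp only [hc]
  rw [stdGaussian_eq_withDensity, integral_withDensity_eq_integral_toReal_smul
    measurable_gaussKer.ennreal_ofReal (ae_of_all _ fun _ => ENNReal.ofReal_lt_top),
    integral_withDensity_eq_integral_toReal_smul
    measurable_gaussKer.ennreal_ofReal (ae_of_all _ fun _ => ENNReal.ofReal_lt_top)]
  simp only [ENNReal.toReal_ofReal (gaussKer_nonneg _), smul_eq_mul, ← mul_assoc, h]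
  set P := (precond W : Vec d →ₗ[ℝ] Vec d)
  have hD : LinearMap.det P ≠ 0 := (LinearEquiv.isUnit_det' (precond W)).ne_zero
  have hm : Measurable (precond W).symm :=
    (precond W).toContinuousLinearEquiv.symm.continuous.measurable
  have hP : Measurable P := (precond W).toContinuousLinearEquiv.continuous.measurable
  have hmap := Measure.map_linearMap_addHaar_eq_smul_addHaar (volume : Measure (Vec d)) hD
  set F : Vec d → ℝ := fun g => gaussKer ((precond W).symm g) * Real.exp (-⟪w, g⟫ ^ 2 / 2)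
  have hF : Measurable F := (measurable_gaussKer.comp hm).mul (by fun_prop)
  have h2 : ∫ g, F g ∂((volume : Measure (Vec d)).map P)
      = ∫ g : Vec d, gaussKer g * Real.exp (-⟪precond W w, g⟫ ^ 2 / 2) := by
    rw [integral_map hP.aemeasurable hF.aestronglyMeasurable]
    refine integral_congr_ae (ae_of_all _ fun g => ?_)
    simp only [F, P, LinearEquiv.coe_coe, LinearEquiv.symm_apply_apply]
    rw [precond, diagEquiv_apply, diagEquiv_apply, diag_symm]
  rw [hmap, integral_smul_measure, ENNReal.toReal_ofReal (abs_nonneg _), smul_eq_mul, abs_inv,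
    inv_mul_eq_div, div_eq_iff (abs_ne_zero.2 hD)] at h2
  exact h2.trans (mul_comm _ _)

/-- An orthonormal family in a span and orthogonal to given vectors. -/
lemma exists_subfamily {N N' i : ℕ} {e : Fin N → Vec d} (he : Orthonormal ℝ e) (hN : N' + i ≤ N)
    (W : Fin i → Vec d) :
    ∃ e' : Fin N' → Vec d, Orthonormal ℝ e' ∧ (∀ r, lift e (coord e (e' r)) = e' r) ∧
      ∀ r j, ⟪W j, e' r⟫ = 0 := by
  set T : Vec N →ₗ[ℝ] (Fin i → ℝ) :=
    { toFun := fun h j => ⟪W j, lift e h⟫
      map_add' := fun x y => by ext j; simp [inner_add_right]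
      map_smul' := fun c x => by ext j; simp [inner_smul_right] }
  have hker : N' ≤ Module.finrank ℝ (LinearMap.ker T) := by
    have h1 := T.finrank_range_add_finrank_ker
    have h2 : Module.finrank ℝ (LinearMap.range T) ≤ i :=
      (Submodule.finrank_le _).trans (by simp)
    rw [finrank_euclideanSpace_fin] at h1
    omega
  set u : Fin N' → Vec N := fun r =>
    (stdOrthonormalBasis ℝ (LinearMap.ker T) (Fin.castLE hker r) : Vec N)
  have hu : Orthonormal ℝ u :=
    ((stdOrthonormalBasis ℝ (LinearMap.ker T)).orthonormal.comp _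
      (Fin.castLE_injective hker)).comp_linearIsometry (LinearMap.ker T).subtypeₗᵢ
  refine ⟨fun r => lift e (u r), ?_, fun r => by rw [coord_lift he], fun r j => ?_⟩
  · rw [orthonormal_iff_ite] at hu ⊢
    intro r r'
    rw [inner_lift, coord_lift he, hu r r']
  · have h1 : T (u r) = 0 :=
      LinearMap.mem_ker.1 (Submodule.coe_mem (stdOrthonormalBasis ℝ (LinearMap.ker T) (Fin.castLE hker r)))
    exact congrFun h1 j

/-- A bilinear isotropy property extends to the span of the family. -/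
lemma iso_extend {N : ℕ} {e : Fin N → Vec d} {A : Vec d ≃ₗ[ℝ] Vec d} {s : ℝ}
    (hA : ∀ g r, ⟪A g, A (e r)⟫ = s ^ 2 * ⟪g, e r⟫) {x : Vec d} (hx : lift e (coord e x) = x)
    (g : Vec d) : ⟪A g, A x⟫ = s ^ 2 * ⟪g, x⟫ := by
  rw [← hx]
  simp [lift, map_sum, inner_sum, inner_smul_right, hA, Finset.mul_sum, mul_left_comm]

end Vale.Agent.P309.Sharp
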