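import Vale.Agent.P309.Sharp.Slice
import Vale.Agent.P309.Sharp.Diag

/-! Slices seen in the normal variable, full decay of their characteristic functions, and the
decomposition of a Gaussian law into shifted smaller ones. -/

namespace Vale.Agent.P309.Sharp

open MeasureTheory ProbabilityTheory Complex
open scoped RealInnerProductSpace Real ENNReal

variable {d : ℕ}

/-- Gaussian weighting of a base measure. -/
noncomputable def gw (σ₀ : Measure (Vec d)) : Measure (Vec d) :=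
  σ₀.withDensity fun g => ENNReal.ofReal (gaussKer g)

lemma lintegral_gw (σ₀ : Measure (Vec d)) {f : Vec d → ℝ≥0∞} (hf : Measurable f) :
    ∫⁻ g, f g ∂gw σ₀ = ∫⁻ g, ENNReal.ofReal (gaussKer g) * f g ∂σ₀ := by
  rw [gw, lintegral_withDensity_eq_lintegral_mul _ measurable_gaussKer.ennreal_ofReal hf]
  rfl

lemma gw_volume : gw (volume : Measure (Vec d)) = stdGaussian (Vec d) :=
  stdGaussian_eq_withDensity.symm

/-- The base measure seen in the variable `y` of `g = a + C y`. -/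
noncomputable def child (σ₀ : Measure (Vec d)) (a : Vec d) (C : Vec d ≃ₗ[ℝ] Vec d) :
    Measure (Vec d) :=
  ENNReal.ofReal |LinearMap.det (C : Vec d →ₗ[ℝ] Vec d)|⁻¹ • σ₀.map fun g => C.symm (g - a)

/-- The change of variable of a child. -/
lemma measurable_childMap (a : Vec d) (C : Vec d ≃ₗ[ℝ] Vec d) :
    Measurable fun g => C.symm (g - a) :=
  (measurable_equiv C.symm).comp (measurable_id.sub measurable_const)

lemma lintegral_child (σ₀ : Measure (Vec d)) (a : Vec d) (C : Vec d ≃ₗ[ℝ] Vec d)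
    {f : Vec d → ℝ≥0∞} (hf : Measurable f) :
    ∫⁻ y, f y ∂child σ₀ a C = ENNReal.ofReal |LinearMap.det (C : Vec d →ₗ[ℝ] Vec d)|⁻¹
      * ∫⁻ g, f (C.symm (g - a)) ∂σ₀ := by
  rw [child, lintegral_smul_measure, lintegral_map hf (measurable_childMap a C), smul_eq_mul]

/-- Substitution `a = g - C y` in Lebesgue measure. -/
lemma lintegral_subst (C : Vec d ≃ₗ[ℝ] Vec d) (g : Vec d) {F : Vec d → ℝ≥0∞} (hF : Measurable F) :
    ∫⁻ a, ENNReal.ofReal |LinearMap.det (C : Vec d →ₗ[ℝ] Vec d)|⁻¹ * F (C.symm (g - a))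
      = ∫⁻ y, F y := by
  set D := LinearMap.det (C : Vec d →ₗ[ℝ] Vec d)
  have hD : D ≠ 0 := (LinearEquiv.isUnit_det' C).ne_zero
  have hm : Measurable fun x => F (C.symm x) := hF.comp (measurable_equiv C.symm)
  rw [lintegral_const_mul _ (show Measurable fun a => F (C.symm (g - a)) from
      hF.comp ((measurable_equiv C.symm).comp (measurable_const.sub measurable_id))),
    lintegral_sub_left_eq_self (fun x => F (C.symm x)) g]
  have hmap : (volume : Measure (Vec d)).map C = ENNReal.ofReal |D⁻¹| • volume :=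
    Measure.map_linearMap_addHaar_eq_smul_addHaar volume (f := (C : Vec d →ₗ[ℝ] Vec d)) hD
  have h := lintegral_map (μ := (volume : Measure (Vec d))) hm (measurable_equiv C)
  rw [hmap, lintegral_smul_measure, smul_eq_mul] at h
  simp only [LinearEquiv.symm_apply_apply, abs_inv] at h
  exact h

lemma child_volume (a : Vec d) (C : Vec d ≃ₗ[ℝ] Vec d) :
    child (volume : Measure (Vec d)) a C = volume := by
  refine Measure.ext_of_lintegral _ fun F hF => ?_
  rw [lintegral_child _ _ _ hF, ← lintegral_const_mul' _ _ ENNReal.ofReal_ne_top]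
  have h := lintegral_subst (C.trans (LinearEquiv.neg ℝ)) a (F := F) hF
  refine Eq.trans ?_ h
  refine lintegral_congr fun x => ?_
  congr 2
  · rw [LinearEquiv.coe_trans, LinearMap.det_comp]
    have : LinearMap.det ((LinearEquiv.neg ℝ : Vec d ≃ₗ[ℝ] Vec d) : Vec d →ₗ[ℝ] Vec d)
        = (-1 : ℝ) ^ d := by
      have e : ((LinearEquiv.neg ℝ : Vec d ≃ₗ[ℝ] Vec d) : Vec d →ₗ[ℝ] Vec d)
          = (-1 : ℝ) • LinearMap.id := by ext x; simp
      rw [e, LinearMap.det_smul, LinearMap.det_id, finrank_euclideanSpace_fin, mul_one]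
    rw [this, abs_mul, abs_pow]
    simp
  · simp [LinearEquiv.trans_symm]

/-- Integrals over children, mixed by a weight on the shifts. -/
theorem lintegral_mix (σ₀ : Measure (Vec d)) [SFinite σ₀] (C : Vec d ≃ₗ[ℝ] Vec d)
    {w : Vec d → ℝ≥0∞} (hw : Measurable w) {f : Vec d → Vec d → ℝ≥0∞}
    (hf : Measurable (Function.uncurry f)) :
    ∫⁻ a, w a * ∫⁻ y, f a y ∂gw (child σ₀ a C)
      = ∫⁻ g, (∫⁻ y, w (g - C y) * (ENNReal.ofReal (gaussKer y) * f (g - C y) y)) ∂σ₀ := by
  set F : Vec d → Vec d → ℝ≥0∞ := fun g y =>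
    w (g - C y) * (ENNReal.ofReal (gaussKer y) * f (g - C y) y)
  have hFm : ∀ g, Measurable (F g) := by
    intro g
    have h1 : Measurable fun y => g - C y := measurable_const.sub (measurable_equiv C)
    exact (hw.comp h1).mul (measurable_gaussKer.ennreal_ofReal.mul
      (hf.comp (h1.prodMk measurable_id)))
  have h1 : ∀ a, w a * ∫⁻ y, f a y ∂gw (child σ₀ a C)
      = ∫⁻ g, ENNReal.ofReal |LinearMap.det (C : Vec d →ₗ[ℝ] Vec d)|⁻¹ * F g (C.symm (g - a)) ∂σ₀ := by
    intro a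
    have hfa : Measurable (f a) := hf.comp (measurable_const.prodMk measurable_id)
    have hm : Measurable fun g => ENNReal.ofReal (gaussKer (C.symm (g - a))) * f a (C.symm (g - a)) :=
      (measurable_gaussKer.comp (measurable_childMap a C)).ennreal_ofReal.mul
        (hfa.comp (measurable_childMap a C))
    rw [lintegral_gw _ hfa, lintegral_child _ _ _
      (f := fun g => ENNReal.ofReal (gaussKer g) * f a g) (measurable_gaussKer.ennreal_ofReal.mul hfa)]
    rw [← mul_assoc, mul_comm (w a), mul_assoc, ← lintegral_const_mul _ hm,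
      ← lintegral_const_mul' _ _ ENNReal.ofReal_ne_top]
    refine lintegral_congr fun g => ?_
    simp only [F, LinearEquiv.apply_symm_apply, sub_sub_cancel]
  simp only [h1]
  rw [lintegral_lintegral_swap]
  · exact lintegral_congr fun g => lintegral_subst C g (hFm g)
  · refine (Measurable.const_mul ?_ _).aemeasurable
    have h2 : Measurable fun p : Vec d × Vec d => C.symm (p.2 - p.1) :=
      (measurable_equiv C.symm).comp (measurable_snd.sub measurable_fst)
    have h3 : Measurable fun p : Vec d × Vec d => p.2 - C (C.symm (p.2 - p.1)) :=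
      measurable_snd.sub ((measurable_equiv C).comp h2)
    exact (hw.comp h3).mul ((measurable_gaussKer.comp h2).ennreal_ofReal.mul
      (hf.comp (h3.prodMk h2)))

/-- The base measure of the slice of `μ + A g` at squared radius one, in the variable `g`. -/
noncomputable def sliceBase (μ : Vec d) (A : Vec d ≃ₗ[ℝ] Vec d) : Measure (Vec d) :=
  ENNReal.ofReal ((|LinearMap.det (A : Vec d →ₗ[ℝ] Vec d)|)⁻¹ / 2)
    • (surf d).map fun ω : Metric.sphere (0 : Vec d) 1 => A.symm ((ω : Vec d) - μ)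

instance (μ : Vec d) (A : Vec d ≃ₗ[ℝ] Vec d) : IsFiniteMeasure (sliceBase μ A) := by
  refine ⟨?_⟩
  rw [sliceBase, Measure.smul_apply, smul_eq_mul]
  exact ENNReal.mul_lt_top ENNReal.ofReal_lt_top (measure_lt_top _ _)

lemma measurable_sphereMap (μ : Vec d) (A : Vec d ≃ₗ[ℝ] Vec d) :
    Measurable fun ω : Metric.sphere (0 : Vec d) 1 => A.symm ((ω : Vec d) - μ) :=
  (measurable_equiv A.symm).comp (measurable_subtype_coe.sub measurable_const)

lemma child_sliceBase (μ : Vec d) (A : Vec d ≃ₗ[ℝ] Vec d) (a : Vec d) (C : Vec d ≃ₗ[ℝ] Vec d) :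
    child (sliceBase μ A) a C = sliceBase (μ + A a) (C.trans A) := by
  rw [child, sliceBase, sliceBase, Measure.map_smul,
    Measure.map_map (measurable_childMap a C) (measurable_sphereMap μ A), smul_smul]
  congr 1
  · rw [← ENNReal.ofReal_mul (by positivity), LinearEquiv.coe_trans, LinearMap.det_comp, abs_mul,
      mul_inv]
    congr 1
    ring
  · congr 1
    funext ω
    simp only [Function.comp_apply, LinearEquiv.trans_symm, LinearEquiv.trans_apply]
    rw [← sub_sub, map_sub A.symm _ (A a), LinearEquiv.symm_apply_apply]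

/-- The law of `g` on the sphere of squared radius one for `μ + A g`. -/
lemma gw_sliceBase (μ : Vec d) (A : Vec d ≃ₗ[ℝ] Vec d) :
    gw (sliceBase μ A) = (slice μ A 1).map fun u => A.symm (u - μ) := by
  have hm : Measurable fun u => A.symm (u - μ) := measurable_childMap μ A
  refine Measure.ext_of_lintegral _ fun F hF => ?_
  rw [lintegral_gw _ hF, lintegral_map hF hm,
    lintegral_slice _ _ _ (F := fun u => F (A.symm (u - μ))) (hF.comp hm), sliceBase,
    lintegral_smul_measure, lintegral_map (f := fun g => ENNReal.ofReal (gaussKer g) * F g)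
      (measurable_gaussKer.ennreal_ofReal.mul hF)
      (measurable_sphereMap μ A), smul_eq_mul, ← lintegral_const_mul' _ _ ENNReal.ofReal_ne_top]
  refine lintegral_congr fun ω => ?_
  simp only [Real.sqrt_one, one_pow, one_smul]
  rw [← mul_assoc, ← ENNReal.ofReal_mul (by positivity), dens]
  congr 2
  ring

lemma gw_sliceBase_univ (μ : Vec d) (A : Vec d ≃ₗ[ℝ] Vec d) :
    gw (sliceBase μ A) Set.univ = slice μ A 1 Set.univ := by
  rw [gw_sliceBase, Measure.map_apply (measurable_childMap μ A) MeasurableSet.univ, Set.preimage_univ]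

/-- One coordinate of the Gaussian quadratic exponential. -/
lemma norm_quad_one (a w : ℝ) :
    ‖∫ x, cexp (((a * x ^ 2 + w * x : ℝ) : ℂ) * I) ∂gaussianReal 0 1‖
      ≤ (1 + (2 * a) ^ 2) ^ (-(1:ℝ) / 4) * Real.exp (-w ^ 2 / (2 * (1 + (2 * a) ^ 2))) := by
  have h := norm_quad_charFun (N := 1) a (WithLp.toLp 2 fun _ => w)
  have hn : ‖(WithLp.toLp 2 fun _ => w : Vec 1)‖ ^ 2 = w ^ 2 := by
    rw [EuclideanSpace.real_norm_sq_eq, Fin.sum_univ_one]
  rw [hn, Nat.cast_one] at h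
  refine le_trans (le_of_eq ?_) h
  congr 1
  rw [← map_pi_eq_stdGaussian, integral_map (by fun_prop) (by fun_prop)]
  have e := (measurePreserving_funUnique (gaussianReal 0 1) (Fin 1)).integral_comp
    (MeasurableEquiv.measurableEmbedding _) (fun x : ℝ => cexp (((a * x ^ 2 + w * x : ℝ) : ℂ) * I))
  rw [← e]
  refine integral_congr_ae (ae_of_all _ fun x => ?_)
  simp only [MeasurableEquiv.funUnique_apply, PiLp.inner_apply, RCLike.inner_apply, conj_trivial,
    Fin.sum_univ_one, EuclideanSpace.real_norm_sq_eq]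
  rw [mul_comm (x 0) w]
  congr 1

/-- The component of `x` orthogonal to `v`. -/
noncomputable def perp (v : Vec d) : Vec d →L[ℝ] Vec d :=
  (Submodule.span ℝ {v})ᗮ.starProjection

lemma norm_perp_le (v x : Vec d) : ‖perp v x‖ ≤ ‖x‖ :=
  Submodule.norm_starProjection_apply_le _ x

lemma perp_self (v : Vec d) : perp v v = 0 :=
  (Submodule.starProjection_apply_eq_zero_iff _).2 (by
    rw [Submodule.orthogonal_orthogonal]; exact Submodule.mem_span_singleton_self v)

variable {A : Vec d ≃ₗ[ℝ] Vec d} {b : OrthonormalBasis (Fin d) ℝ (Vec d)} {lam : Fin d → ℝ}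
  {s : ℝ} {p : ℕ}

/-- Bound on the joint characteristic function using all coordinates. -/
lemma norm_joint_charFun_full (hA : ∀ g h, ⟪A g, A h⟫ = ∑ i, lam i * ⟪b i, g⟫ * ⟪b i, h⟫)
    (hl0 : ∀ i, 0 ≤ lam i) (hls : ∀ i, lam i ≤ s ^ 2) (S : Finset (Fin d))
    (hS : ∀ i ∈ S, lam i = s ^ 2) (c Ψ : Vec d) (τ : ℝ) :
    ‖∫ g, cexp (((τ * ‖c + A g‖ ^ 2 + ⟪Ψ, c + A g⟫ : ℝ) : ℂ) * I) ∂stdGaussian (Vec d)‖
      ≤ (1 + (2 * (τ * s ^ 2)) ^ 2) ^ (-(S.card:ℝ) / 4)
        * Real.exp (-‖LinearMap.adjoint (A : Vec d →ₗ[ℝ] Vec d) ((2 * τ) • c + Ψ)‖ ^ 2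
            / (2 * (1 + (2 * (τ * s ^ 2)) ^ 2))) := by
  set z := LinearMap.adjoint (A : Vec d →ₗ[ℝ] Vec d) ((2 * τ) • c + Ψ)
  have hw : ∀ i, ⟪z, b i⟫ = ⟪(2 * τ) • c + Ψ, A (b i)⟫ := fun i => by
    simp only [z, LinearMap.adjoint_inner_left, LinearEquiv.coe_coe]
  rw [stdGaussian_eq_map_pi_orthonormalBasis b,
    integral_map (by exact Measurable.aemeasurable (by fun_prop)) (Measurable.aestronglyMeasurable
      (by have := measurable_equiv A; fun_prop))]
  have hsplit : ∀ x : Fin d → ℝ, cexp (((τ * ‖c + A (∑ i, x i • b i)‖ ^ 2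
        + ⟪Ψ, c + A (∑ i, x i • b i)⟫ : ℝ) : ℂ) * I)
      = cexp (((τ * ‖c‖ ^ 2 + ⟪Ψ, c⟫ : ℝ) : ℂ) * I)
        * ∏ i, cexp (((τ * lam i * x i ^ 2 + ⟪z, b i⟫ * x i : ℝ) : ℂ) * I) := by
    intro x
    set g := ∑ i, x i • b i
    have hg : ∀ i, ⟪b i, g⟫ = x i := fun i => b.orthonormal.inner_right_fintype x i
    have h2 : ‖A g‖ ^ 2 = ∑ i, lam i * x i ^ 2 := by
      rw [← real_inner_self_eq_norm_sq, hA]
      simp [hg, sq, mul_assoc]
    have h3 : 2 * τ * ⟪c, A g⟫ + ⟪Ψ, A g⟫ = ∑ i, ⟪z, b i⟫ * x i := by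
      rw [← real_inner_smul_left, ← inner_add_left]
      simp [g, map_sum, inner_sum, inner_smul_right, hw, mul_comm]
    rw [← Complex.exp_sum, ← Complex.exp_add, ← Finset.sum_mul, ← add_mul, ← Complex.ofReal_sum,
      ← Complex.ofReal_add]
    congr 3
    rw [Finset.sum_add_distrib, norm_add_sq_real, inner_add_right, h2, ← h3]
    simp only [mul_assoc, ← Finset.mul_sum]
    ring
  simp only [hsplit]
  rw [integral_const_mul, norm_mul, Complex.norm_exp_ofReal_mul_I, one_mul,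
    integral_fintype_prod_eq_prod (f := fun i (y : ℝ) =>
      cexp (((τ * lam i * y ^ 2 + ⟪z, b i⟫ * y : ℝ) : ℂ) * I)), norm_prod]
  set q := 1 + (2 * (τ * s ^ 2)) ^ 2
  have hq : 1 ≤ q := by simp only [q]; nlinarith
  calc ∏ i, ‖∫ y, cexp (((τ * lam i * y ^ 2 + ⟪z, b i⟫ * y : ℝ) : ℂ) * I) ∂gaussianReal 0 1‖
      ≤ ∏ i, ((if i ∈ S then q ^ (-(1:ℝ) / 4) else 1) * Real.exp (-⟪z, b i⟫ ^ 2 / (2 * q))) := by
        refine Finset.prod_le_prod (fun i _ => norm_nonneg _) fun i _ => ?_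
        refine (norm_quad_one _ _).trans (mul_le_mul ?_ ?_ (Real.exp_pos _).le (by split <;> positivity))
        · by_cases hi : i ∈ S
          · rw [if_pos hi, hS i hi]
          · rw [if_neg hi]
            exact Real.rpow_le_one_of_one_le_of_nonpos (by nlinarith) (by norm_num)
        · refine Real.exp_le_exp.2 ?_
          rw [neg_div, neg_div, neg_le_neg_iff]
          refine div_le_div_of_nonneg_left (sq_nonneg _) (by positivity) ?_
          have h1 : (2 * (τ * lam i)) ^ 2 ≤ (2 * (τ * s ^ 2)) ^ 2 := by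
            rw [mul_pow, mul_pow, mul_pow, mul_pow]
            gcongr
            · exact hl0 i
            · exact hls i
          simp only [q]
          linarith
    _ = _ := by
        rw [Finset.prod_mul_distrib, Finset.prod_ite_mem, Finset.univ_inter, Finset.prod_const,
          ← Real.exp_sum, ← Real.rpow_natCast, ← Real.rpow_mul (by linarith)]
        congr 1
        · congr 1
          ring
        · rw [← Finset.sum_div, Finset.sum_neg_distrib, ← b.sum_sq_inner_left z]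

/-- Decay of the characteristic function of a slice in the variable `g`. -/
theorem norm_charFun_gw_le (hd : 2 ≤ d)
    (hA : ∀ g h, ⟪A g, A h⟫ = ∑ i, lam i * ⟪b i, g⟫ * ⟪b i, h⟫)
    (hl0 : ∀ i, 0 ≤ lam i) (hls : ∀ i, lam i ≤ s ^ 2) (S : Finset (Fin d))
    (hS : ∀ i ∈ S, lam i = s ^ 2) (hs : 0 < s) (hp : 1 ≤ p) (hN : 8 * p ≤ S.card) (μ ξ : Vec d) :
    ‖charFun (gw (sliceBase μ A)) ξ‖ ≤ (4 * s ^ 2)⁻¹
      * ((1 + 8 * p) / (1 + ‖perp (LinearMap.adjoint (A : Vec d →ₗ[ℝ] Vec d) μ) ξ‖ ^ 2)) ^ p := by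
  set AT := LinearMap.adjoint (A : Vec d →ₗ[ℝ] Vec d)
  set Ψ := LinearMap.adjoint (A.symm : Vec d →ₗ[ℝ] Vec d) ξ
  have hm : Measurable fun u => A.symm (u - μ) := measurable_childMap μ A
  have hcf : ‖charFun (gw (sliceBase μ A)) ξ‖ = ‖charFun (slice μ A 1) Ψ‖ := by
    rw [gw_sliceBase, charFun_apply, integral_map hm.aemeasurable (by fun_prop), charFun_apply]
    have e : ∀ u, cexp ((⟪A.symm (u - μ), ξ⟫ : ℝ) * I)
        = cexp ((⟪u, Ψ⟫ : ℝ) * I) * cexp (((-⟪μ, Ψ⟫ : ℝ) : ℂ) * I) := fun u => by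
      rw [← Complex.exp_add, ← add_mul, ← Complex.ofReal_add]
      congr 3
      simp [Ψ, LinearMap.adjoint_inner_right, map_sub, inner_sub_left]
      ring
    simp only [e]
    rw [integral_mul_const, norm_mul, Complex.norm_exp_ofReal_mul_I, mul_one]
  rw [hcf]
  refine norm_charFun_slice_le_of hd hs one_pos Ψ fun τ => ?_
  refine (norm_joint_charFun_full hA hl0 hls S hS μ Ψ τ).trans ?_
  have hξ : AT Ψ = ξ := by
    refine ext_inner_right ℝ fun y => ?_
    simp [AT, Ψ, LinearMap.adjoint_inner_left]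
  have hW : ‖perp (AT μ) ξ‖ ≤ ‖AT ((2 * τ) • μ + Ψ)‖ := by
    refine le_trans (le_of_eq ?_) (norm_perp_le (AT μ) _)
    rw [map_add, map_smul, hξ, map_add, map_smul, perp_self, smul_zero, zero_add]
  have h := kernel_le (Γ := 0) hp hN le_rfl (u := 2 * (τ * s ^ 2))
    (R := ‖perp (AT μ) ξ‖) (W := ‖AT ((2 * τ) • μ + Ψ)‖) (norm_nonneg _) (by linarith) (norm_nonneg _)
  refine h.trans (le_of_eq ?_)
  ring_nf

lemma exp_neg_le_pow (hp : 1 ≤ p) {x : ℝ} (hx : 0 ≤ x) :
    Real.exp (-x) ≤ ((1 + x / p)⁻¹) ^ p := by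
  have hp' : (0:ℝ) < p := by exact_mod_cast hp
  rw [Real.exp_neg, inv_pow]
  refine inv_anti₀ (by positivity) ?_
  calc (1 + x / p) ^ p ≤ Real.exp (x / p) ^ p :=
        pow_le_pow_left₀ (by positivity) (by linarith [Real.add_one_le_exp (x / p)]) p
    _ = Real.exp x := by rw [← Real.exp_nat_mul]; congr 1; field_simp

/-- Decay of the characteristic function of the standard normal law. -/
theorem norm_charFun_stdGaussian_le (hp : 1 ≤ p) (v ξ : Vec d) :
    ‖charFun (stdGaussian (Vec d)) ξ‖ ≤ ((1 + 8 * p) / (1 + ‖perp v ξ‖ ^ 2)) ^ p := by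
  have hp' : (1:ℝ) ≤ p := by exact_mod_cast hp
  rw [charFun_stdGaussian, Complex.norm_exp]
  simp only [← Complex.ofReal_pow, Complex.neg_re, Complex.div_ofNat_re, Complex.ofReal_re]
  rw [neg_div]
  refine (exp_neg_le_pow hp (by positivity)).trans (pow_le_pow_left₀ (by positivity) ?_ p)
  have h1 := pow_le_pow_left₀ (norm_nonneg _) (norm_perp_le v ξ) 2
  rw [le_div_iff₀ (by positivity), inv_mul_le_iff₀ (by positivity)]
  have h2 : (p:ℝ) * (1 + ‖ξ‖ ^ 2 / 2 / p) = p + ‖ξ‖ ^ 2 / 2 := by field_simp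
  have h3 : 0 ≤ ‖ξ‖ ^ 2 / 2 / p := by positivity
  nlinarith

/-- Gaussian integral of a shifted diagonal map. -/
lemma lintegral_gaussKer_diag {f : Fin d → ℝ} (hf : ∀ i, f i ≠ 0) (m : Vec d) :
    ∫⁻ y, ENNReal.ofReal (gaussKer (diag b f (y - m))) = ENNReal.ofReal (|∏ i, f i|)⁻¹ := by
  rw [lintegral_sub_right_eq_self (fun y => ENNReal.ofReal (gaussKer (diag b f y))) m]
  have hm : Measurable fun x : Vec d => ENNReal.ofReal (gaussKer x) :=
    measurable_gaussKer.ennreal_ofReal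
  have h := lintegral_map (μ := (volume : Measure (Vec d))) hm (measurable_equiv (diagEquiv b f hf))
  have hD : LinearMap.det (diag b f) ≠ 0 := by
    rw [det_diag]; exact Finset.prod_ne_zero_iff.2 fun i _ => hf i
  have hmap : (volume : Measure (Vec d)).map (diagEquiv b f hf)
      = ENNReal.ofReal |(LinearMap.det (diag b f))⁻¹| • volume :=
    Measure.map_linearMap_addHaar_eq_smul_addHaar volume (f := diag b f) hD
  rw [hmap, lintegral_smul_measure, smul_eq_mul, det_diag, abs_inv,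
    ← ofReal_integral_eq_lintegral_ofReal integrable_gaussKer (ae_of_all _ gaussKer_nonneg),
    integral_gaussKer, ENNReal.ofReal_one, mul_one] at h
  simp only [diagEquiv_apply] at h
  exact h.symm

/-- A Gaussian bump against a weighted base measure is a child. -/
theorem lintegral_bump (σ₀ : Measure (Vec d)) (b : OrthonormalBasis (Fin d) ℝ (Vec d))
    (β : Fin d → ℝ) (hβ : ∀ i, 0 < β i) (z : Vec d) :
    ∫⁻ g, ENNReal.ofReal (Real.exp (-‖diag b (fun i => (β i)⁻¹) (g - z)‖ ^ 2 / 2)) ∂gw σ₀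
      = ENNReal.ofReal ((∏ i, β i / √(1 + β i ^ 2))
          * Real.exp (-(∑ i, ⟪b i, z⟫ ^ 2 / (1 + β i ^ 2)) / 2))
        * gw (child σ₀ (diag b (fun i => (1 + β i ^ 2)⁻¹) z)
            (diagEquiv b (fun i => β i / √(1 + β i ^ 2)) fun i => by have := hβ i; positivity))
          Set.univ := by
  set a := diag b (fun i => (1 + β i ^ 2)⁻¹) z
  set κ := fun i => β i / √(1 + β i ^ 2)
  have hκ : ∀ i, κ i ≠ 0 := fun i => by have := hβ i; positivity
  have hg : ∀ g, gaussKer g * Real.exp (-‖diag b (fun i => (β i)⁻¹) (g - z)‖ ^ 2 / 2)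
      = Real.exp (-(∑ i, ⟪b i, z⟫ ^ 2 / (1 + β i ^ 2)) / 2)
        * gaussKer ((diagEquiv b κ hκ).symm (g - a)) := by
    intro g
    rw [gaussKer, gaussKer, mul_left_comm _ ((gaussConst (Vec d))⁻¹), mul_assoc, ← Real.exp_add,
      ← Real.exp_add]
    congr 2
    rw [diagEquiv_symm_apply, norm_sq_diag, norm_sq_diag, ← b.sum_sq_inner_right g]
    rw [neg_div, neg_div, neg_div, neg_div, ← neg_add, ← neg_add, ← add_div, ← add_div,
      ← Finset.sum_add_distrib, ← Finset.sum_add_distrib]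
    congr 2
    refine Finset.sum_congr rfl fun i _ => ?_
    have := hβ i
    simp only [a, inner_sub_right, inner_diag, κ, inv_div, div_pow,
      Real.sq_sqrt (show (0:ℝ) ≤ 1 + β i ^ 2 by positivity)]
    field_simp
    ring
  have hm : Measurable fun g => ENNReal.ofReal (gaussKer ((diagEquiv b κ hκ).symm (g - a))) :=
    (measurable_gaussKer.comp (measurable_childMap _ _)).ennreal_ofReal
  have hd' : Continuous (diag b fun i => (β i)⁻¹) := LinearMap.continuous_of_finiteDimensional _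
  have hdet : |LinearMap.det (diagEquiv b κ hκ : Vec d →ₗ[ℝ] Vec d)| = ∏ i, κ i := by
    rw [show (diagEquiv b κ hκ : Vec d →ₗ[ℝ] Vec d) = diag b κ from rfl, det_diag,
      abs_of_nonneg (Finset.prod_nonneg fun i _ => by have := hβ i; positivity)]
  have hP : 0 < ∏ i, κ i := Finset.prod_pos fun i _ => by have := hβ i; positivity
  rw [lintegral_gw _ (by fun_prop), ← lintegral_one, lintegral_gw _ measurable_const,
    lintegral_child _ _ _ (f := fun g => ENNReal.ofReal (gaussKer g) * 1)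
      (measurable_gaussKer.ennreal_ofReal.mul measurable_const), hdet]
  simp only [mul_one, ← ENNReal.ofReal_mul (gaussKer_nonneg _), hg, ENNReal.ofReal_mul (Real.exp_pos _).le]
  rw [lintegral_const_mul _ hm, ← mul_assoc, ← ENNReal.ofReal_mul (by positivity)]
  congr 2
  simp only [κ] at hP ⊢
  field_simp

/-- Mass far from the origin. -/
theorem gw_tail_le (σ₀ : Measure (Vec d)) {M : ℝ≥0∞} (R : ℝ)
    (hM : gw (child σ₀ 0 (LinearEquiv.smulOfNeZero ℝ (Vec d) √2 (by positivity))) Set.univ ≤ M) :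
    gw σ₀ {g | R ^ 2 ≤ ‖g‖ ^ 2}
      ≤ ENNReal.ofReal (√2 ^ d * Real.exp (-R ^ 2 / 4)) * M := by
  set C := LinearEquiv.smulOfNeZero ℝ (Vec d) √2 (by positivity)
  have hdet : |LinearMap.det (C : Vec d →ₗ[ℝ] Vec d)| = √2 ^ d := by
    have e : (C : Vec d →ₗ[ℝ] Vec d) = √2 • LinearMap.id := by ext x; simp [C]
    rw [e, LinearMap.det_smul, LinearMap.det_id, finrank_euclideanSpace_fin, mul_one,
      abs_of_pos (by positivity)]
  have hS : MeasurableSet {g : Vec d | R ^ 2 ≤ ‖g‖ ^ 2} := measurableSet_le measurable_const (by fun_prop)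
  refine le_trans ?_ (mul_le_mul_right hM _)
  rw [← lintegral_indicator_one hS, lintegral_gw _ (measurable_one.indicator hS), ← lintegral_one,
    lintegral_gw _ measurable_const,
    lintegral_child _ _ _ (f := fun g => ENNReal.ofReal (gaussKer g) * 1)
      (measurable_gaussKer.ennreal_ofReal.mul measurable_const), hdet,
    ← mul_assoc, ← ENNReal.ofReal_mul (by positivity),
    show √2 ^ d * Real.exp (-R ^ 2 / 4) * (√2 ^ d)⁻¹ = Real.exp (-R ^ 2 / 4) by field_simp,
    ← lintegral_const_mul' _ _ ENNReal.ofReal_ne_top]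
  refine lintegral_mono fun g => ?_
  by_cases hg : g ∈ {g : Vec d | R ^ 2 ≤ ‖g‖ ^ 2}
  swap
  · simp [hg]
  rw [Set.indicator_of_mem hg, Pi.one_apply, mul_one, mul_one,
    ← ENNReal.ofReal_mul (Real.exp_pos _).le, sub_zero]
  refine ENNReal.ofReal_le_ofReal ?_
  have e : ‖C.symm g‖ ^ 2 = ‖g‖ ^ 2 / 2 := by
    have h2 : C.symm g = (√2)⁻¹ • g := by
      rw [LinearEquiv.symm_apply_eq]
      simp [C, smul_smul]
    rw [h2, norm_smul, mul_pow, Real.norm_eq_abs, sq_abs, inv_pow, Real.sq_sqrt (by norm_num)]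
    ring
  rw [gaussKer, gaussKer, mul_left_comm, ← Real.exp_add, e]
  refine mul_le_mul_of_nonneg_left (Real.exp_le_exp.2 ?_) (inv_nonneg.2 gaussConst_pos.le)
  have : R ^ 2 ≤ ‖g‖ ^ 2 := hg
  linarith

/-- A square root of `1 - C C^T` with the eigenbasis of `C C^T`. -/
lemma exists_complement (C : Vec d ≃ₗ[ℝ] Vec d) :
    ∃ (b : OrthonormalBasis (Fin d) ℝ (Vec d)) (κ : Fin d → ℝ), (∀ i, 0 < κ i) ∧
      (∀ ρ : ℝ, 0 ≤ ρ → (∀ x, ‖C x‖ ≤ ρ * ‖x‖) → ∀ i, κ i ≤ ρ ^ 2) ∧
      ∃ U : Vec d ≃ₗᵢ[ℝ] Vec d, ∀ y, C y = diag b (fun i => √(κ i)) (U y) := by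
  set T := LinearMap.adjoint (C : Vec d →ₗ[ℝ] Vec d)
  have hM : ((C : Vec d →ₗ[ℝ] Vec d) ∘ₗ T).IsSymmetric := fun x y => by
    simp only [LinearMap.comp_apply, LinearEquiv.coe_coe, T]
    have e1 : ∀ u v, ⟪C (LinearMap.adjoint (C : Vec d →ₗ[ℝ] Vec d) u), v⟫
        = ⟪LinearMap.adjoint (C : Vec d →ₗ[ℝ] Vec d) u, LinearMap.adjoint (C : Vec d →ₗ[ℝ] Vec d) v⟫ :=
      fun u v => (LinearMap.adjoint_inner_right _ _ _).symm
    rw [e1, real_inner_comm, ← e1, real_inner_comm]
  have hn : Module.finrank ℝ (Vec d) = d := finrank_euclideanSpace_fin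
  set b := hM.eigenvectorBasis hn
  set κ := hM.eigenvalues hn
  have hev : ∀ i, C (T (b i)) = κ i • b i := fun i => hM.apply_eigenvectorBasis hn i
  have hκn : ∀ i, κ i = ‖T (b i)‖ ^ 2 := fun i => by
    have : ⟪C (T (b i)), b i⟫ = κ i := by
      rw [hev, real_inner_smul_left, real_inner_self_eq_norm_sq, b.orthonormal.norm_eq_one]
      ring
    rw [← this, ← real_inner_self_eq_norm_sq]
    exact (LinearMap.adjoint_inner_right _ _ _).symm
  have hκ : ∀ i, 0 < κ i := fun i => by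
    rw [hκn]
    have : T (b i) ≠ 0 := fun h => by
      have h2 : ⟪C (C.symm (b i)), b i⟫ = ⟪C.symm (b i), T (b i)⟫ :=
        (LinearMap.adjoint_inner_right _ _ _).symm
      rw [h, inner_zero_right, LinearEquiv.apply_symm_apply, real_inner_self_eq_norm_sq,
        b.orthonormal.norm_eq_one] at h2
      norm_num at h2
    positivity
  refine ⟨b, κ, hκ, fun ρ hρ hC i => ?_, ?_⟩
  · rw [hκn]
    refine pow_le_pow_left₀ (norm_nonneg _) ?_ 2
    rcases eq_or_lt_of_le (norm_nonneg (T (b i))) with h0 | h0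
    · rw [← h0]; exact hρ
    refine le_of_mul_le_mul_right ?_ h0
    rw [← sq, ← real_inner_self_eq_norm_sq]
    calc ⟪T (b i), T (b i)⟫ = ⟪b i, C (T (b i))⟫ := LinearMap.adjoint_inner_left _ _ _
      _ ≤ ‖b i‖ * ‖C (T (b i))‖ := real_inner_le_norm _ _
      _ ≤ _ := by rw [b.orthonormal.norm_eq_one, one_mul]; exact hC _
  · -- coordinates along the images of the basis
    set u : Fin d → Vec d := fun i => (√(κ i))⁻¹ • T (b i)
    have hu : Orthonormal ℝ u := by
      rw [orthonormal_iff_ite]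
      intro i j
      have hij : ⟪T (b i), T (b j)⟫ = κ j * ⟪b i, b j⟫ := by
        rw [← inner_smul_right, ← hev]
        exact LinearMap.adjoint_inner_left _ _ _
      simp only [u, real_inner_smul_left, real_inner_smul_right, hij,
        orthonormal_iff_ite.1 b.orthonormal i j]
      split
      · next h =>
        subst h
        have := Real.mul_self_sqrt (hκ i).le
        have := hκ i
        field_simp
        linarith
      · ring
    set ub : OrthonormalBasis (Fin d) ℝ (Vec d) := OrthonormalBasis.mk hu (by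
      rw [hu.linearIndependent.span_eq_top_of_card_eq_finrank' (by simp)])
    refine ⟨ub.equiv b (Equiv.refl _), fun y => ?_⟩
    refine ext_inner_left ℝ fun x => ?_
    rw [← b.sum_inner_mul_inner x (C y), ← b.sum_inner_mul_inner x]
    refine Finset.sum_congr rfl fun i _ => ?_
    congr 1
    have hU : ⟪b i, ub.equiv b (Equiv.refl _) y⟫ = ⟪u i, y⟫ := by
      have h1 := (ub.equiv b (Equiv.refl _)).inner_map_map (ub i) y
      rw [OrthonormalBasis.equiv_apply_basis, Equiv.refl_apply] at h1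
      rw [h1, OrthonormalBasis.coe_mk]
    rw [inner_diag, hU, real_inner_smul_left, ← mul_assoc,
      mul_inv_cancel₀ (Real.sqrt_pos.2 (hκ i)).ne', one_mul]
    exact (LinearMap.adjoint_inner_left _ _ _).symm

lemma square_completion {k β r a z : ℝ} (hk : k < 1) (hD : 1 - β + β * k ≠ 0) (hr : r ^ 2 = k) :
    -((1 - k)⁻¹ * (a - r * z) ^ 2 / 2) + (-(z ^ 2 / 2) + β * z ^ 2 / 2)
      = -((1 - β) / (1 - β + β * k) * a ^ 2 / 2)
        + -((1 - β + β * k) / (1 - k) * (z - r / (1 - β + β * k) * a) ^ 2 / 2) := by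
  subst hr
  have h1 : 1 - r ^ 2 ≠ 0 := by linarith
  generalize hq : 1 - β + β * r ^ 2 = D at hD ⊢
  field_simp
  subst hq
  ring

/-- Eigenbasis of `C C^T`. -/
noncomputable def mixBasis (C : Vec d ≃ₗ[ℝ] Vec d) : OrthonormalBasis (Fin d) ℝ (Vec d) :=
  (exists_complement C).choose

/-- Eigenvalues of `C C^T`. -/
noncomputable def mixVal (C : Vec d ≃ₗ[ℝ] Vec d) : Fin d → ℝ :=
  (exists_complement C).choose_spec.choose

/-- The normal density with covariance `1 - C C^T`. -/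
noncomputable def mixDens (C : Vec d ≃ₗ[ℝ] Vec d) (a : Vec d) : ℝ :=
  (∏ i, √(1 - mixVal C i))⁻¹
    * gaussKer (diag (mixBasis C) (fun i => (√(1 - mixVal C i))⁻¹) a)

lemma mix_spec (C : Vec d ≃ₗ[ℝ] Vec d) : (∀ i, 0 < mixVal C i) ∧
      (∀ ρ : ℝ, 0 ≤ ρ → (∀ x, ‖C x‖ ≤ ρ * ‖x‖) → ∀ i, mixVal C i ≤ ρ ^ 2) ∧
      ∃ U : Vec d ≃ₗᵢ[ℝ] Vec d, ∀ y, C y = diag (mixBasis C) (fun i => √(mixVal C i)) (U y) :=
  (exists_complement C).choose_spec.choose_spec

lemma mixDens_nonneg (C : Vec d ≃ₗ[ℝ] Vec d) (a : Vec d) : 0 ≤ mixDens C a :=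
  mul_nonneg (inv_nonneg.2 (Finset.prod_nonneg fun _ _ => Real.sqrt_nonneg _)) (gaussKer_nonneg _)

lemma continuous_mixDens (C : Vec d ≃ₗ[ℝ] Vec d) : Continuous (mixDens C) :=
  continuous_const.mul (continuous_gaussKer.comp (LinearMap.continuous_of_finiteDimensional _))

/-- The tilted mixture identity. -/
theorem lintegral_mixDens_tilt {C : Vec d ≃ₗ[ℝ] Vec d} {ρ : ℝ} (hρ0 : 0 ≤ ρ) (hρ1 : ρ < 1)
    (hC : ∀ x, ‖C x‖ ≤ ρ * ‖x‖) {β : ℝ} (hβ : β ≤ 1 / 2) (g : Vec d) :
    ∫⁻ y, ENNReal.ofReal (mixDens C (g - C y) * (gaussKer y * Real.exp (β * ‖y‖ ^ 2 / 2)))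
      = ENNReal.ofReal ((∏ i, √(1 - β + β * mixVal C i))⁻¹ * (gaussConst (Vec d))⁻¹
          * Real.exp (-(∑ i, (1 - β) / (1 - β + β * mixVal C i) * ⟪mixBasis C i, g⟫ ^ 2) / 2)) := by
  obtain ⟨hpos, hle, U, hU⟩ := mix_spec C
  set b := mixBasis C
  set κ := mixVal C
  have hκ1 : ∀ i, κ i < 1 := fun i => (hle ρ hρ0 hC i).trans_lt (by nlinarith)
  have hr : ∀ i, 0 < 1 - β + β * κ i := fun i => by nlinarith [hpos i, hκ1 i]
  set w : Fin d → ℝ := fun i => √((1 - β + β * κ i) / (1 - κ i))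
  have hw : ∀ i, w i ≠ 0 := fun i =>
    (Real.sqrt_pos.2 (div_pos (hr i) (by linarith [hκ1 i]))).ne'
  set m := diag b (fun i => √(κ i) / (1 - β + β * κ i)) g
  set c := (∏ i, √(1 - κ i))⁻¹ * (gaussConst (Vec d))⁻¹
    * Real.exp (-(∑ i, (1 - β) / (1 - β + β * κ i) * ⟪b i, g⟫ ^ 2) / 2)
  have hpt : ∀ z, mixDens C (g - diag b (fun i => √(κ i)) z)
      * (gaussKer z * Real.exp (β * ‖z‖ ^ 2 / 2)) = c * gaussKer (diag b w (z - m)) := by
    intro z
    simp only [mixDens, gaussKer, c, show mixBasis C = b from rfl, show mixVal C = κ from rfl]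
    rw [show ∀ A B C' D : ℝ, A * (B * C') * (B * D * Real.exp (β * ‖z‖ ^ 2 / 2))
        = A * B * B * (C' * D * Real.exp (β * ‖z‖ ^ 2 / 2)) from fun _ _ _ _ => by ring,
      show ∀ A B E F : ℝ, A * B * E * (B * F) = A * B * B * (E * F) from fun _ _ _ _ => by ring,
      ← Real.exp_add, ← Real.exp_add, ← Real.exp_add]
    congr 2
    rw [norm_sq_diag, norm_sq_diag, ← b.sum_sq_inner_right z]
    simp only [neg_div, Finset.mul_sum, Finset.sum_div, ← Finset.sum_neg_distrib,
      ← Finset.sum_add_distrib]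
    refine Finset.sum_congr rfl fun i _ => ?_
    have h1 : (1 - κ i) ≠ 0 := by linarith [hκ1 i]
    have h2 := (hr i).ne'
    simp only [m, w, inner_sub_right, inner_diag, inv_pow,
      Real.sq_sqrt (show (0:ℝ) ≤ 1 - κ i by linarith [hκ1 i]),
      Real.sq_sqrt (show (0:ℝ) ≤ (1 - β + β * κ i) / (1 - κ i) from
        (div_pos (hr i) (by linarith [hκ1 i])).le)]
    rw [add_assoc]
    exact square_completion (hκ1 i) h2 (Real.sq_sqrt (hpos i).le)
  have hK : Measurable fun z : Vec d => ENNReal.ofReal (mixDens C (g - diag b (fun i => √(κ i)) z)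
      * (gaussKer z * Real.exp (β * ‖z‖ ^ 2 / 2))) := by
    have h1 := (diag b fun i => √(κ i)).continuous_of_finiteDimensional
    have h2 := continuous_mixDens C
    have h3 := continuous_gaussKer (d := d)
    fun_prop
  have hsub := U.measurePreserving.lintegral_comp hK
  have e : ∀ y, ENNReal.ofReal (mixDens C (g - C y) * (gaussKer y * Real.exp (β * ‖y‖ ^ 2 / 2)))
      = ENNReal.ofReal (mixDens C (g - diag b (fun i => √(κ i)) (U y))
        * (gaussKer (U y) * Real.exp (β * ‖U y‖ ^ 2 / 2))) := fun y => by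
    rw [hU, LinearIsometryEquiv.norm_map]
    simp [gaussKer]
  simp only [e]
  rw [hsub]
  simp only [hpt]
  have hc : 0 ≤ c := by
    have := gaussConst_pos (V := Vec d)
    positivity
  simp only [ENNReal.ofReal_mul hc]
  rw [lintegral_const_mul' _ _ ENNReal.ofReal_ne_top, lintegral_gaussKer_diag hw m,
    ← ENNReal.ofReal_mul hc]
  congr 1
  have hprod : |∏ i, w i| = (∏ i, √(1 - β + β * κ i)) / ∏ i, √(1 - κ i) := by
    rw [abs_of_nonneg (Finset.prod_nonneg fun i _ => Real.sqrt_nonneg _), ← Finset.prod_div_distrib]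
    exact Finset.prod_congr rfl fun i _ => Real.sqrt_div (hr i).le _
  rw [hprod]
  have h1 : (∏ i, √(1 - κ i)) ≠ 0 :=
    Finset.prod_ne_zero_iff.2 fun i _ => (Real.sqrt_pos.2 (by linarith [hκ1 i])).ne'
  have h2 : (∏ i, √(1 - β + β * κ i)) ≠ 0 :=
    Finset.prod_ne_zero_iff.2 fun i _ => (Real.sqrt_pos.2 (hr i)).ne'
  simp only [c]
  field_simp

/-- The mixture identity. -/
theorem lintegral_mixDens {C : Vec d ≃ₗ[ℝ] Vec d} {ρ : ℝ} (hρ0 : 0 ≤ ρ) (hρ1 : ρ < 1)
    (hC : ∀ x, ‖C x‖ ≤ ρ * ‖x‖) (g : Vec d) :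
    ∫⁻ y, ENNReal.ofReal (mixDens C (g - C y) * gaussKer y) = ENNReal.ofReal (gaussKer g) := by
  have h := lintegral_mixDens_tilt hρ0 hρ1 hC (β := 0) (by norm_num) g
  simp only [zero_mul, zero_div, Real.exp_zero, mul_one, sub_zero, add_zero, div_one, one_mul,
    Real.sqrt_one, Finset.prod_const_one, inv_one, (mixBasis C).sum_sq_inner_right] at h
  exact h

/-- The tilted mixture bound. -/
theorem lintegral_mixDens_half {C : Vec d ≃ₗ[ℝ] Vec d} {ρ : ℝ} (hρ0 : 0 ≤ ρ) (hρ1 : ρ < 1)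
    (hC : ∀ x, ‖C x‖ ≤ ρ * ‖x‖) (g : Vec d) :
    ∫⁻ y, ENNReal.ofReal (mixDens C (g - C y) * (gaussKer y * Real.exp (‖y‖ ^ 2 / 4)))
      ≤ ENNReal.ofReal (√2 ^ d * Real.exp (ρ ^ 2 * ‖g‖ ^ 2 / 2) * gaussKer g) := by
  have h := lintegral_mixDens_tilt hρ0 hρ1 hC (β := 1/2) le_rfl g
  have e : ∀ y : Vec d, (1:ℝ) / 2 * ‖y‖ ^ 2 / 2 = ‖y‖ ^ 2 / 4 := fun y => by ring
  simp only [e] at h
  rw [h]
  refine ENNReal.ofReal_le_ofReal ?_
  obtain ⟨hpos, hle, -⟩ := mix_spec C
  have hr : ∀ i, (1:ℝ) / 2 ≤ 1 - 1/2 + 1/2 * mixVal C i := fun i => by linarith [hpos i]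
  rw [gaussKer, show ∀ A B E F : ℝ, A * E * (B * F) = A * B * (E * F) from fun _ _ _ _ => by ring,
    ← Real.exp_add]
  have hc := gaussConst_pos (V := Vec d)
  refine mul_le_mul (mul_le_mul_of_nonneg_right ?_ (inv_nonneg.2 hc.le)) (Real.exp_le_exp.2 ?_)
    (Real.exp_pos _).le (by positivity)
  · rw [← Finset.prod_inv_distrib]
    calc ∏ i, (√(1 - 1/2 + 1/2 * mixVal C i))⁻¹ ≤ ∏ _i : Fin d, √2 := by
          refine Finset.prod_le_prod (fun i _ => by positivity) fun i _ => ?_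
          rw [← Real.sqrt_inv]
          exact Real.sqrt_le_sqrt ((inv_anti₀ (by norm_num) (hr i)).trans_eq (by norm_num))
      _ = √2 ^ d := by simp
  · rw [← (mixBasis C).sum_sq_inner_right g]
    simp only [neg_div, Finset.mul_sum, Finset.sum_div, ← Finset.sum_neg_distrib,
      ← Finset.sum_add_distrib]
    refine Finset.sum_le_sum fun i _ => ?_
    have h3 := hle ρ hρ0 hC i
    have h4 : 1 - ρ ^ 2 ≤ (1 - 1/2) / (1 - 1/2 + 1/2 * mixVal C i) := by
      rw [le_div_iff₀ (by linarith [hr i])]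
      nlinarith [hpos i, sq_nonneg ρ]
    nlinarith [mul_le_mul_of_nonneg_right h4 (sq_nonneg ⟪mixBasis C i, g⟫)]

end Vale.Agent.P309.Sharp
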