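import Vale.Agent.P309.Sharp.Params
import Vale.Agent.P309.Sphere

/-! Base measures of pieces, children of pieces and the final cap. -/

namespace Vale.Agent.P309.Sharp

open MeasureTheory ProbabilityTheory
open scoped RealInnerProductSpace Real ENNReal

variable {d k : ℕ}

/-- The base measure of a piece. -/
noncomputable abbrev Piece.base (P : Piece d) : Measure (Vec d) := sliceBase P.μ P.A

/-- The exceptional direction of a piece. -/
noncomputable def Piece.v (P : Piece d) : Vec d :=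
  LinearMap.adjoint (P.A : Vec d →ₗ[ℝ] Vec d) P.μ

instance isFiniteMeasure_gw_sliceBase (μ : Vec d) (A : Vec d ≃ₗ[ℝ] Vec d) :
    IsFiniteMeasure (gw (sliceBase μ A)) := by
  rw [gw_sliceBase]
  infer_instance

instance isFiniteMeasure_gw_volume : IsFiniteMeasure (gw (volume : Measure (Vec d))) := by
  rw [gw_volume]
  infer_instance

/-- What one phase needs from a base measure. -/
structure Base (σ₀ : Measure (Vec d)) (v : Vec d) (M : ℝ) : Prop where
  nonneg : 0 ≤ M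
  dec : Decay σ₀ v M (d / 16)
  bumpW : BumpW σ₀ M (d / 64)
  bump : ∀ σ : ℝ, 0 < σ → σ ≤ 1 → ∀ z,
    ∫⁻ g, ENNReal.ofReal (Real.exp (-‖g - z‖ ^ 2 / (2 * σ ^ 2))) ∂gw σ₀
      ≤ ENNReal.ofReal (M * (2 / σ ^ 2) * σ ^ d * Real.exp (-‖z‖ ^ 2 / (2 * (1 + σ ^ 2))))
  tail : ∀ R : ℝ, gw σ₀ {g | R ^ 2 ≤ ‖g‖ ^ 2}
      ≤ ENNReal.ofReal (√2 ^ d * Real.exp (-R ^ 2 / 4) * M)

/-- A bump in diagonal coordinates, from a bound on the mass of the children. -/
lemma bump_diag_le (σ₀ : Measure (Vec d)) (b : OrthonormalBasis (Fin d) ℝ (Vec d))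
    (β : Fin d → ℝ) (hβ : ∀ i, 0 < β i) {B : ℝ} (hB : ∀ i, β i ≤ B) {M : ℝ} (hM0 : 0 ≤ M)
    (hM : ∀ a, gw (child σ₀ a (diagEquiv b (fun i => β i / √(1 + β i ^ 2))
      fun i => by have := hβ i; positivity)) Set.univ ≤ ENNReal.ofReal M) (z : Vec d) :
    ∫⁻ g, ENNReal.ofReal (Real.exp (-‖diag b (fun i => (β i)⁻¹) (g - z)‖ ^ 2 / 2)) ∂gw σ₀
      ≤ ENNReal.ofReal ((∏ i, β i) * Real.exp (-‖z‖ ^ 2 / (2 * (1 + B ^ 2))) * M) := by
  rw [lintegral_bump σ₀ b β hβ z]
  have hP : (0:ℝ) ≤ ∏ i, β i := Finset.prod_nonneg fun i _ => (hβ i).le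
  refine (mul_le_mul_right (hM _) _).trans ?_
  rw [← ENNReal.ofReal_mul' hM0]
  refine ENNReal.ofReal_le_ofReal (mul_le_mul_of_nonneg_right (mul_le_mul ?_ ?_ ?_ hP) hM0)
  · refine Finset.prod_le_prod (fun i _ => ?_) fun i _ => ?_
    · have := hβ i; positivity
    · refine div_le_self (hβ i).le (Real.one_le_sqrt.2 ?_)
      linarith [sq_nonneg (β i)]
  · refine Real.exp_le_exp.2 ?_
    have h : ‖z‖ ^ 2 / (1 + B ^ 2) ≤ ∑ i, ⟪b i, z⟫ ^ 2 / (1 + β i ^ 2) := by
      rw [← b.sum_sq_inner_right z, Finset.sum_div]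
      refine Finset.sum_le_sum fun i _ => div_le_div_of_nonneg_left (sq_nonneg _) (by positivity) ?_
      have := pow_le_pow_left₀ (hβ i).le (hB i) 2
      linarith
    rw [show -‖z‖ ^ 2 / (2 * (1 + B ^ 2)) = -(‖z‖ ^ 2 / (1 + B ^ 2)) / 2 by field_simp]
    linarith
  · positivity

lemma child_base (P : Piece d) (a : Vec d) (C : Vec d ≃ₗ[ℝ] Vec d) :
    gw (child P.base a C) Set.univ = slice (P.μ + P.A a) (C.trans P.A) 1 Set.univ := by
  rw [child_sliceBase, gw_sliceBase_univ]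

/-- Mass of a child whose map fixes a multiple of enough top directions. -/
lemma child_mass_le (P : Piece d) (hd : 2 ≤ d) (a : Vec d) (C : Vec d ≃ₗ[ℝ] Vec d) {N : ℕ}
    (hN : 8 ≤ N) {e : Fin N → Vec d} (he : Orthonormal ℝ e)
    (hA : ∀ g r, ⟪P.A g, P.A (e r)⟫ = P.δ ^ 2 * ⟪g, e r⟫) {κ : ℝ} (hκ : 0 < κ)
    (hC : ∀ x y, ⟪C x, y⟫ = ⟪x, C y⟫) (hCe : ∀ r, C (e r) = κ • e r) :
    gw (child P.base a C) Set.univ ≤ ENNReal.ofReal (4 * (κ * P.δ) ^ 2)⁻¹ := by
  rw [child_base]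
  refine slice_univ_le hd he (fun g r => ?_) (mul_pos hκ P.δpos) hN _ one_pos
  simp only [LinearEquiv.trans_apply, hCe, map_smul, inner_smul_right, hA, hC]
  ring

lemma exists_top_free (P : Piece d) (hd : 32 ≤ d) {i : ℕ} (hi : i ≤ d / 64) (W : Fin i → Vec d) :
    ∃ e : Fin 8 → Vec d, Orthonormal ℝ e ∧ (∀ g r, ⟪P.A g, P.A (e r)⟫ = P.δ ^ 2 * ⟪g, e r⟫) ∧
      ∀ r j, ⟪W j, e r⟫ = 0 :=
  P.exists_top (by omega) W

/-- The base of a piece. -/
theorem Piece.base_spec (P : Piece d) (hd : 32 ≤ d) : Base P.base P.v (1 / P.δ ^ 2) := by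
  classical
  have hδ := P.δpos
  have hd2 : 2 ≤ d := by omega
  set T := Finset.univ.filter fun i => P.lam i = P.δ ^ 2
  have hT : 3 * d ≤ 4 * T.card := P.card_top
  have hM : (4 * P.δ ^ 2)⁻¹ ≤ 1 / P.δ ^ 2 := by
    rw [one_div]
    exact inv_anti₀ (by positivity) (by nlinarith)
  obtain ⟨e₀, he₀, hA₀, -⟩ := exists_top_free P hd (i := 0) (by omega) Fin.elim0
  refine ⟨by positivity, ?_, ?_, ?_, ?_⟩
  · refine decay_of_le (by positivity) ?_ fun ξ => ?_
    · rw [gw_sliceBase_univ]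
      exact (slice_univ_le hd2 he₀ hA₀ hδ le_rfl _ one_pos).trans (ENNReal.ofReal_le_ofReal hM)
    · refine (norm_charFun_gw_le hd2 P.form P.lam_nonneg P.lam_le T
        (fun i hi => (Finset.mem_filter.1 hi).2) hδ (p := d / 16) (by omega) (by omega) P.μ ξ).trans ?_
      exact mul_le_mul_of_nonneg_right hM (by positivity)
  · intro i hi W z
    obtain ⟨e, he, hA, hW⟩ := exists_top_free P hd hi W
    rw [precond]
    simp only [diagEquiv_symm_apply]
    refine (bump_diag_le P.base (pickBasis W) (pickScale W) (pickScale_pos W) (pickScale_le_one W)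
      (M := 1 / P.δ ^ 2) (by positivity) (fun a => ?_) z).trans (ENNReal.ofReal_le_ofReal ?_)
    · refine (child_mass_le P hd2 a _ le_rfl he hA (κ := (√2)⁻¹) (by positivity) (fun x y => ?_)
        (fun r => ?_)).trans (ENNReal.ofReal_le_ofReal ?_)
      · simp only [diagEquiv_apply]; exact diag_symm x y
      · rw [diagEquiv_apply, ← diag_one (b := pickBasis W) (e r)]
        conv_rhs => rw [← diag_one (b := pickBasis W) (e r)]
        rw [diag_one, diag_one]
        simp only [diag, LinearMap.coe_mk, AddHom.coe_mk]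
        conv_rhs => rw [← (pickBasis W).sum_repr' (e r), Finset.smul_sum]
        refine Finset.sum_congr rfl fun j _ => ?_
        rw [smul_smul]
        rcases mul_eq_zero.1 ((pick_spec W).2.2 (e r) (hW r) j) with h | h
        · simp [pickScale, h]
          norm_num
        · simp [h]
      · rw [mul_pow, inv_pow, Real.sq_sqrt (by norm_num : (0:ℝ) ≤ 2), one_div]
        exact inv_anti₀ (by positivity) (by nlinarith)
    · have h1 : ∏ j, pickScale W j ≤ 1 :=
        Finset.prod_le_one (fun j _ => (pickScale_pos W j).le) fun j _ => pickScale_le_one W j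
      rw [mul_comm (1 / P.δ ^ 2)]
      refine mul_le_mul_of_nonneg_right ?_ (by positivity)
      norm_num
      exact mul_le_of_le_one_left (Real.exp_pos _).le h1
  · intro σ hσ hσ1 z
    obtain ⟨e, he, hA, -⟩ := exists_top_free P hd (i := 0) (by omega) Fin.elim0
    set b := pickBasis (d := d) Fin.elim0
    have hdiag : ∀ (c : ℝ) (x : Vec d), diag b (fun _ => c) x = c • x := fun c x => by
      conv_rhs => rw [← diag_one (b := b) x]
      simp [diag, Finset.smul_sum, smul_smul]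
    have hconv : ∀ g, Real.exp (-‖g - z‖ ^ 2 / (2 * σ ^ 2))
        = Real.exp (-‖diag b (fun _ => σ⁻¹) (g - z)‖ ^ 2 / 2) := fun g => by
      rw [hdiag, norm_smul, mul_pow, Real.norm_eq_abs, sq_abs]
      congr 1
      field_simp
    simp only [hconv]
    refine (bump_diag_le P.base b (fun _ => σ) (fun _ => hσ) (fun _ => le_rfl)
      (M := 1 / P.δ ^ 2 * (2 / σ ^ 2)) (by positivity) (fun a => ?_) z).trans
      (ENNReal.ofReal_le_ofReal (le_of_eq ?_))
    · refine (child_mass_le P hd2 a _ le_rfl he hA (κ := σ / √(1 + σ ^ 2)) (by positivity)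
        (fun x y => ?_) (fun r => ?_)).trans (ENNReal.ofReal_le_ofReal ?_)
      · simp only [diagEquiv_apply]; exact diag_symm x y
      · rw [diagEquiv_apply, hdiag]
      · rw [mul_pow, div_pow, Real.sq_sqrt (by positivity : (0:ℝ) ≤ 1 + σ ^ 2)]
        have : σ ^ 2 ≤ 1 := pow_le_one₀ hσ.le hσ1
        rw [show 1 / P.δ ^ 2 * (2 / σ ^ 2) = 2 / (P.δ ^ 2 * σ ^ 2) by field_simp,
          show (4 * (σ ^ 2 / (1 + σ ^ 2) * P.δ ^ 2))⁻¹ = (1 + σ ^ 2) / 4 / (P.δ ^ 2 * σ ^ 2) by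
            field_simp]
        gcongr
        linarith
    · simp only [Finset.prod_const, Finset.card_univ, Fintype.card_fin]
      ring
  · intro R
    refine (gw_tail_le P.base R (M := ENNReal.ofReal (1 / P.δ ^ 2)) ((child_mass_le P hd2 0 _ (N := 8) le_rfl he₀ hA₀ (κ := √2)
      (by positivity) (fun x y => ?_) (fun r => rfl)).trans (ENNReal.ofReal_le_ofReal ?_))).trans ?_
    · simp [inner_smul_left, inner_smul_right]
    · rw [mul_pow, Real.sq_sqrt (by norm_num : (0:ℝ) ≤ 2), one_div]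
      exact inv_anti₀ (by positivity) (by nlinarith)
    · rw [← ENNReal.ofReal_mul (by positivity)]

/-- The base of the ambient law. -/
theorem base_volume (hd : 32 ≤ d) (v : Vec d) : Base (volume : Measure (Vec d)) v 1 := by
  have h1 : ∀ a (C : Vec d ≃ₗ[ℝ] Vec d),
      gw (child (volume : Measure (Vec d)) a C) Set.univ ≤ ENNReal.ofReal 1 := fun a C => by
    rw [child_volume, gw_volume, measure_univ, ENNReal.ofReal_one]
  refine ⟨zero_le_one, decay_volume (by omega) v, ?_, ?_, ?_⟩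
  · intro i _ W z
    rw [precond]
    simp only [diagEquiv_symm_apply]
    refine (bump_diag_le volume (pickBasis W) (pickScale W) (pickScale_pos W) (pickScale_le_one W)
      zero_le_one (fun a => h1 a _) z).trans (ENNReal.ofReal_le_ofReal ?_)
    have h2 : ∏ j, pickScale W j ≤ 1 :=
      Finset.prod_le_one (fun j _ => (pickScale_pos W j).le) fun j _ => pickScale_le_one W j
    norm_num
    exact mul_le_of_le_one_left (Real.exp_pos _).le h2
  · intro σ hσ hσ1 z
    set b := pickBasis (d := d) Fin.elim0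
    have hconv : ∀ g, Real.exp (-‖g - z‖ ^ 2 / (2 * σ ^ 2))
        = Real.exp (-‖diag b (fun _ => σ⁻¹) (g - z)‖ ^ 2 / 2) := fun g => by
      rw [norm_sq_diag, ← Finset.mul_sum, b.sum_sq_inner_right]
      congr 1
      field_simp
    simp only [hconv]
    refine (bump_diag_le volume b (fun _ => σ) (fun _ => hσ) (fun _ => le_rfl) zero_le_one
      (fun a => h1 a _) z).trans (ENNReal.ofReal_le_ofReal ?_)
    simp only [Finset.prod_const, Finset.card_univ, Fintype.card_fin, mul_one, one_mul]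
    have h2 : (1:ℝ) ≤ 2 / σ ^ 2 := by
      rw [le_div_iff₀ (by positivity)]
      nlinarith
    nlinarith [mul_nonneg (pow_nonneg hσ.le d) (Real.exp_pos (-‖z‖ ^ 2 / (2 * (1 + σ ^ 2)))).le]
  · intro R
    refine (gw_tail_le volume R (h1 _ _)).trans ?_
    rw [← ENNReal.ofReal_mul (by positivity)]

/-- The number of maximal directions kept in a piece. -/
def ntop (d : ℕ) : ℕ := (3 * d + 3) / 4

/-- The normalised volume of a piece. -/
noncomputable def Piece.ratio (P : Piece d) : ℝ :=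
  |LinearMap.det (P.A : Vec d →ₗ[ℝ] Vec d)| / P.δ ^ ntop d

/-- A clipped linear map after a preconditioner. -/
structure Clip (P : Piece d) (B : Vec d ≃ₗ[ℝ] Vec d) (ρ : ℝ) where
  /-- the map -/
  C : Vec d ≃ₗ[ℝ] Vec d
  /-- top singular value -/
  δ : ℝ
  /-- eigenbasis -/
  b : OrthonormalBasis (Fin d) ℝ (Vec d)
  /-- eigenvalues -/
  lam : Fin d → ℝ
  δpos : 0 < δ
  form : ∀ g h, ⟪P.A (C g), P.A (C h)⟫ = ∑ i, lam i * ⟪b i, g⟫ * ⟪b i, h⟫
  lam_nonneg : ∀ i, 0 ≤ lam i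
  lam_le : ∀ i, lam i ≤ δ ^ 2
  card_top : 3 * d ≤ 4 * (Finset.univ.filter fun i => lam i = δ ^ 2).card
  symm_le : ∀ y, ‖B.symm (C y)‖ ≤ ρ * ‖y‖
  ratio_ge : P.ratio * (ρ ^ d * |LinearMap.det (B : Vec d →ₗ[ℝ] Vec d)|)
      ≤ |LinearMap.det (P.A : Vec d →ₗ[ℝ] Vec d) * LinearMap.det (C : Vec d →ₗ[ℝ] Vec d)| / δ ^ ntop d

lemma exists_clip (P : Piece d) (hd : 4 ≤ d) (B : Vec d ≃ₗ[ℝ] Vec d) (hB : ∀ y, ‖B y‖ ≤ ‖y‖) {ρ : ℝ}
    (hρ : 0 < ρ) (hρ1 : ρ ≤ 1) : Nonempty (Clip P B ρ) := by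
  classical
  set Bρ : Vec d ≃ₗ[ℝ] Vec d := B.trans (LinearEquiv.smulOfNeZero ℝ (Vec d) ρ hρ.ne')
  have hBρ : ∀ y, Bρ y = ρ • B y := fun y => rfl
  set L : Vec d ≃ₗ[ℝ] Vec d := Bρ.trans P.A
  set T₀ := LinearMap.adjoint (L : Vec d →ₗ[ℝ] Vec d) ∘ₗ (L : Vec d →ₗ[ℝ] Vec d)
  have hT₀ : T₀.IsSymmetric := fun x y => by
    simp [T₀, LinearMap.adjoint_inner_left, LinearMap.adjoint_inner_right]
  have hn : Module.finrank ℝ (Vec d) = d := finrank_euclideanSpace_fin
  set b := hT₀.eigenvectorBasis hn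
  set κ := hT₀.eigenvalues hn
  have hev : ∀ i, T₀ (b i) = κ i • b i := fun i => hT₀.apply_eigenvectorBasis hn i
  have hL : ∀ g h, ⟪L g, L h⟫ = ∑ i, κ i * ⟪b i, g⟫ * ⟪b i, h⟫ := by
    intro g h
    have e : ⟪L g, L h⟫ = ⟪T₀ g, h⟫ := by simp [T₀, LinearMap.adjoint_inner_left]
    rw [e, ← b.sum_inner_mul_inner (T₀ g) h]
    refine Finset.sum_congr rfl fun i _ => ?_
    rw [hT₀ g (b i), hev, inner_smul_right, real_inner_comm g (b i)]
  have hκ : ∀ i, κ i = ‖L (b i)‖ ^ 2 := by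
    intro i
    rw [← real_inner_self_eq_norm_sq, hL, Finset.sum_eq_single i]
    · rw [real_inner_self_eq_norm_sq, b.orthonormal.norm_eq_one]; ring
    · intro j _ hj
      rw [b.orthonormal.inner_eq_zero hj, mul_zero]
    · simp
  have hκpos : ∀ i, 0 < κ i := fun i => by
    rw [hκ]
    have : L (b i) ≠ 0 := fun h => b.orthonormal.ne_zero i (L.map_eq_zero_iff.1 h)
    positivity
  have hκle : ∀ i, √(κ i) ≤ ρ * P.δ := fun i => by
    rw [hκ, Real.sqrt_sq (norm_nonneg _)]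
    refine (P.norm_le _).trans ?_
    simp only [LinearEquiv.coe_coe]
    rw [hBρ, norm_smul, Real.norm_eq_abs, abs_of_pos hρ, mul_comm ρ P.δ]
    refine mul_le_mul_of_nonneg_left (mul_le_of_le_one_right hρ.le ?_) P.δpos.le
    exact (hB _).trans (le_of_eq (b.orthonormal.norm_eq_one i))
  set σ : Fin d → ℝ := fun i => √(κ i)
  have hσ : ∀ i, 0 < σ i := fun i => Real.sqrt_pos.2 (hκpos i)
  set s := Tuple.sort σ
  have hmono : Monotone (σ ∘ s) := Tuple.monotone_sort σ
  have hnd : ntop d ≤ d := by simp only [ntop]; omega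
  have hn1 : 1 ≤ ntop d := by simp only [ntop]; omega
  set i₀ : Fin d := ⟨d - ntop d, by omega⟩
  set T : Finset (Fin d) := (Finset.Ici i₀).map s.toEmbedding
  have hcard : T.card = ntop d := by
    rw [Finset.card_map, Fin.card_Ici]
    simp only [i₀]
    omega
  set δ' := σ (s i₀)
  have hin : ∀ i ∈ T, δ' ≤ σ i := by
    intro i hi
    obtain ⟨j, hj, rfl⟩ := Finset.mem_map.1 hi
    exact hmono (Finset.mem_Ici.1 hj)
  have hout : ∀ i, i ∉ T → σ i ≤ δ' := by
    intro i hi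
    obtain ⟨j, rfl⟩ := s.surjective i
    have hj : ¬ i₀ ≤ j := fun h => hi (Finset.mem_map.2 ⟨j, Finset.mem_Ici.2 h, rfl⟩)
    exact hmono (le_of_not_ge hj)
  set f : Fin d → ℝ := fun i => if i ∈ T then δ' / σ i else 1
  have hf0 : ∀ i, 0 < f i := fun i => by
    simp only [f]; split
    · exact div_pos (hσ _) (hσ i)
    · exact one_pos
  have hf1 : ∀ i, |f i| ≤ 1 := fun i => by
    rw [abs_of_pos (hf0 i)]
    simp only [f]; split
    · next h => exact (div_le_one (hσ i)).2 (hin i h)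
    · exact le_rfl
  set Pm := diagEquiv b f fun i => (hf0 i).ne'
  set lam' : Fin d → ℝ := fun i => κ i * f i ^ 2
  have hlamT : ∀ i ∈ T, lam' i = δ' ^ 2 := fun i hi => by
    simp only [lam', f, if_pos hi, div_pow]
    rw [show σ i ^ 2 = κ i from Real.sq_sqrt (hκpos i).le]
    exact mul_div_cancel₀ _ (hκpos i).ne'
  refine ⟨⟨Pm.trans Bρ, δ', b, lam', hσ _, fun g h => ?_, fun i => ?_, fun i => ?_, ?_, fun y => ?_,
    ?_⟩⟩
  · show ⟪L (Pm g), L (Pm h)⟫ = _
    rw [hL]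
    refine Finset.sum_congr rfl fun i _ => ?_
    simp only [Pm, diagEquiv_apply, inner_diag, lam']
    ring
  · exact mul_nonneg (hκpos i).le (sq_nonneg _)
  · by_cases h : i ∈ T
    · exact (hlamT i h).le
    · simp only [lam', f, if_neg h, one_pow, mul_one]
      rw [← show σ i ^ 2 = κ i from Real.sq_sqrt (hκpos i).le]
      exact pow_le_pow_left₀ (hσ i).le (hout i h) 2
  · have : T ⊆ Finset.univ.filter fun i => lam' i = δ' ^ 2 := fun i hi =>
      Finset.mem_filter.2 ⟨Finset.mem_univ i, hlamT i hi⟩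
    have := Finset.card_le_card this
    have : 3 * d ≤ 4 * ntop d := by simp only [ntop]; omega
    omega
  · rw [LinearEquiv.trans_apply, hBρ, map_smul, LinearEquiv.symm_apply_apply, norm_smul,
      Real.norm_eq_abs, abs_of_pos hρ]
    refine mul_le_mul_of_nonneg_left ?_ hρ.le
    simpa only [one_mul, Pm, diagEquiv_apply] using norm_diag_le (b := b) hf1 zero_le_one y
  · have hdet : |LinearMap.det (P.A : Vec d →ₗ[ℝ] Vec d)
        * LinearMap.det (Pm.trans Bρ : Vec d →ₗ[ℝ] Vec d)|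
        = |LinearMap.det (P.A : Vec d →ₗ[ℝ] Vec d)|
          * (ρ ^ d * |LinearMap.det (B : Vec d →ₗ[ℝ] Vec d)| * ∏ i, f i) := by
      have e1 : (Bρ : Vec d →ₗ[ℝ] Vec d) = ρ • (B : Vec d →ₗ[ℝ] Vec d) := LinearMap.ext hBρ
      rw [LinearEquiv.coe_trans, LinearMap.det_comp, e1, LinearMap.det_smul,
        show (Pm : Vec d →ₗ[ℝ] Vec d) = diag b f from rfl, det_diag, hn, abs_mul, abs_mul, abs_mul,
        abs_of_pos (pow_pos hρ d), abs_of_pos (Finset.prod_pos fun i _ => hf0 i)]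
    have hprod : (δ' / (ρ * P.δ)) ^ ntop d ≤ ∏ i, f i := by
      have e : ∏ i, f i = ∏ i ∈ T, δ' / σ i := by
        simp only [f]
        rw [Finset.prod_ite_mem, Finset.univ_inter]
      rw [e, ← hcard, ← Finset.prod_const]
      exact Finset.prod_le_prod (fun i _ => (div_pos (hσ _) (mul_pos hρ P.δpos)).le)
        fun i _ => div_le_div_of_nonneg_left (hσ _).le (hσ i) (hκle i)
    rw [hdet, Piece.ratio, le_div_iff₀ (pow_pos (hσ _) _)]
    set a := |LinearMap.det (P.A : Vec d →ₗ[ℝ] Vec d)|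
    set c := ρ ^ d * |LinearMap.det (B : Vec d →ₗ[ℝ] Vec d)|
    rw [show a / P.δ ^ ntop d * c * δ' ^ ntop d = a * (c * (δ' / P.δ) ^ ntop d) by
      rw [div_pow]; ring]
    refine mul_le_mul_of_nonneg_left (mul_le_mul_of_nonneg_left (le_trans ?_ hprod) (by positivity))
      (abs_nonneg _)
    refine pow_le_pow_left₀ (div_pos (hσ _) P.δpos).le ?_ _
    exact div_le_div_of_nonneg_left (hσ _).le (mul_pos hρ P.δpos) (mul_le_of_le_one_left P.δpos.le hρ1)

namespace Clip

variable {P : Piece d} {B : Vec d ≃ₗ[ℝ] Vec d} {ρ : ℝ}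

/-- The child piece at a shift. -/
noncomputable def piece (c : Clip P B ρ) (a : Vec d) : Piece d where
  μ := P.μ + P.A a
  A := c.C.trans P.A
  δ := c.δ
  b := c.b
  lam := c.lam
  δpos := c.δpos
  form := c.form
  lam_nonneg := c.lam_nonneg
  lam_le := c.lam_le
  card_top := c.card_top

lemma base_piece (c : Clip P B ρ) (a : Vec d) : (c.piece a).base = child P.base a c.C :=
  (child_sliceBase P.μ P.A a c.C).symm

lemma ratio_piece (c : Clip P B ρ) (a : Vec d) :
    P.ratio * (ρ ^ d * |LinearMap.det (B : Vec d →ₗ[ℝ] Vec d)|) ≤ (c.piece a).ratio := by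
  refine c.ratio_ge.trans (le_of_eq ?_)
  simp only [Piece.ratio, piece, LinearEquiv.coe_trans, LinearMap.det_comp]

lemma norm_le (c : Clip P B ρ) (hB : ∀ y, ‖B y‖ ≤ ‖y‖) (y : Vec d) : ‖c.C y‖ ≤ ρ * ‖y‖ := by
  have := (hB (B.symm (c.C y))).trans (c.symm_le y)
  rwa [LinearEquiv.apply_symm_apply] at this

lemma adjoint_le (c : Clip P B ρ) (hρ : 0 ≤ ρ) (ξ : Vec d) :
    ‖LinearMap.adjoint ((B.symm : Vec d →ₗ[ℝ] Vec d) ∘ₗ (c.C : Vec d →ₗ[ℝ] Vec d)) ξ‖ ≤ ρ * ‖ξ‖ := by
  set T := ((B.symm : Vec d →ₗ[ℝ] Vec d) ∘ₗ (c.C : Vec d →ₗ[ℝ] Vec d))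
  rcases eq_or_ne (LinearMap.adjoint T ξ) 0 with h | h
  · rw [h, norm_zero]; positivity
  refine le_of_mul_le_mul_right ?_ (norm_pos_iff.2 h)
  rw [← sq, ← real_inner_self_eq_norm_sq, LinearMap.adjoint_inner_left]
  refine (real_inner_le_norm _ _).trans ?_
  refine (mul_le_mul_of_nonneg_left (c.symm_le _) (norm_nonneg _)).trans (le_of_eq ?_)
  ring

end Clip

lemma norm_precond_le_self {i : ℕ} (W : Fin i → Vec d) (y : Vec d) : ‖precond W y‖ ≤ ‖y‖ := by
  have := norm_diag_le (b := pickBasis W) (f := pickScale W) (c := 1)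
    (fun j => by rw [abs_of_pos (pickScale_pos W j)]; exact pickScale_le_one W j) zero_le_one y
  simpa only [one_mul, precond, diagEquiv_apply] using this

/-- The top singular value is bounded below by the normalised volume. -/
lemma Piece.ratio_le (P : Piece d) : P.ratio ≤ P.δ ^ (d - ntop d) := by
  have hnd : ntop d ≤ d := by simp only [ntop]; omega
  rw [Piece.ratio, div_le_iff₀ (pow_pos P.δpos _), ← pow_add, Nat.sub_add_cancel hnd]
  have hA : LinearMap.det (P.A : Vec d →ₗ[ℝ] Vec d) ^ 2 = ∏ i, P.lam i := by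
    have e : LinearMap.adjoint (P.A : Vec d →ₗ[ℝ] Vec d) ∘ₗ (P.A : Vec d →ₗ[ℝ] Vec d)
        = diag P.b P.lam := by
      refine LinearMap.ext fun x => ext_inner_right ℝ fun y => ?_
      simp only [LinearMap.comp_apply, LinearMap.adjoint_inner_left, LinearEquiv.coe_coe,
        inner_diag_left, P.form]
    have := congrArg LinearMap.det e
    rw [LinearMap.det_comp, det_diag, ← LinearMap.det_toMatrix P.b.toBasis,
      LinearMap.toMatrix_adjoint P.b P.b, Matrix.det_conjTranspose, LinearMap.det_toMatrix,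
      star_trivial] at this
    rw [sq, ← this]
  rw [← sq_le_sq₀ (abs_nonneg _) (pow_nonneg P.δpos.le _), sq_abs, hA, ← pow_mul, mul_comm, pow_mul]
  refine (Finset.prod_le_prod (fun i _ => P.lam_nonneg i) fun i _ => P.lam_le i).trans (le_of_eq ?_)
  simp

end Vale.Agent.P309.Sharp
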