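import Mathlib.Analysis.SpecialFunctions.Gaussian.FourierTransform
import Mathlib.MeasureTheory.Measure.CharacteristicFunction.Basic
import Mathlib.MeasureTheory.Function.ContinuousMapDense

/-! An integrable characteristic function bounds the density of a combination of measures. -/

namespace Vale.Agent.P309.Sharp

open MeasureTheory Filter Topology Complex
open scoped RealInnerProductSpace Real ENNReal

variable {V : Type*} [NormedAddCommGroup V] [InnerProductSpace ℝ V] [FiniteDimensional ℝ V]
  [MeasurableSpace V] [BorelSpace V]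

variable (V) in
/-- Normalising constant of the Gaussian kernel. -/
noncomputable def gaussConst : ℝ := (2 * π) ^ (Module.finrank ℝ V / 2 : ℝ)

/-- The Gaussian kernel. -/
noncomputable def gaussKer (z : V) : ℝ := (gaussConst V)⁻¹ * Real.exp (-‖z‖ ^ 2 / 2)

omit [FiniteDimensional ℝ V] [MeasurableSpace V] [BorelSpace V] in
lemma gaussConst_pos : 0 < gaussConst V := Real.rpow_pos_of_pos (by positivity) _

omit [FiniteDimensional ℝ V] [MeasurableSpace V] [BorelSpace V] in
lemma gaussKer_nonneg (z : V) : 0 ≤ gaussKer z :=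
  mul_nonneg (inv_nonneg.2 gaussConst_pos.le) (Real.exp_pos _).le

lemma gauss_integral : ∫ z : V, Real.exp (-‖z‖ ^ 2 / 2) = gaussConst V := by
  have h := GaussianFourier.integral_cexp_neg_mul_sq_norm (V := V) (b := (1/2 : ℂ)) (by norm_num)
  have h2 : ∀ z : V, cexp (-(1/2 : ℂ) * (‖z‖:ℂ) ^ 2) = ((Real.exp (-‖z‖ ^ 2 / 2) : ℝ) : ℂ) := by
    intro z; rw [Complex.ofReal_exp]; congr 1; push_cast; ring
  simp_rw [h2] at h
  rw [integral_complex_ofReal] at h
  have h3 : ((π : ℂ) / (1/2 : ℂ)) ^ (Module.finrank ℝ V / 2 : ℂ) = ((gaussConst V : ℝ) : ℂ) := by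
    rw [gaussConst, Complex.ofReal_cpow (by positivity)]
    congr 1
    · push_cast; ring
    · push_cast; rfl
  rw [h3] at h
  exact_mod_cast h

lemma integrable_gauss : Integrable fun z : V => Real.exp (-‖z‖ ^ 2 / 2) := by
  apply Classical.by_contradiction
  intro hc
  have := gauss_integral (V := V)
  rw [integral_undef hc] at this
  exact gaussConst_pos.ne this

lemma integrable_gaussKer : Integrable (gaussKer (V := V)) := integrable_gauss.const_mul _

lemma integral_gaussKer : ∫ z : V, gaussKer z = 1 := by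
  simp only [gaussKer, integral_const_mul, gauss_integral]
  exact inv_mul_cancel₀ gaussConst_pos.ne'

/-- Fourier representation of the scaled kernel. -/
lemma gaussKer_fourier {h : ℝ} (hh : 0 < h) (v : V) :
    ∫ ξ : V, cexp (-((h ^ 2 / 2 : ℝ) : ℂ) * (‖ξ‖:ℂ) ^ 2 + I * (⟪v, ξ⟫ : ℝ))
      = (((2 * π) ^ Module.finrank ℝ V * (h ^ Module.finrank ℝ V)⁻¹
          * gaussKer (h⁻¹ • v) : ℝ) : ℂ) := by
  have hb : (0:ℝ) < ((h ^ 2 / 2 : ℝ) : ℂ).re := by rw [Complex.ofReal_re]; positivity
  rw [GaussianFourier.integral_cexp_neg_mul_sq_norm_add hb I v]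
  set n := Module.finrank ℝ V
  have h1 : ((π : ℂ) / ((h ^ 2 / 2 : ℝ) : ℂ)) ^ ((n : ℂ) / 2)
      = (((2 * π / h ^ 2) ^ ((n : ℝ) / 2) : ℝ) : ℂ) := by
    rw [Complex.ofReal_cpow (by positivity)]
    congr 1
    · push_cast; field_simp
    · push_cast; rfl
  have h2 : cexp (I ^ 2 * (‖v‖:ℂ) ^ 2 / (4 * ((h ^ 2 / 2 : ℝ) : ℂ)))
      = ((Real.exp (-‖h⁻¹ • v‖ ^ 2 / 2) : ℝ) : ℂ) := by
    rw [Complex.ofReal_exp, norm_smul, Real.norm_eq_abs, abs_of_pos (inv_pos.2 hh)]
    congr 1
    push_cast
    rw [I_sq]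
    field_simp
    ring
  rw [h1, h2, ← Complex.ofReal_mul]
  congr 1
  have h3 : ((2 * π) ^ n * (h ^ n)⁻¹ * (gaussConst V)⁻¹ : ℝ) = (2 * π / h ^ 2) ^ ((n : ℝ) / 2) := by
    have e1 : ((2 * π) ^ n : ℝ) = gaussConst V * gaussConst V := by
      rw [gaussConst, ← Real.rpow_add (by positivity), ← Real.rpow_natCast]
      congr 1
      show (n:ℝ) = (n:ℝ) / 2 + (n:ℝ) / 2
      ring
    have e2 : (h ^ 2 : ℝ) ^ ((n : ℝ) / 2) = h ^ n := by
      rw [← Real.rpow_natCast h 2, ← Real.rpow_mul hh.le, ← Real.rpow_natCast h n]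
      congr 1
      push_cast
      ring
    rw [Real.div_rpow (by positivity) (by positivity), e2, e1]
    show _ = gaussConst V / h ^ n
    have := gaussConst_pos (V := V)
    field_simp
  rw [gaussKer, ← h3]
  ring

/-- A signed combination of finite measures with integrable characteristic function is dominated
by Lebesgue measure times the mean absolute value of that function. -/
theorem abs_sum_integral_le {ι : Type*} [Fintype ι] (a : ι → ℝ) (ν : ι → Measure V)
    [∀ i, IsFiniteMeasure (ν i)] {S : ℝ}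
    (hχ : Integrable fun ξ => ∑ i, (a i : ℂ) * charFun (ν i) ξ)
    (hS : ∫ ξ, ‖∑ i, (a i : ℂ) * charFun (ν i) ξ‖ ≤ (2 * π) ^ Module.finrank ℝ V * S)
    {F : V → ℝ} (hF : Integrable F) (hFν : ∀ i, Integrable F (ν i)) :
    |∑ i, a i * ∫ x, F x ∂ν i| ≤ S * ∫ x, |F x| := by
  classical
  set χ := fun ξ => ∑ i, (a i : ℂ) * charFun (ν i) ξ
  set n := Module.finrank ℝ V
  have hS0 : 0 ≤ S := by
    have h0 : (0:ℝ) ≤ ∫ ξ, ‖χ ξ‖ := integral_nonneg fun _ => norm_nonneg _
    have h1 : (0:ℝ) < (2 * π) ^ n := by positivity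
    nlinarith [h0.trans hS]
  -- the mollified combination has density at most `S`
  have hD : ∀ h : ℝ, 0 < h → ∀ x,
      |∑ i, a i * ∫ y, (h ^ n)⁻¹ * gaussKer (h⁻¹ • (y - x)) ∂ν i| ≤ S := by
    intro h hh x
    have hint : ∀ i, Integrable (Function.uncurry fun (y ξ : V) =>
        cexp (-((h ^ 2 / 2 : ℝ) : ℂ) * (‖ξ‖:ℂ) ^ 2 + I * (⟪y - x, ξ⟫ : ℝ))) ((ν i).prod volume) := by
      intro i
      have hg : Integrable (fun ξ : V => Real.exp (-(h ^ 2 / 2) * ‖ξ‖ ^ 2)) := by
        have := (integrable_gauss (V := V)).comp_smul hh.ne'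
        refine this.congr (ae_of_all _ fun ξ => ?_)
        simp only [norm_smul, Real.norm_eq_abs, mul_pow, sq_abs]
        ring_nf
      refine (hg.comp_snd (ν i)).mono' (by fun_prop) (ae_of_all _ fun p => ?_)
      simp only [Function.uncurry, Complex.norm_exp]
      refine le_of_eq (congrArg _ ?_)
      simp [← Complex.ofReal_pow]
    have key : (((2 * π) ^ n * ∑ i, a i * ∫ y, (h ^ n)⁻¹ * gaussKer (h⁻¹ • (y - x)) ∂ν i : ℝ) : ℂ)
        = ∫ ξ, cexp (-((h ^ 2 / 2 : ℝ) : ℂ) * (‖ξ‖:ℂ) ^ 2 - I * (⟪x, ξ⟫ : ℝ)) * χ ξ := by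
      have h1 : ∀ i, (((2 * π) ^ n * ∫ y, (h ^ n)⁻¹ * gaussKer (h⁻¹ • (y - x)) ∂ν i : ℝ) : ℂ)
          = ∫ ξ, cexp (-((h ^ 2 / 2 : ℝ) : ℂ) * (‖ξ‖:ℂ) ^ 2 - I * (⟪x, ξ⟫ : ℝ))
              * charFun (ν i) ξ := by
        intro i
        rw [← integral_const_mul, ← integral_complex_ofReal]
        have hk : ∀ y : V, (((2 * π) ^ n * ((h ^ n)⁻¹ * gaussKer (h⁻¹ • (y - x))) : ℝ) : ℂ)
            = ∫ ξ : V, cexp (-((h ^ 2 / 2 : ℝ) : ℂ) * (‖ξ‖:ℂ) ^ 2 + I * (⟪y - x, ξ⟫ : ℝ)) :=
          fun y => by rw [gaussKer_fourier hh, ← mul_assoc]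
        simp only [hk]
        rw [integral_integral_swap (hint i)]
        refine integral_congr_ae (ae_of_all _ fun ξ => ?_)
        simp only [charFun_apply]
        rw [← integral_const_mul]
        refine integral_congr_ae (ae_of_all _ fun y => ?_)
        simp only [inner_sub_left, Complex.ofReal_sub, ← Complex.exp_add]
        ring_nf
      have hci : ∀ i, Integrable fun ξ =>
          cexp (-((h ^ 2 / 2 : ℝ) : ℂ) * (‖ξ‖:ℂ) ^ 2 - I * (⟪x, ξ⟫ : ℝ)) * charFun (ν i) ξ := by
        intro i
        have h2 := (hint i).integral_prod_right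
        refine h2.congr (ae_of_all _ fun ξ => ?_)
        simp only [Function.uncurry, charFun_apply]
        rw [← integral_const_mul]
        refine integral_congr_ae (ae_of_all _ fun y => ?_)
        simp only [inner_sub_left, Complex.ofReal_sub, ← Complex.exp_add]
        ring_nf
      simp only [χ, Finset.mul_sum]
      rw [Complex.ofReal_sum, integral_finsetSum _ fun i _ => by
        simpa only [mul_left_comm] using (hci i).const_mul (a i : ℂ)]
      refine Finset.sum_congr rfl fun i _ => ?_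
      rw [mul_left_comm, Complex.ofReal_mul, h1 i, ← integral_const_mul]
      exact integral_congr_ae (ae_of_all _ fun ξ => by ring)
    have hb := congrArg norm key
    rw [Complex.norm_real, Real.norm_eq_abs, abs_mul, abs_of_pos (by positivity : (0:ℝ) < (2 * π) ^ n)] at hb
    have : ‖∫ ξ, cexp (-((h ^ 2 / 2 : ℝ) : ℂ) * (‖ξ‖:ℂ) ^ 2 - I * (⟪x, ξ⟫ : ℝ)) * χ ξ‖
        ≤ ∫ ξ, ‖χ ξ‖ := by
      refine norm_integral_le_of_norm_le hχ.norm (ae_of_all _ fun ξ => ?_)
      rw [norm_mul, Complex.norm_exp]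
      refine mul_le_of_le_one_left (norm_nonneg _) (Real.exp_le_one_iff.2 ?_)
      simp [← Complex.ofReal_pow]
      positivity
    exact le_of_mul_le_mul_left ((hb.le.trans this).trans hS) (by positivity)
  -- continuous compactly supported test functions
  have hcont : ∀ g : V → ℝ, Continuous g → HasCompactSupport g →
      |∑ i, a i * ∫ x, g x ∂ν i| ≤ S * ∫ x, |g x| := by
    intro g hgc hgs
    obtain ⟨Cg, hCg⟩ := hgc.bounded_above_of_compact_support hgs
    set gh : ℝ → V → ℝ := fun h y => ∫ z, g (y + h • z) * gaussKer z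
    have hm : ∀ h, Continuous (gh h) := fun h =>
      continuous_of_dominated (bound := fun z => Cg * gaussKer z) (fun y => by
        exact ((hgc.comp (by fun_prop)).mul (by unfold gaussKer; fun_prop)).aestronglyMeasurable)
        (fun y => ae_of_all _ fun z => by
          rw [norm_mul, Real.norm_eq_abs (gaussKer z), abs_of_nonneg (gaussKer_nonneg z)]
          exact mul_le_mul_of_nonneg_right (hCg _) (gaussKer_nonneg z))
        (integrable_gaussKer.const_mul _) (ae_of_all _ fun z => by fun_prop)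
    have hgb : ∀ h y, ‖gh h y‖ ≤ Cg := fun h y => by
      calc ‖gh h y‖ ≤ ∫ z, Cg * gaussKer z :=
            norm_integral_le_of_norm_le (integrable_gaussKer.const_mul _) (ae_of_all _ fun z => by
              rw [norm_mul, Real.norm_eq_abs (gaussKer z), abs_of_nonneg (gaussKer_nonneg z)]
              exact mul_le_mul_of_nonneg_right (hCg _) (gaussKer_nonneg z))
        _ = Cg := by rw [integral_const_mul, integral_gaussKer, mul_one]
    have hlim : ∀ i, Tendsto (fun h => ∫ y, gh h y ∂ν i) (𝓝 0) (𝓝 (∫ y, g y ∂ν i)) := by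
      intro i
      refine tendsto_integral_filter_of_dominated_convergence (fun _ => Cg)
        (Eventually.of_forall fun h => (hm h).aestronglyMeasurable)
        (Eventually.of_forall fun h => ae_of_all _ (hgb h)) (integrable_const _)
        (ae_of_all _ fun y => ?_)
      have h0 : g y = ∫ z, g (y + (0:ℝ) • z) * gaussKer z := by
        simp [integral_const_mul, integral_gaussKer]
      rw [h0]
      refine (continuous_of_dominated (bound := fun z => Cg * gaussKer z) (fun h => by
        exact ((hgc.comp (by fun_prop)).mul (by unfold gaussKer; fun_prop)).aestronglyMeasurable)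
        (fun h => ae_of_all _ fun z => by
          rw [norm_mul, Real.norm_eq_abs (gaussKer z), abs_of_nonneg (gaussKer_nonneg z)]
          exact mul_le_mul_of_nonneg_right (hCg _) (gaussKer_nonneg z))
        (integrable_gaussKer.const_mul _) (ae_of_all _ fun z => by fun_prop)).tendsto 0
    have hsum : Tendsto (fun h => |∑ i, a i * ∫ y, gh h y ∂ν i|) (𝓝[>] 0)
        (𝓝 |∑ i, a i * ∫ x, g x ∂ν i|) :=
      ((tendsto_finsetSum _ fun i _ => (hlim i).const_mul (a i)).abs).mono_left nhdsWithin_le_nhds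
    refine le_of_tendsto hsum (eventually_nhdsWithin_of_forall fun h (hh : 0 < h) => ?_)
    have hmoll : ∀ y, gh h y = ∫ x, g x * ((h ^ n)⁻¹ * gaussKer (h⁻¹ • (y - x))) := by
      intro y
      have e1 : ∀ x, gaussKer (h⁻¹ • (y - x)) = gaussKer (h⁻¹ • (x - y)) := fun x => by
        simp only [gaussKer, norm_smul, norm_sub_rev y x]
      simp only [e1]
      rw [← integral_add_left_eq_self _ y]
      have e2 := Measure.integral_comp_smul_of_nonneg (μ := (volume : Measure V))
        (fun w => g (y + w) * gaussKer (h⁻¹ • w)) h (hR := hh.le)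
      simp only [inv_smul_smul₀ hh.ne', smul_eq_mul] at e2
      simp only [add_sub_cancel_left]
      rw [← integral_const_mul] at e2
      simp only [gh]
      rw [e2]
      refine integral_congr_ae (ae_of_all _ fun w => ?_)
      simp only
      ring
    have hgi : Integrable g := hgc.integrable_of_hasCompactSupport hgs
    have hswap : ∀ i, Integrable (Function.uncurry fun (y x : V) =>
        g x * ((h ^ n)⁻¹ * gaussKer (h⁻¹ • (y - x)))) ((ν i).prod volume) := by
      intro i
      refine ((hgi.norm.const_mul ((h ^ n)⁻¹ * (gaussConst V)⁻¹)).comp_snd (ν i)).mono' ?_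
        (ae_of_all _ fun p => ?_)
      · exact (Continuous.aestronglyMeasurable (by unfold gaussKer; fun_prop))
      · simp only [Function.uncurry, norm_mul, Real.norm_eq_abs]
        rw [abs_of_nonneg (gaussKer_nonneg _), abs_of_pos (by positivity : (0:ℝ) < (h ^ n)⁻¹)]
        have hk : gaussKer (h⁻¹ • (p.1 - p.2)) ≤ (gaussConst V)⁻¹ :=
          mul_le_of_le_one_right (inv_nonneg.2 gaussConst_pos.le)
            (Real.exp_le_one_iff.2 (by nlinarith [norm_nonneg (h⁻¹ • (p.1 - p.2))]))
        calc |g p.2| * ((h ^ n)⁻¹ * gaussKer (h⁻¹ • (p.1 - p.2)))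
            ≤ |g p.2| * ((h ^ n)⁻¹ * (gaussConst V)⁻¹) := by gcongr
          _ = _ := by ring
    have heq : ∑ i, a i * ∫ y, gh h y ∂ν i
        = ∫ x, g x * ∑ i, a i * ∫ y, (h ^ n)⁻¹ * gaussKer (h⁻¹ • (y - x)) ∂ν i := by
      simp only [hmoll, Finset.mul_sum]
      rw [integral_finsetSum]
      · refine Finset.sum_congr rfl fun i _ => ?_
        rw [integral_integral_swap (hswap i), ← integral_const_mul]
        refine integral_congr_ae (ae_of_all _ fun x => ?_)
        simp only
        rw [integral_const_mul]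
        ring
      · intro i _
        refine (((hswap i).integral_prod_right).const_mul (a i)).congr (ae_of_all _ fun x => ?_)
        simp only [Function.uncurry]
        rw [integral_const_mul]
        ring
    rw [heq, ← integral_const_mul S]
    simp only [← Real.norm_eq_abs]
    refine norm_integral_le_of_norm_le (hgi.norm.const_mul S) (ae_of_all _ fun x => ?_)
    rw [norm_mul, mul_comm, Real.norm_eq_abs]
    exact mul_le_mul_of_nonneg_right (hD h hh x) (norm_nonneg _)
  -- approximation
  set m : Measure V := volume + Measure.sum ν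
  have : IsFiniteMeasure (Measure.sum ν) := inferInstance
  have hFm : Integrable F m := by
    refine hF.add_measure ?_
    rw [Measure.sum_fintype]
    exact integrable_finsetSum_measure.2 fun i _ => hFν i
  by_contra hcon
  rw [not_le] at hcon
  set gap := |∑ i, a i * ∫ x, F x ∂ν i| - S * ∫ x, |F x|
  have hgap : 0 < gap := sub_pos.2 hcon
  set W := S + ∑ i, |a i| + 1
  have hW : 0 < W := by have : (0:ℝ) ≤ ∑ i, |a i| := by positivity
                        simp only [W]; linarith
  have : IsLocallyFiniteMeasure m := ⟨fun x => by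
    obtain ⟨s, hs, hs'⟩ := (volume : Measure V).finiteAt_nhds x
    exact ⟨s, hs, by simp only [m, Measure.add_apply]; exact ENNReal.add_lt_top.2 ⟨hs', measure_lt_top _ _⟩⟩⟩
  have : IsFiniteMeasureOnCompacts m := inferInstance
  have : m.Regular := inferInstance
  obtain ⟨g, hgs, hgε, hgc, hgm⟩ := hFm.exists_hasCompactSupport_integral_sub_le
    (ε := gap / (2 * W)) (by positivity)
  have hle1 : ∫ x, |F x - g x| ≤ gap / (2 * W) := by
    refine le_trans (integral_mono_measure (ν := m) (Measure.le_add_right le_rfl)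
      (ae_of_all _ fun _ => abs_nonneg _) (hFm.sub hgm).abs) ?_
    simpa only [Real.norm_eq_abs] using hgε
  have hle2 : ∀ i, ∫ x, |F x - g x| ∂ν i ≤ gap / (2 * W) := fun i => by
    refine le_trans (integral_mono_measure (ν := m)
      ((Measure.le_sum ν i).trans (Measure.le_add_left le_rfl))
      (ae_of_all _ fun _ => abs_nonneg _) (hFm.sub hgm).abs) ?_
    simpa only [Real.norm_eq_abs] using hgε
  have hgi : Integrable g := hgc.integrable_of_hasCompactSupport hgs
  have hgν : ∀ i, Integrable g (ν i) := fun i => hgc.integrable_of_hasCompactSupport hgs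
  have e1 : |∑ i, a i * ∫ x, F x ∂ν i| ≤ |∑ i, a i * ∫ x, g x ∂ν i|
      + (∑ i, |a i|) * (gap / (2 * W)) := by
    rw [← sub_le_iff_le_add']
    refine (abs_sub_abs_le_abs_sub _ _).trans ?_
    rw [← Finset.sum_sub_distrib, Finset.sum_mul]
    refine (Finset.abs_sum_le_sum_abs _ _).trans (Finset.sum_le_sum fun i _ => ?_)
    rw [← mul_sub, abs_mul, ← integral_sub (hFν i) (hgν i)]
    exact mul_le_mul_of_nonneg_left ((abs_integral_le_integral_abs).trans (hle2 i)) (abs_nonneg _)
  have e2 : ∫ x, |g x| ≤ (∫ x, |F x|) + gap / (2 * W) := by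
    refine le_trans ?_ (add_le_add le_rfl hle1)
    have hd : Integrable (fun x => |F x - g x|) := (hF.sub hgi).abs
    rw [← integral_add hF.abs hd]
    refine integral_mono hgi.abs (hF.abs.add hd) fun x => ?_
    simp only [Pi.add_apply]
    have := abs_sub_abs_le_abs_sub (g x) (F x)
    rw [abs_sub_comm] at this
    linarith
  have e3 := hcont g hgc hgs
  have e4 : S * ∫ x, |g x| ≤ S * ((∫ x, |F x|) + gap / (2 * W)) := mul_le_mul_of_nonneg_left e2 hS0
  have e5 : (S + ∑ i, |a i|) * (gap / (2 * W)) < gap := by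
    calc (S + ∑ i, |a i|) * (gap / (2 * W)) < W * (gap / (2 * W)) := by
          refine mul_lt_mul_of_pos_right ?_ (by positivity)
          simp only [W]; linarith
      _ = gap / 2 := by field_simp
      _ < gap := by linarith
  simp only [gap] at e5 e1 e4 hgap ⊢
  linarith

end Vale.Agent.P309.Sharp
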