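import Vale.Agent.P309.Sharp.Bases
import Vale.Agent.P309.Defs

/-! Good rows, the label window, the root piece and the final cap. -/

namespace Vale.Agent.P309.Sharp

open MeasureTheory ProbabilityTheory Filter
open scoped RealInnerProductSpace Real ENNReal

/-- Integrals against the uniform law on the sphere, through surface measure. -/
lemma lintegral_sphereLaw {d : ℕ} (hd : 2 ≤ d) {Ψ : Vec d → ℝ≥0∞} (hΨ : Measurable Ψ) :
    ∫⁻ s, Ψ s ∂sphereLaw d = (surf d Set.univ)⁻¹ * ∫⁻ ω, Ψ (ω : Vec d) ∂surf d := by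
  set c : ℝ≥0∞ := ∫⁻ s, ENNReal.ofReal ((gaussConst (Vec d))⁻¹ * Real.exp (-s / 2)) ∂radial d
  have key : ∀ Φ : Vec d → ℝ≥0∞, Measurable Φ →
      ∫⁻ s, Φ s ∂sphereLaw d = c * ∫⁻ ω, Φ (ω : Vec d) ∂surf d := by
    intro Φ hΦ
    have hm : Measurable fun g : Vec d => ‖g‖⁻¹ • g := by fun_prop
    have hm2 : Measurable fun g : Vec d => ENNReal.ofReal (gaussKer g) * Φ (‖g‖⁻¹ • g) :=
      measurable_gaussKer.ennreal_ofReal.mul (hΦ.comp hm)
    rw [sphereLaw, lintegral_map hΦ hm, lintegral_stdGaussian (F := fun g => Φ (‖g‖⁻¹ • g))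
      (hΦ.comp hm), lintegral_polar hd hm2]
    simp only [c]
    rw [← lintegral_mul_const _ (by fun_prop)]
    refine lintegral_congr_ae ?_
    rw [radial]
    filter_upwards [(withDensity_absolutelyContinuous _ _).ae_le
      (ae_restrict_mem measurableSet_Ioi)] with s hs
    rw [Set.mem_Ioi] at hs
    rw [← lintegral_const_mul' _ _ ENNReal.ofReal_ne_top]
    refine lintegral_congr fun ω => ?_
    have hn : ‖√s • (ω : Vec d)‖ = √s := by
      rw [norm_smul, norm_eq_of_mem_sphere, mul_one, Real.norm_of_nonneg (Real.sqrt_nonneg _)]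
    simp only [hn, gaussKer, Real.sq_sqrt hs.le, inv_smul_smul₀ (Real.sqrt_pos.2 hs).ne']
  have h1 : c * surf d Set.univ = 1 := by
    have := key (fun _ => 1) measurable_const
    simp only [lintegral_const, one_mul] at this
    rw [← this, sphereLaw, Measure.map_apply (by fun_prop) MeasurableSet.univ]
    simp
  rw [key Ψ hΨ, ← ENNReal.eq_inv_of_mul_eq_one_left h1]

lemma surf_univ (d : ℕ) (hd : 1 ≤ d) :
    surf d Set.univ = (d:ℝ≥0∞) * volume (Metric.closedBall (0 : Vec d) 1) := by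
  have : Nontrivial (Vec d) := Module.nontrivial_of_finrank_pos (R := ℝ) (by simp; omega)
  rw [surf, Measure.toSphere_apply_univ, finrank_euclideanSpace_fin,
    Measure.addHaar_closedBall_eq_addHaar_ball]

lemma surf_univ_ge {d : ℕ} (hd : 1 ≤ d) :
    ENNReal.ofReal ((d:ℝ) * (2 / √d) ^ d) ≤ surf d Set.univ := by
  have hd0 : (0:ℝ) < √d := Real.sqrt_pos.2 (by exact_mod_cast hd)
  have h := volume_closedBall_ge (k := d) (ρ := (√d)⁻¹) (by positivity) 0
  have hset : {b : Vec d | ‖b - 0‖ ≤ (√d)⁻¹ * √d} = Metric.closedBall 0 1 := by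
    ext b; simp [inv_mul_cancel₀ hd0.ne']
  rw [hset] at h
  rw [surf_univ d hd, ENNReal.ofReal_mul (by positivity), ENNReal.ofReal_natCast]
  exact mul_le_mul_right (by rwa [div_eq_mul_inv]) _

lemma surf_univ_le {d : ℕ} (hd : 1 ≤ d) :
    surf d Set.univ ≤ ENNReal.ofReal ((d:ℝ) * (Real.exp ((d:ℝ) / 2) * (√(2 * π) / √d) ^ d)) := by
  rw [surf_univ d hd, ENNReal.ofReal_mul (by positivity), ENNReal.ofReal_natCast]
  refine mul_le_mul_right ?_ _
  rw [← ENNReal.ofReal_toReal (measure_closedBall_lt_top (μ := volume)).ne]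
  refine ENNReal.ofReal_le_ofReal ?_
  simpa [measureReal_def] using volume_closedBall_le (d := d) (R := 1) zero_le_one

/-- A coordinate image of the rows is a row law. -/
lemma measurePreserving_coord {d k N : ℕ} {f : Fin N → Vec d} (hf : Orthonormal ℝ f) :
    MeasurePreserving (fun (x : Fin k → Vec d) l => coord f (x l)) (rowsLaw d k) (rowsLaw N k) :=
  measurePreserving_pi _ _ fun _ => ⟨measurable_coord f, map_coord hf⟩

/-- The numerical bound for passing near a full list of picks. -/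
lemma near_numerics {C₀ X : ℝ} {d k : ℕ} (hC₀ : 1 ≤ C₀) (hX : 32 * (28 + CJ C₀) + 100 ≤ X)
    (hX1 : 100 ≤ X) (hdX : X ^ 4 ≤ d) (hdR : (128:ℝ) ≤ d) (hd128 : 128 ≤ d) (hkd : 64 * (k:ℝ) ≤ d)
    (hsd : 0 < √(d:ℝ)) (hR : 1 ≤ Rop X d) (hCJ : 2000 ≤ CJ C₀) {m : ℕ} (hmdef : m = depth C₀ X d)
    {z : ℝ} (hz0 : 0 ≤ z) (hzle : z ≤ ((√(1 + Lam X ^ 2)) ^ m)⁻¹) :
    (Real.exp (13 * (d:ℝ)) * ((2 * (Rop X d / √(d:ℝ)) + 1) * Real.exp 25) ^ (d / 2)) ^ m * z ^ (d / 2)
        * ((Real.exp 2 * Rop X d * (√(2 * π) * 5) / 2) ^ k * J1 C₀ d k) ^ m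
      ≤ Real.exp (-(3 / 2 * (C₀ + 1) * d ^ 2)) := by
  have hgP : 0 < gP C₀ := by unfold gP; linarith
  have hm1 : gP C₀ * d ≤ X ^ 4 * m := by
    have h := Nat.le_ceil (gP C₀ * d / X ^ 4)
    rw [div_le_iff₀ (by positivity)] at h
    have : (0:ℝ) < X ^ 4 := by positivity
    simp only [hmdef, depth]
    push_cast
    linarith
  have hm2 : (m:ℝ) * X ^ 4 ≤ 2 * gP C₀ * d := by
    have h := Nat.ceil_lt_add_one (show 0 ≤ gP C₀ * d / X ^ 4 by positivity)
    have h8 : (2:ℝ) ≤ gP C₀ := by unfold gP; linarith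
    have hX40 : (0:ℝ) < X ^ 4 := by positivity
    simp only [hmdef, depth]
    push_cast
    have h' := mul_lt_mul_of_pos_right h hX40
    rw [add_mul, div_mul_cancel₀ _ hX40.ne', one_mul] at h'
    rw [add_mul, one_mul]
    linarith [mul_le_mul_of_nonneg_right h8 (show (0:ℝ) ≤ d by linarith)]
  have hN' : ((d:ℝ) - 1) / 2 ≤ ((d / 2 : ℕ) : ℝ) := by
    have : d - 1 ≤ 2 * (d / 2) := by omega
    have h' : ((d - 1 : ℕ) : ℝ) ≤ ((2 * (d / 2) : ℕ) : ℝ) := by exact_mod_cast this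
    rw [Nat.cast_sub (by omega)] at h'
    push_cast at h'
    linarith
  have hN'' : ((d / 2 : ℕ) : ℝ) ≤ d / 2 := Nat.cast_div_le.trans (by norm_num)
  have hzle : z ≤ Real.exp (-(X ^ 4 * m)) := by
    refine hzle.trans ?_
    rw [Real.exp_neg, mul_comm, Real.exp_nat_mul]
    refine inv_anti₀ (by positivity) (pow_le_pow_left₀ (Real.exp_pos _).le ?_ m)
    exact Real.le_sqrt_of_sq_le (by unfold Lam; linarith)
  have hz' : z ^ (d / 2) ≤ Real.exp (-(gP C₀ * d * (((d:ℝ) - 1) / 2))) := by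
    refine (pow_le_pow_left₀ (by positivity) hzle _).trans ?_
    rw [← Real.exp_nat_mul]
    refine Real.exp_le_exp.2 ?_
    rw [mul_neg, neg_le_neg_iff, mul_comm]
    exact mul_le_mul hN' hm1 (by positivity) (by linarith)
  have hA1 : (2 * (Rop X d / √(d:ℝ)) + 1) * Real.exp 25 ≤ Real.exp (28 * X ^ 2) := by
    rw [Rop, mul_div_assoc, div_self hsd.ne', mul_one]
    refine (mul_le_mul_of_nonneg_right (Real.add_one_le_exp (2 * X ^ 2)) (Real.exp_pos _).le).trans ?_
    rw [← Real.exp_add]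
    refine Real.exp_le_exp.2 ?_
    nlinarith
  have hA2 : Real.exp 2 * Rop X d * (√(2 * π) * 5) / 2 ≤ Real.exp (7 * X ^ 2) * √d := by
    have hp : √(2 * π) * 5 / 2 ≤ Real.exp 4 := by
      have h1 : √(2 * π) ≤ 3 := by rw [Real.sqrt_le_iff]; exact ⟨by norm_num, by linarith [Real.pi_le_four]⟩
      linarith [Real.quadratic_le_exp_of_nonneg (show (0:ℝ) ≤ 4 by norm_num)]
    calc Real.exp 2 * Rop X d * (√(2 * π) * 5) / 2
        = Real.exp 2 * (√(2 * π) * 5 / 2) * X ^ 2 * √d := by unfold Rop; ring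
      _ ≤ Real.exp 2 * Real.exp 4 * Real.exp (X ^ 2) * √d := by
          gcongr
          linarith [Real.add_one_le_exp (X ^ 2)]
      _ ≤ _ := by
          refine mul_le_mul_of_nonneg_right ?_ hsd.le
          rw [← Real.exp_add, ← Real.exp_add]
          exact Real.exp_le_exp.2 (by nlinarith)
  have hb1 : Real.exp (13 * (d:ℝ)) * ((2 * (Rop X d / √(d:ℝ)) + 1) * Real.exp 25) ^ (d / 2)
      ≤ Real.exp ((13 + 14 * X ^ 2) * d) := by
    refine (mul_le_mul_of_nonneg_left (pow_le_pow_left₀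
      (by unfold Rop; positivity) hA1 _) (Real.exp_pos _).le).trans ?_
    rw [← Real.exp_nat_mul, ← Real.exp_add]
    refine Real.exp_le_exp.2 ?_
    nlinarith [mul_le_mul_of_nonneg_right hN'' (show 0 ≤ 28 * X ^ 2 by positivity)]
  have hb2 : (Real.exp 2 * Rop X d * (√(2 * π) * 5) / 2) ^ k * J1 C₀ d k
      ≤ Real.exp ((X ^ 2 + CJ C₀) * d) := by
    refine (mul_le_mul_of_nonneg_right (pow_le_pow_left₀ (by unfold Rop; positivity) hA2 k)
      (by unfold J1; positivity)).trans ?_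
    rw [J1, mul_pow, ← Real.exp_nat_mul, show Real.exp ((k:ℝ) * (7 * X ^ 2)) * √d ^ k
      * (Real.exp (CJ C₀ * d) / √d ^ k) = Real.exp ((k:ℝ) * (7 * X ^ 2)) * Real.exp (CJ C₀ * d) by
        field_simp, ← Real.exp_add]
    exact Real.exp_le_exp.2 (by nlinarith)
  calc _ ≤ Real.exp ((13 + 14 * X ^ 2) * d) ^ m * Real.exp (-(gP C₀ * d * (((d:ℝ) - 1) / 2)))
        * Real.exp ((X ^ 2 + CJ C₀) * d) ^ m := by
        have hR0 : 0 ≤ Rop X d := by linarith
        have hJ0 : 0 ≤ J1 C₀ d k := by unfold J1; positivity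
        exact mul_le_mul (mul_le_mul (pow_le_pow_left₀ (by positivity) hb1 m) hz' (by positivity)
          (by positivity)) (pow_le_pow_left₀ (by positivity) hb2 m) (by positivity) (by positivity)
    _ ≤ _ := by
        rw [← Real.exp_nat_mul, ← Real.exp_nat_mul, ← Real.exp_add, ← Real.exp_add]
        refine Real.exp_le_exp.2 ?_
        set D := (d:ℝ)
        set L := (28 + CJ C₀) * X ^ 2
        have hL : (13 + 14 * X ^ 2) + (X ^ 2 + CJ C₀) ≤ L := by
          simp only [L]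
          nlinarith [mul_le_mul_of_nonneg_left (show 1 ≤ X ^ 2 by nlinarith) (show 0 ≤ 13 + CJ C₀ by linarith)]
        have h3 : (m:ℝ) * L ≤ 2 * gP C₀ * D / 32 := by
          have hX32 : 32 * (28 + CJ C₀) ≤ X ^ 2 := le_trans (show _ ≤ X by linarith) (le_self_pow₀ (by linarith) (by norm_num))
          have : 32 * ((m:ℝ) * L) ≤ (m:ℝ) * X ^ 4 := by
            have := mul_le_mul_of_nonneg_left hX32 (show 0 ≤ (m:ℝ) * X ^ 2 by positivity)
            simp only [L]
            linarith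
          linarith
        have hg : gP C₀ = 4 * (C₀ + 1) := by unfold gP; ring
        have e1 := mul_le_mul_of_nonneg_right h3 (show 0 ≤ D by linarith)
        have e2 := mul_le_mul_of_nonneg_left hL (show 0 ≤ (m:ℝ) * D by positivity)
        have e3 := mul_le_mul_of_nonneg_left hdR (show 0 ≤ (C₀ + 1) * D by positivity)
        have e4 : 0 ≤ (C₀ + 1) * D ^ 2 := by positivity
        rw [hg] at e1 ⊢
        linarith

/-- The numerical bound for bad rows. -/
lemma compl_numerics {C₀ X : ℝ} {d k r : ℕ} (hX1 : 100 ≤ X) (hdX : X ^ 4 ≤ d) (hdR : (128:ℝ) ≤ d)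
    (hkd : 64 * (k:ℝ) ≤ d) (hsd : 0 < √(d:ℝ)) (hCJ : 2000 ≤ CJ C₀) (hr : 1 ≤ r)
    (hr64 : (d:ℝ) ≤ 64 * r) (hc : 0 < Rop X d) (hJ : 0 < J1 C₀ d k) :
    5 ^ k * √2 ^ d * Real.exp (-(3 * Rop X d / 5) ^ 2 / 4)
        + ((9 / √(2 * (r:ℝ))) ^ r) ^ k / J1 C₀ d k ^ r
      ≤ Real.exp (-(X ^ 4 * d / 20)) := by
  set E := Real.exp (-(X ^ 4 * d / 20))
  have hX4 : 100 ≤ X ^ 4 := hX1.trans (le_self_pow₀ (by linarith) (by norm_num))
  have g1 : 5 ^ k * √2 ^ d * Real.exp (-(3 * Rop X d / 5) ^ 2 / 4) ≤ E / 2 := by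
    have a5 : (5:ℝ) ^ k ≤ Real.exp (2 * k) := by
      rw [mul_comm, Real.exp_nat_mul]
      refine pow_le_pow_left₀ (by norm_num) ?_ k
      have := Real.quadratic_le_exp_of_nonneg (show (0:ℝ) ≤ 2 by norm_num)
      linarith
    have a2 : √2 ^ d ≤ Real.exp d := by
      rw [show Real.exp (d:ℝ) = Real.exp 1 ^ d by rw [← Real.exp_nat_mul, mul_one]]
      refine pow_le_pow_left₀ (Real.sqrt_nonneg _) ?_ d
      refine le_trans ?_ (Real.add_one_le_exp (1:ℝ))
      rw [Real.sqrt_le_iff]; norm_num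
    have hh : (2:ℝ)⁻¹ ≥ Real.exp (-1) := by
      rw [Real.exp_neg]
      exact inv_anti₀ (by norm_num) (by linarith [Real.add_one_le_exp (1:ℝ)])
    calc 5 ^ k * √2 ^ d * Real.exp (-(3 * Rop X d / 5) ^ 2 / 4)
        ≤ Real.exp (2 * k) * Real.exp d * Real.exp (-(3 * Rop X d / 5) ^ 2 / 4) := by gcongr
      _ ≤ E * Real.exp (-1) := by
          simp only [E, ← Real.exp_add]
          refine Real.exp_le_exp.2 ?_
          rw [Rop, show (3 * (X ^ 2 * √(d:ℝ)) / 5) ^ 2 = 9 * X ^ 4 * d / 25 by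
            rw [div_pow, mul_pow, mul_pow, Real.sq_sqrt (Nat.cast_nonneg d)]; ring, neg_div]
          nlinarith
      _ ≤ _ := by rw [div_eq_mul_inv]; gcongr
  have g2 : ((9 / √(2 * (r:ℝ))) ^ r) ^ k / J1 C₀ d k ^ r ≤ E / 2 := by
    have hsr : 0 < √(2 * (r:ℝ)) := Real.sqrt_pos.2 (by positivity)
    have hfrac : 9 / √(2 * (r:ℝ)) * √d ≤ Real.exp 4 := by
      have h6 : √d ≤ 6 * √(2 * (r:ℝ)) := by
        rw [show (6:ℝ) = √36 by rw [show (36:ℝ) = 6 ^ 2 by norm_num, Real.sqrt_sq (by norm_num)],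
          ← Real.sqrt_mul (by norm_num)]
        exact Real.sqrt_le_sqrt (by linarith)
      rw [div_mul_eq_mul_div, div_le_iff₀ hsr]
      have h54 : 54 ≤ Real.exp 4 := by
        have h := Real.exp_one_gt_d9
        have h4 : Real.exp 4 = Real.exp 1 ^ 4 := by rw [← Real.exp_nat_mul]; norm_num
        rw [h4]
        linarith [pow_le_pow_left₀ (by norm_num : (0:ℝ) ≤ 2.718) (show 2.718 ≤ Real.exp 1 by linarith) 4,
          show (55:ℝ) ≤ 2.718 ^ 4 + 1 by norm_num]
      nlinarith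
    have hin : (9 / √(2 * (r:ℝ))) ^ k / J1 C₀ d k ≤ Real.exp (-((CJ C₀ - 1) * d)) := by
      rw [J1, div_div_eq_mul_div, div_le_iff₀ (Real.exp_pos _), ← Real.exp_add, ← mul_pow]
      refine (pow_le_pow_left₀ (by positivity) hfrac k).trans ?_
      rw [← Real.exp_nat_mul]
      exact Real.exp_le_exp.2 (by linarith)
    calc ((9 / √(2 * (r:ℝ))) ^ r) ^ k / J1 C₀ d k ^ r
        = ((9 / √(2 * (r:ℝ))) ^ k / J1 C₀ d k) ^ r := by rw [div_pow _ (J1 C₀ d k), ← pow_mul, ← pow_mul, mul_comm r k]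
      _ ≤ Real.exp (-((CJ C₀ - 1) * d)) ^ r := pow_le_pow_left₀ (by positivity) hin r
      _ ≤ E * Real.exp (-1) := by
          rw [← Real.exp_nat_mul]
          simp only [E, ← Real.exp_add]
          refine Real.exp_le_exp.2 ?_
          have hq : 64 * (d:ℝ) ≤ (CJ C₀ - 1) * (d:ℝ) := by nlinarith
          have hr0 : (0:ℝ) ≤ r := Nat.cast_nonneg _
          nlinarith [mul_le_mul_of_nonneg_left hq hr0, mul_le_mul_of_nonneg_right hr64 (Nat.cast_nonneg d (α := ℝ))]
      _ ≤ _ := by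
          rw [div_eq_mul_inv]
          refine mul_le_mul_of_nonneg_left ?_ (Real.exp_pos _).le
          rw [Real.exp_neg]
          exact inv_anti₀ (by norm_num) (by linarith [Real.add_one_le_exp (1:ℝ)])
  linarith

/-- C1: good rows: rare complement, and few of them pass near a full list of picks. -/
theorem exists_good {C₀ : ℝ} (hC₀ : 1 ≤ C₀) :
    ∀ᶠ X : ℝ in atTop, ∀ᶠ d : ℕ in atTop, ∀ k : ℕ, k = d / 64 → ∀ P : Piece d,
      ∃ e : Fin (d / 8 + 1) → Vec d, Orthonormal ℝ e ∧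
        (∀ g r, ⟪P.A g, P.A (e r)⟫ = P.δ ^ 2 * ⟪g, e r⟫) ∧ (∀ r, ⟪P.v, e r⟫ = 0) ∧
        (rowsLaw d k (goodSet P.A P.δ e (Rop X d) (J1 C₀ d k))ᶜ
          ≤ ENNReal.ofReal (Real.exp (-(X ^ 4 * d / 20)))) ∧
        ∀ W : Fin (depth C₀ X d) → Vec d,
          pickVol W ≤ ((√(1 + Lam X ^ 2)) ^ depth C₀ X d)⁻¹ →
          rowsLaw d k (goodSet P.A P.δ e (Rop X d) (J1 C₀ d k) ∩ ⋂ j, nearSet P.A P.δ (W j))
            ≤ ENNReal.ofReal (Real.exp (-(3 / 2 * (C₀ + 1) * d ^ 2))) := by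
  filter_upwards [eventually_ge_atTop (32 * (28 + CJ C₀) + 100)] with X hX
  filter_upwards [eventually_ge_atTop (max 128 ⌈X ^ 4⌉₊)] with d hd k hk P
  have hd128 : 128 ≤ d := le_of_max_le_left hd
  have hdX : X ^ 4 ≤ d := (Nat.le_ceil _).trans (by exact_mod_cast le_of_max_le_right hd)
  have hdR : (128:ℝ) ≤ d := by exact_mod_cast hd128
  have hCJ : 2000 ≤ CJ C₀ := by unfold CJ; linarith
  have hX1 : 100 ≤ X := by linarith
  have hk1 : 1 ≤ k := by omega
  have hkd : 64 * (k:ℝ) ≤ d := by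
    have : 64 * k ≤ d := by omega
    exact_mod_cast this
  have hsd : 0 < √(d:ℝ) := Real.sqrt_pos.2 (by linarith)
  obtain ⟨ee, hee, hAee, hWee⟩ := P.exists_top (N := (d / 8 + 1) + d / 2) (i := 1) (by omega) fun _ => P.v
  set e : Fin (d / 8 + 1) → Vec d := fun r => ee (Fin.castAdd (d / 2) r)
  set e' : Fin (d / 2) → Vec d := fun r => ee (Fin.natAdd (d / 8 + 1) r)
  have he : Orthonormal ℝ e := hee.comp _ (Fin.castAdd_injective _ _)
  have he' : Orthonormal ℝ e' := hee.comp _ (Fin.natAdd_injective _ _)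
  have hee' : ∀ r r', ⟪e r, e' r'⟫ = 0 := fun r r' => hee.inner_eq_zero (by
    intro h
    have := congrArg Fin.val h
    simp at this
    omega)
  refine ⟨e, he, fun g r => hAee g _, fun r => hWee _ 0, ?_, ?_⟩
  · -- the complement
    set f : Fin (d / 8 + 1) → Vec d := fun r => P.δ⁻¹ • P.A (e r)
    have hf : Orthonormal ℝ f := orthonormal_hat P.δpos he fun g r => hAee g _
    have hJ : 0 < J1 C₀ d k := by unfold J1; positivity
    have hsub : (goodSet P.A P.δ e (Rop X d) (J1 C₀ d k))ᶜ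
        ⊆ {x : Fin k → Vec d | ∃ ζ, Rop X d * ‖ζ‖ < ‖comb x ζ‖}
          ∪ (fun (x : Fin k → Vec d) l => coord f (x l)) ⁻¹'
              {Y | ENNReal.ofReal (J1 C₀ d k) < jac Y} := by
      intro x hx
      simp only [goodSet, Set.mem_compl_iff, Set.mem_inter_iff, Set.mem_ofPred_eq, not_and_or,
        not_forall, not_le, coord_hat] at hx
      exact hx
    have hc : 0 < Rop X d := by unfold Rop; positivity
    have h1 := opNorm_tail (d := d) hk1 hc
    set r := d / 32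
    have hr : 1 ≤ r := by omega
    have hr64 : (d:ℝ) ≤ 64 * r := by
      have : d ≤ 64 * r := by omega
      exact_mod_cast this
    have h2 : rowsLaw (d / 8 + 1) k {Y | ENNReal.ofReal (J1 C₀ d k) < jac Y}
        ≤ ENNReal.ofReal ((((9 / √(2 * (r:ℝ))) ^ r) ^ k) / J1 C₀ d k ^ r) := by
      have hle := (mul_meas_ge_le_lintegral₀ (μ := rowsLaw (d / 8 + 1) k)
        (f := fun Y : Fin k → Vec (d / 8 + 1) => jac Y ^ r) (measurable_jac.pow_const r).aemeasurable
        (ENNReal.ofReal (J1 C₀ d k ^ r))).trans (lintegral_jac hr (n := k) (by omega))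
      rw [ENNReal.ofReal_div_of_pos (by positivity), ENNReal.ofReal_pow (by positivity),
        ENNReal.le_div_iff_mul_le (Or.inl (ne_of_gt (ENNReal.ofReal_pos.2 (by positivity))))
          (Or.inl ENNReal.ofReal_ne_top), mul_comm]
      refine le_trans (mul_le_mul_right (measure_mono fun Y hY => ?_) _) hle
      show ENNReal.ofReal (J1 C₀ d k ^ r) ≤ jac Y ^ r
      rw [ENNReal.ofReal_pow hJ.le]
      exact pow_le_pow_left₀ zero_le (le_of_lt hY) r
    have hm : MeasurableSet {Y : Fin k → Vec (d / 8 + 1) | ENNReal.ofReal (J1 C₀ d k) < jac Y} :=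
      measurable_jac measurableSet_Ioi
    refine (measure_mono hsub).trans ((measure_union_le _ _).trans ?_)
    rw [(measurePreserving_coord hf).measure_preimage hm.nullMeasurableSet]
    refine (add_le_add h1 h2).trans ?_
    rw [← ENNReal.ofReal_add (by positivity) (by positivity)]
    refine ENNReal.ofReal_le_ofReal ?_
    exact compl_numerics hX1 hdX hdR hkd hsd hCJ hr hr64 hc hJ
  · -- near all picks
    set m := depth C₀ X d with hmdef
    intro W hW
    set z : ℝ := ((√(1 + Lam X ^ 2)) ^ m)⁻¹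
    have hR : 1 ≤ Rop X d := by
      unfold Rop
      have : 1 ≤ √(d:ℝ) := Real.one_le_sqrt.2 (by linarith)
      nlinarith
    have hS : MeasurableSet (goodSet (k := k) P.A P.δ e (Rop X d) (J1 C₀ d k) ∩ ⋂ j, nearSet P.A P.δ (W j)) :=
      (measurableSet_goodSet _ _ _ _ _).inter (MeasurableSet.iInter fun j => measurableSet_nearSet _ _ _)
    refine (near_le P.δpos P.norm_le he he' hee' (fun g r => hAee g _) (fun g r => hAee g _) W
      (z := z) hW hR (J := J1 C₀ d k) (by unfold J1; positivity) hk1 hS (fun x hx ζ => hx.1.1 ζ)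
      (M := (d:ℝ)) (by linarith) (fun x hx => hx.1.2)
      (fun x hx j => Set.mem_iInter.1 hx.2 j)).trans (ENNReal.ofReal_le_ofReal ?_)
    exact near_numerics hC₀ hX hX1 hdX hdR hd128 hkd hsd hR hCJ hmdef (by positivity) le_rfl

/-- C2: the volume of the label window. -/
theorem window_le : ∀ᶠ X : ℝ in atTop, ∀ᶠ d : ℕ in atTop, ∀ k : ℕ, k = d / 64 →
    volume.real (Metric.closedBall (0 : Vec k) (Rwin X d)) ≤ Real.exp (X * d) * √d ^ k := by
  filter_upwards [eventually_ge_atTop (1:ℝ)] with X hX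
  filter_upwards [eventually_ge_atTop 128] with d hd k hk
  have hk1 : 1 ≤ k := by omega
  have hd128 : (d:ℝ) ≤ 128 * k := by
    have : d ≤ 128 * k := by omega
    exact_mod_cast this
  have hkd : 64 * (k:ℝ) ≤ d := by
    have : 64 * k ≤ d := by omega
    exact_mod_cast this
  have hsk : 0 < √(k:ℝ) := Real.sqrt_pos.2 (by exact_mod_cast hk1)
  refine (volume_closedBall_le (by unfold Rwin; positivity)).trans ?_
  have hb : √(2 * π) * Rwin X d / √(k:ℝ) ≤ Real.exp (10 * X) * √d := by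
    have h1 : √(d:ℝ) ≤ 12 * √(k:ℝ) := by
      rw [show (12:ℝ) = √144 by rw [show (144:ℝ) = 12 ^ 2 by norm_num, Real.sqrt_sq (by norm_num)],
        ← Real.sqrt_mul (by norm_num)]
      exact Real.sqrt_le_sqrt (by linarith)
    have h2 : √(2 * π) * 12 ≤ Real.exp (4 * X) := by
      have h1' : √(2 * π) ≤ 3 := by rw [Real.sqrt_le_iff]; exact ⟨by norm_num, by linarith [Real.pi_le_four]⟩
      have h := Real.exp_one_gt_d9
      have h4 : Real.exp 4 = Real.exp 1 ^ 4 := by rw [← Real.exp_nat_mul]; norm_num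
      have : (36:ℝ) ≤ Real.exp 4 := by
        rw [h4]
        linarith [pow_le_pow_left₀ (by norm_num : (0:ℝ) ≤ 2.718) (show 2.718 ≤ Real.exp 1 by linarith) 4,
            show (55:ℝ) ≤ 2.718 ^ 4 + 1 by norm_num]
      linarith [Real.exp_le_exp.2 (show (4:ℝ) ≤ 4 * X by linarith)]
    have h3 : X ^ 6 ≤ Real.exp (6 * X) := by
      rw [show (6:ℝ) * X = (6:ℕ) * X by norm_num, Real.exp_nat_mul]
      exact pow_le_pow_left₀ (by linarith) (by linarith [Real.add_one_le_exp X]) 6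
    rw [div_le_iff₀ hsk, Rwin]
    calc √(2 * π) * (X ^ 6 * d) = √(2 * π) * X ^ 6 * √d * √d := by
          rw [mul_assoc _ (√(d:ℝ)), Real.mul_self_sqrt (Nat.cast_nonneg d)]; ring
      _ ≤ √(2 * π) * X ^ 6 * √d * (12 * √(k:ℝ)) := by gcongr
      _ = (√(2 * π) * 12) * X ^ 6 * √d * √(k:ℝ) := by ring
      _ ≤ Real.exp (4 * X) * Real.exp (6 * X) * √d * √(k:ℝ) := by gcongr
      _ = _ := by rw [← Real.exp_add]; ring_nf
  refine (mul_le_mul_of_nonneg_left (pow_le_pow_left₀ (by unfold Rwin; positivity) hb k)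
    (Real.exp_pos _).le).trans ?_
  rw [mul_pow, ← Real.exp_nat_mul, ← mul_assoc, ← Real.exp_add]
  refine mul_le_mul_of_nonneg_right (Real.exp_le_exp.2 ?_) (by positivity)
  nlinarith

/-- C3: the root piece. -/
theorem exists_root {d : ℕ} (hd : 32 ≤ d) :
    ∃ P : Piece d, (√d ^ (d - ntop d))⁻¹ ≤ P.ratio ∧
      ∀ Ψ : Vec d → ℝ≥0∞, Measurable Ψ →
        ∫⁻ s, Ψ s ∂sphereLaw d
          ≤ ENNReal.ofReal (Real.exp (3 * d)) * ∫⁻ g, Ψ (P.μ + P.A g) ∂gw P.base := by
  classical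
  have hd2 : 2 ≤ d := by omega
  have hdR : (32:ℝ) ≤ d := by exact_mod_cast hd
  set s := √(d:ℝ)
  have hs : 0 < s := Real.sqrt_pos.2 (by linarith)
  let b : OrthonormalBasis (Fin d) ℝ (Vec d) := EuclideanSpace.basisFun (Fin d) ℝ
  let A : Vec d ≃ₗ[ℝ] Vec d := LinearEquiv.smulOfNeZero ℝ (Vec d) s⁻¹ (inv_ne_zero hs.ne')
  have hA : ∀ g, A g = s⁻¹ • g := fun g => rfl
  let P : Piece d :=
    { μ := 0
      A := A
      δ := s⁻¹
      b := b
      lam := fun _ => (s⁻¹) ^ 2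
      δpos := inv_pos.2 hs
      form := fun g h => by
        rw [hA, hA, real_inner_smul_left, real_inner_smul_right, ← b.sum_inner_mul_inner g h,
          Finset.mul_sum, Finset.mul_sum]
        exact Finset.sum_congr rfl fun i _ => by rw [real_inner_comm g (b i)]; ring
      lam_nonneg := fun _ => sq_nonneg _
      lam_le := fun _ => le_rfl
      card_top := by simp; omega }
  have hdet : |LinearMap.det (A : Vec d →ₗ[ℝ] Vec d)| = s⁻¹ ^ d := by
    rw [show (A : Vec d →ₗ[ℝ] Vec d) = s⁻¹ • LinearMap.id from LinearMap.ext hA, LinearMap.det_smul,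
      LinearMap.det_id, finrank_euclideanSpace_fin, mul_one, abs_of_pos (by positivity)]
  have hnd : ntop d ≤ d := by simp only [ntop]; omega
  refine ⟨P, le_of_eq ?_, fun Ψ hΨ => ?_⟩
  · show _ = |LinearMap.det (A : Vec d →ₗ[ℝ] Vec d)| / s⁻¹ ^ ntop d
    rw [hdet, div_eq_mul_inv, ← pow_sub₀ _ (inv_ne_zero hs.ne') hnd, inv_pow]
  have hm : Measurable fun g => Ψ (P.μ + P.A g) :=
    hΨ.comp (measurable_const.add (measurable_equiv A))
  have hbase : ∫⁻ g, Ψ (P.μ + P.A g) ∂gw P.base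
      = ENNReal.ofReal (s ^ d / 2 * ((gaussConst (Vec d))⁻¹ * Real.exp (-(d:ℝ) / 2)))
        * ∫⁻ ω, Ψ (ω : Vec d) ∂surf d := by
    have hsymm : ∀ x : Vec d, A.symm x = s • x := fun x => by
      rw [LinearEquiv.symm_apply_eq, hA, inv_smul_smul₀ hs.ne']
    rw [lintegral_gw _ hm]
    show ∫⁻ g, ENNReal.ofReal (gaussKer g) * Ψ (0 + A g) ∂sliceBase 0 A = _
    rw [sliceBase, lintegral_smul_measure,
      lintegral_map (f := fun x => ENNReal.ofReal (gaussKer x) * Ψ (0 + A x))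
        (measurable_gaussKer.ennreal_ofReal.mul hm) (measurable_sphereMap 0 A), smul_eq_mul,
      hdet, inv_pow, inv_inv, ENNReal.ofReal_mul (p := s ^ d / 2) (by positivity), mul_assoc,
      ← lintegral_const_mul' (ENNReal.ofReal (_ * Real.exp _)) _ ENNReal.ofReal_ne_top]
    congr 1
    refine lintegral_congr fun ω => ?_
    rw [sub_zero, hsymm, hA, zero_add, inv_smul_smul₀ hs.ne', gaussKer, norm_smul,
      norm_eq_of_mem_sphere, mul_one, Real.norm_of_nonneg hs.le, Real.sq_sqrt (by linarith)]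
  rw [lintegral_sphereLaw hd2 hΨ, hbase, ← mul_assoc, ← ENNReal.ofReal_mul (Real.exp_pos _).le]
  refine mul_le_mul_left ?_ _
  have hge := surf_univ_ge (d := d) (by omega)
  refine (ENNReal.inv_le_inv.2 hge).trans ?_
  rw [← ENNReal.ofReal_inv_of_pos (by positivity)]
  refine ENNReal.ofReal_le_ofReal ?_
  rw [gaussConst_vec, inv_le_iff_one_le_mul₀ (by positivity)]
  have h1 : √(2 * π) ^ d * 2 ≤ Real.exp (3 * d) * Real.exp (-(d:ℝ) / 2) * 2 ^ d * d := by
    have hp : √(2 * π) ≤ Real.exp (5 / 2) := by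
      have h1' : √(2 * π) ≤ 3 := by rw [Real.sqrt_le_iff]; exact ⟨by norm_num, by linarith [Real.pi_le_four]⟩
      linarith [Real.add_one_le_exp (5/2 : ℝ)]
    calc √(2 * π) ^ d * 2 ≤ Real.exp (5 / 2) ^ d * (2 ^ d * d) :=
          mul_le_mul (pow_le_pow_left₀ (Real.sqrt_nonneg _) hp d)
            (by nlinarith [one_le_pow₀ (show (1:ℝ) ≤ 2 by norm_num) (n := d)]) (by norm_num) (by positivity)
      _ = _ := by
          rw [← Real.exp_nat_mul, ← Real.exp_add]
          ring_nf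
  rw [div_pow]
  have hsd : 0 < s ^ d := by positivity
  have hpd : 0 < √(2 * π) ^ d := by positivity
  rw [show Real.exp (3 * d) * (s ^ d / 2 * ((√(2 * π) ^ d)⁻¹ * Real.exp (-(d:ℝ) / 2)))
      * ((d:ℝ) * (2 ^ d / s ^ d))
      = Real.exp (3 * d) * Real.exp (-(d:ℝ) / 2) * 2 ^ d * d / (√(2 * π) ^ d * 2) by field_simp,
    le_div_iff₀ (by positivity), one_mul]
  exact h1

/-- C4: consequences of a lower bound on the normalised volume. -/
theorem piece_bounds : ∀ᶠ d : ℕ in atTop, ∀ (P : Piece d) (G : ℝ), 0 ≤ G →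
    Real.exp (-G) * (√d ^ (d - ntop d))⁻¹ ≤ P.ratio →
      1 / P.δ ^ 2 ≤ d * Real.exp (10 * G / d) ∧
      ∀ (o : Vec d) (ε : ℝ), 0 < ε →
        gw P.base {g | ‖o - (P.μ + P.A g)‖ ≤ ε}
          ≤ ENNReal.ofReal (Real.exp (6 * G + 6 * d) * (3 * ε) ^ (d - 2)) := by
  filter_upwards [eventually_ge_atTop 32] with d hd P G hG hr
  have hd2 : 2 ≤ d := by omega
  have hdR : (32:ℝ) ≤ d := by exact_mod_cast hd
  set s := √(d:ℝ)
  have hs : 0 < s := Real.sqrt_pos.2 (by linarith)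
  have hδ := P.δpos
  set n := ntop d
  set D := d - n
  have hnd : n ≤ d := by simp only [n, ntop]; omega
  have hD5 : d ≤ 5 * D := by simp only [D, n, ntop]; omega
  have hD0 : D ≠ 0 := by omega
  have hD5' : (d:ℝ) ≤ 5 * (D:ℝ) := by exact_mod_cast hD5
  have hlow : Real.exp (-(5 * G / d)) * s⁻¹ ≤ P.δ := by
    rw [← pow_le_pow_iff_left₀ (by positivity) hδ.le hD0, mul_pow, ← Real.exp_nat_mul, inv_pow]
    refine le_trans (mul_le_mul_of_nonneg_right (Real.exp_le_exp.2 ?_) (by positivity))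
      (hr.trans P.ratio_le)
    rw [mul_neg, neg_le_neg_iff, mul_div_assoc', le_div_iff₀ (by linarith)]
    nlinarith
  refine ⟨?_, fun o ε hε => ?_⟩
  · have h1 : (Real.exp (-(5 * G / d)) * s⁻¹) ^ 2 ≤ P.δ ^ 2 := pow_le_pow_left₀ (by positivity) hlow 2
    refine (one_div_le_one_div_of_le (by positivity) h1).trans (le_of_eq ?_)
    rw [mul_pow, inv_pow, Real.sq_sqrt (by linarith), Real.exp_neg, inv_pow, ← Real.exp_nat_mul]
    field_simp
    congr 1
    ring
  have hdetlow : Real.exp (-(6 * G)) * (s ^ d)⁻¹ ≤ |LinearMap.det (P.A : Vec d →ₗ[ℝ] Vec d)| := by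
    have e : |LinearMap.det (P.A : Vec d →ₗ[ℝ] Vec d)| = P.ratio * P.δ ^ n := by
      simp only [Piece.ratio, n]
      rw [div_mul_cancel₀ _ (by positivity)]
    rw [e]
    have h2 : Real.exp (-(5 * G)) * (s ^ n)⁻¹ ≤ P.δ ^ n := by
      refine le_trans ?_ (pow_le_pow_left₀ (by positivity) hlow n)
      rw [mul_pow, ← Real.exp_nat_mul, inv_pow]
      refine mul_le_mul_of_nonneg_right (Real.exp_le_exp.2 ?_) (by positivity)
      rw [mul_neg, neg_le_neg_iff, mul_div_assoc', div_le_iff₀ (by linarith), mul_comm (n:ℝ)]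
      exact mul_le_mul_of_nonneg_left (by exact_mod_cast hnd) (by linarith)
    refine le_trans (le_of_eq ?_) (mul_le_mul hr h2 (by positivity) (le_trans (by positivity) hr))
    rw [show d = D + n by omega, pow_add, show -(6 * G) = -G + -(5 * G) by ring, Real.exp_add]
    field_simp
  have hS : MeasurableSet {g : Vec d | ‖o - (P.μ + P.A g)‖ ≤ ε} :=
    measurableSet_le (measurable_norm.comp (measurable_const.sub
      (measurable_const.add (measurable_equiv P.A)))) measurable_const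
  set cap : Set (Vec d) := {x | ‖o - x‖ ≤ ε}
  have hcapm : MeasurableSet cap := measurableSet_le (by fun_prop) measurable_const
  have hcap : ∫⁻ ω, cap.indicator 1 (ω : Vec d) ∂surf d
      ≤ ENNReal.ofReal ((d:ℝ) * (Real.exp ((d:ℝ) / 2) * (√(2 * π) / s) ^ d) * (2 * 3 ^ d * (3 * ε) ^ (d - 2))) := by
    have h3 : ∫⁻ x, cap.indicator 1 x ∂sphereLaw d ≤ ENNReal.ofReal (2 * 3 ^ d * (3 * ε) ^ (d - 2)) := by
      obtain ⟨m, rfl⟩ : ∃ m, d = m + 2 := ⟨d - 2, by omega⟩
      rw [sphereLaw, lintegral_map (measurable_one.indicator hcapm) (by fun_prop),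
        Nat.add_sub_cancel]
      exact cap_le (by omega) o hε
    rw [lintegral_sphereLaw hd2 (measurable_one.indicator hcapm)] at h3
    have hu : surf d Set.univ ≠ 0 := ne_of_gt (lt_of_lt_of_le (ENNReal.ofReal_pos.2 (by positivity))
      (surf_univ_ge (d := d) (by omega)))
    calc ∫⁻ ω, cap.indicator 1 (ω : Vec d) ∂surf d
        = surf d Set.univ * ((surf d Set.univ)⁻¹ * ∫⁻ ω, cap.indicator 1 (ω : Vec d) ∂surf d) := by
          rw [← mul_assoc, ENNReal.mul_inv_cancel hu (measure_ne_top _ _), one_mul]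
      _ ≤ _ := by
          rw [ENNReal.ofReal_mul (by positivity)]
          exact mul_le_mul' (surf_univ_le (by omega)) h3
  have hg : gw P.base {g | ‖o - (P.μ + P.A g)‖ ≤ ε}
      ≤ ENNReal.ofReal (|LinearMap.det (P.A : Vec d →ₗ[ℝ] Vec d)|⁻¹ / 2 * (√(2 * π) ^ d)⁻¹)
        * ∫⁻ ω, cap.indicator 1 (ω : Vec d) ∂surf d := by
    rw [← lintegral_indicator_one hS, lintegral_gw _ (measurable_one.indicator hS)]
    show ∫⁻ g, _ ∂sliceBase P.μ P.A ≤ _
    rw [sliceBase, lintegral_smul_measure,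
      lintegral_map (f := fun x => ENNReal.ofReal (gaussKer x) * {g : Vec d | ‖o - (P.μ + P.A g)‖ ≤ ε}.indicator 1 x)
        (measurable_gaussKer.ennreal_ofReal.mul (measurable_one.indicator hS))
        (measurable_sphereMap P.μ P.A), smul_eq_mul,
      ENNReal.ofReal_mul (p := _ / 2) (by positivity), mul_assoc,
      ← lintegral_const_mul' (ENNReal.ofReal (√(2 * π) ^ d)⁻¹) _ ENNReal.ofReal_ne_top]
    refine mul_le_mul_right (lintegral_mono fun ω => ?_) _
    refine mul_le_mul' (ENNReal.ofReal_le_ofReal ?_) (le_of_eq ?_)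
    · rw [gaussKer, gaussConst_vec]
      refine mul_le_of_le_one_right (by positivity) (Real.exp_le_one_iff.2 ?_)
      have := sq_nonneg ‖P.A.symm ((ω : Vec d) - P.μ)‖
      linarith
    · simp only [cap, Set.indicator_apply, Set.mem_ofPred_eq, LinearEquiv.apply_symm_apply,
        add_sub_cancel, Pi.one_apply]
  refine hg.trans ((mul_le_mul_right hcap _).trans ?_)
  rw [← ENNReal.ofReal_mul (by positivity)]
  refine ENNReal.ofReal_le_ofReal ?_
  set a := |LinearMap.det (P.A : Vec d →ₗ[ℝ] Vec d)|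
  have ha : a⁻¹ ≤ Real.exp (6 * G) * s ^ d := by
    refine (inv_anti₀ (by positivity) hdetlow).trans (le_of_eq ?_)
    rw [Real.exp_neg, mul_inv, inv_inv, inv_inv]
  have hpd : 0 < √(2 * π) ^ d := by positivity
  have hsd : 0 < s ^ d := by positivity
  calc a⁻¹ / 2 * (√(2 * π) ^ d)⁻¹
        * ((d:ℝ) * (Real.exp ((d:ℝ) / 2) * (√(2 * π) / s) ^ d) * (2 * 3 ^ d * (3 * ε) ^ (d - 2)))
      = a⁻¹ * ((d:ℝ) * Real.exp ((d:ℝ) / 2) * 3 ^ d / s ^ d) * (3 * ε) ^ (d - 2) := by
        rw [div_pow]; field_simp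
    _ ≤ Real.exp (6 * G) * s ^ d * ((d:ℝ) * Real.exp ((d:ℝ) / 2) * 3 ^ d / s ^ d) * (3 * ε) ^ (d - 2) := by
        gcongr
    _ = Real.exp (6 * G) * ((d:ℝ) * Real.exp ((d:ℝ) / 2) * 3 ^ d) * (3 * ε) ^ (d - 2) := by field_simp
    _ ≤ _ := by
        refine mul_le_mul_of_nonneg_right ?_ (by positivity)
        rw [Real.exp_add]
        refine mul_le_mul_of_nonneg_left ?_ (Real.exp_pos _).le
        calc (d:ℝ) * Real.exp ((d:ℝ) / 2) * 3 ^ d
            ≤ Real.exp d * Real.exp ((d:ℝ) / 2) * Real.exp 2 ^ d := by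
              gcongr
              · linarith [Real.add_one_le_exp (d:ℝ)]
              · linarith [Real.add_one_le_exp (2:ℝ)]
          _ ≤ _ := by
              rw [← Real.exp_nat_mul, ← Real.exp_add, ← Real.exp_add]
              exact Real.exp_le_exp.2 (by linarith)

end Vale.Agent.P309.Sharp
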