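import Vale.Agent.P309.Sharp.Node

/-! The error of one child: window, smoothing and low part. -/

namespace Vale.Agent.P309.Sharp

open MeasureTheory ProbabilityTheory
open scoped RealInnerProductSpace Real ENNReal

variable {d k : ℕ}

/-- Coefficient of a kernel. -/
noncomputable def coefK (d : ℕ) (R : ℝ) : ℝ :=
  ((2 * π) ^ d)⁻¹ * volume.real (Metric.closedBall (0 : Vec d) R)

lemma coefK_nonneg (d : ℕ) (R : ℝ) : 0 ≤ coefK d R := by unfold coefK; positivity

/-- Cost of the absolute kernel against a base. -/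
noncomputable def kap (d : ℕ) (σ R : ℝ) : ℝ := coefK d R * (2 / σ ^ 2) * σ ^ d

lemma kap_nonneg {σ : ℝ} (hσ : 0 ≤ σ) (d : ℕ) (R : ℝ) : 0 ≤ kap d σ R := by
  have := coefK_nonneg d R
  unfold kap
  positivity

/-- The absolute kernel against a base measure. -/
theorem kerAbs_base_le {σ₀ : Measure (Vec d)} [IsFiniteMeasure (gw σ₀)] {v : Vec d} {M : ℝ}
    (hB : Base σ₀ v M) {σ : ℝ} (hσ : 0 < σ) (hσ1 : σ ≤ 1) (R : ℝ) {f : Vec d → ℝ≥0∞}
    (hf : Measurable f) :
    ∫⁻ x, (∫⁻ z, ENNReal.ofReal |kerK σ R (x - z)| * f z) ∂gw σ₀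
      ≤ ENNReal.ofReal (M * kap d σ R)
        * ∫⁻ z, f z * ENNReal.ofReal (Real.exp (-‖z‖ ^ 2 / (2 * (1 + σ ^ 2)))) := by
  have hK := continuous_kerK (d := d) σ R
  have hm : Measurable (Function.uncurry fun (x z : Vec d) =>
      ENNReal.ofReal |kerK σ R (x - z)| * f z) :=
    (show Measurable fun q : Vec d × Vec d => ENNReal.ofReal |kerK σ R (q.1 - q.2)| by fun_prop).mul
      (hf.comp measurable_snd)
  rw [lintegral_lintegral_swap hm.aemeasurable, ← lintegral_const_mul' _ _ ENNReal.ofReal_ne_top]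
  refine lintegral_mono fun z => ?_
  rw [lintegral_mul_const _ (by fun_prop), ← mul_assoc, mul_comm (ENNReal.ofReal (M * kap d σ R)),
    mul_assoc, mul_comm _ (f z)]
  refine mul_le_mul_right ?_ _
  have hc := coefK_nonneg d R
  calc ∫⁻ x, ENNReal.ofReal |kerK σ R (x - z)| ∂gw σ₀
      ≤ ∫⁻ x, ENNReal.ofReal (coefK d R) * ENNReal.ofReal (Real.exp (-‖x - z‖ ^ 2 / (2 * σ ^ 2)))
          ∂gw σ₀ := lintegral_mono fun x => by
        rw [← ENNReal.ofReal_mul hc]
        exact ENNReal.ofReal_le_ofReal (abs_kerK_le σ R _)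
    _ ≤ ENNReal.ofReal (coefK d R) * ENNReal.ofReal
          (M * (2 / σ ^ 2) * σ ^ d * Real.exp (-‖z‖ ^ 2 / (2 * (1 + σ ^ 2)))) := by
        rw [lintegral_const_mul' _ _ ENNReal.ofReal_ne_top]
        exact mul_le_mul_right (hB.bump σ hσ hσ1 z) _
    _ = _ := by
        rw [← ENNReal.ofReal_mul hc, ← ENNReal.ofReal_mul (mul_nonneg hB.nonneg (kap_nonneg hσ.le d R))]
        congr 1
        unfold kap
        ring

/-- The function of a child before smoothing. -/
noncomputable def winFn (u : Vec d → ℝ) (σ r : ℝ) (y : Vec d) : ℝ :=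
  {y : Vec d | ‖y‖ ≤ 2 * r}.indicator (fun y => chi σ r y * u y) y

section win

variable {u : Vec d → ℝ} {σ r : ℝ}

lemma abs_winFn_le (y : Vec d) : |winFn u σ r y| ≤ |u y| := by
  unfold winFn
  by_cases hy : y ∈ {y : Vec d | ‖y‖ ≤ 2 * r}
  · rw [Set.indicator_of_mem hy, abs_mul, abs_of_nonneg (chi_nonneg _ _ _)]
    exact mul_le_of_le_one_left (abs_nonneg _) (chi_le_one _ _ _)
  · rw [Set.indicator_of_notMem hy, abs_zero]
    exact abs_nonneg _

lemma abs_sub_winFn_le (hσ : 0 < σ) (hr : 0 ≤ r) (hσr : 32 * (d:ℝ) ≤ (r / σ) ^ 2) (y : Vec d) :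
    |u y - winFn u σ r y|
      ≤ |u y| * (Real.exp (-(r / σ) ^ 2 / 32)
          + {y : Vec d | (r / 2) ^ 2 ≤ ‖y‖ ^ 2}.indicator 1 y) := by
  unfold winFn
  have he := Real.exp_pos (-(r / σ) ^ 2 / 32)
  by_cases hy : y ∈ {y : Vec d | (r / 2) ^ 2 ≤ ‖y‖ ^ 2}
  · rw [Set.indicator_of_mem hy (1 : Vec d → ℝ), Pi.one_apply]
    refine le_trans ?_ (mul_le_mul_of_nonneg_left (le_add_of_nonneg_left he.le) (abs_nonneg _))
    rw [mul_one]
    by_cases h2 : y ∈ {y : Vec d | ‖y‖ ≤ 2 * r}
    · rw [Set.indicator_of_mem h2, ← one_sub_mul, abs_mul,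
        abs_of_nonneg (by linarith [chi_le_one σ r y])]
      exact mul_le_of_le_one_left (abs_nonneg _) (by linarith [chi_nonneg σ r y])
    · rw [Set.indicator_of_notMem h2, sub_zero]
  · have hy' : ‖y‖ ^ 2 < (r / 2) ^ 2 := not_le.1 hy
    have hy2 : ‖y‖ ≤ r / 2 :=
      ((pow_lt_pow_iff_left₀ (norm_nonneg _) (by linarith) two_ne_zero).1 hy').le
    rw [Set.indicator_of_notMem hy, add_zero,
      Set.indicator_of_mem (show y ∈ {y : Vec d | ‖y‖ ≤ 2 * r} from hy2.trans (by linarith)),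
      ← one_sub_mul, abs_mul, abs_of_nonneg (by linarith [chi_le_one σ r y]), mul_comm]
    exact mul_le_mul_of_nonneg_left (one_sub_chi_le hσ hr hσr hy2) (abs_nonneg _)

lemma measurable_winFn (hu : Measurable u) : Measurable (winFn u σ r) :=
  ((measurable_chi σ r).mul hu).indicator (measurableSet_le measurable_norm measurable_const)

lemma integrable_winFn (hu : Measurable u) {U : ℝ} (hU : ∀ y, |u y| ≤ U) :
    Integrable (winFn u σ r) := by
  have hU0 : 0 ≤ U := (abs_nonneg _).trans (hU 0)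
  have hball : {y : Vec d | ‖y‖ ≤ 2 * r} = Metric.closedBall (0 : Vec d) (2 * r) := by ext y; simp
  have h : IntegrableOn (fun y => chi σ r y * u y) {y : Vec d | ‖y‖ ≤ 2 * r} := by
    rw [hball]
    refine (integrableOn_const (C := U) measure_closedBall_lt_top.ne).mono'
      ((measurable_chi σ r).mul hu).aestronglyMeasurable (ae_of_all _ fun y => ?_)
    rw [Real.norm_eq_abs, abs_mul, abs_of_nonneg (chi_nonneg _ _ _)]
    exact (mul_le_of_le_one_left (abs_nonneg _) (chi_le_one _ _ _)).trans (hU y)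
  exact (integrable_indicator_iff (measurableSet_le measurable_norm measurable_const)).2 h

/-- On the window Lebesgue measure is dominated by the Gaussian law. -/
lemma lintegral_winFn_le (hu : Measurable u) :
    ∫⁻ y, ENNReal.ofReal |winFn u σ r y|
      ≤ ENNReal.ofReal (gaussConst (Vec d) * Real.exp (2 * r ^ 2))
        * ∫⁻ y, ENNReal.ofReal |winFn u σ r y| ∂stdGaussian (Vec d) := by
  have hw := measurable_winFn (σ := σ) (r := r) hu
  rw [lintegral_stdGaussian (by fun_prop), ← lintegral_const_mul' _ _ ENNReal.ofReal_ne_top]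
  refine lintegral_mono fun y => ?_
  by_cases hy : ‖y‖ ≤ 2 * r
  · rw [← mul_assoc, ← ENNReal.ofReal_mul (mul_nonneg gaussConst_pos.le (Real.exp_pos _).le)]
    refine le_mul_of_one_le_left zero_le (ENNReal.one_le_ofReal.2 ?_)
    rw [gaussKer, show gaussConst (Vec d) * Real.exp (2 * r ^ 2) * ((gaussConst (Vec d))⁻¹
        * Real.exp (-‖y‖ ^ 2 / 2)) = Real.exp (2 * r ^ 2) * Real.exp (-‖y‖ ^ 2 / 2) by
          have := gaussConst_pos (V := Vec d)
          field_simp, ← Real.exp_add]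
    refine Real.one_le_exp ?_
    nlinarith [pow_le_pow_left₀ (norm_nonneg y) hy 2]
  · simp [winFn, hy]

/-- The smoothed window against a base measure. -/
lemma conv_winFn_base_le {σ₀ : Measure (Vec d)} [IsFiniteMeasure (gw σ₀)] {v : Vec d} {M : ℝ}
    (hB : Base σ₀ v M) {s R : ℝ} (hs : 0 < s) (hs1 : s ≤ 1) (hu : Measurable u) :
    ∫⁻ x, ENNReal.ofReal |convK s R (winFn u σ r) x| ∂gw σ₀
      ≤ ENNReal.ofReal (M * kap d s R * (gaussConst (Vec d) * Real.exp (2 * (s * r) ^ 2)))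
        * ∫⁻ y, ENNReal.ofReal |winFn u σ r y| ∂stdGaussian (Vec d) := by
  have hw := measurable_winFn (σ := σ) (r := r) hu
  set f : Vec d → ℝ≥0∞ := fun z => ENNReal.ofReal |winFn u σ r z|
  have hf : Measurable f := by fun_prop
  have h1 : ∀ x, ENNReal.ofReal |convK s R (winFn u σ r) x|
      ≤ ∫⁻ z, ENNReal.ofReal |kerK s R (x - z)| * f z := by
    intro x
    rw [← Real.norm_eq_abs, ofReal_norm, convK]
    refine (enorm_integral_le_lintegral_enorm _).trans (le_of_eq (lintegral_congr fun z => ?_))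
    rw [← ofReal_norm, Real.norm_eq_abs, abs_mul, ENNReal.ofReal_mul (abs_nonneg _)]
  refine ((lintegral_mono h1).trans (kerAbs_base_le hB hs hs1 R hf)).trans ?_
  rw [ENNReal.ofReal_mul (mul_nonneg hB.nonneg (kap_nonneg hs.le d R)), mul_assoc]
  refine mul_le_mul_right ?_ _
  rw [lintegral_stdGaussian hf, ← lintegral_const_mul' _ _ ENNReal.ofReal_ne_top]
  refine lintegral_mono fun z => ?_
  by_cases hz : ‖z‖ ≤ 2 * r
  · rw [mul_comm (f z), ← mul_assoc,
      ← ENNReal.ofReal_mul (mul_nonneg gaussConst_pos.le (Real.exp_pos _).le)]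
    refine mul_le_mul_left (ENNReal.ofReal_le_ofReal ?_) _
    rw [gaussKer, show gaussConst (Vec d) * Real.exp (2 * (s * r) ^ 2) * ((gaussConst (Vec d))⁻¹
        * Real.exp (-‖z‖ ^ 2 / 2)) = Real.exp (2 * (s * r) ^ 2) * Real.exp (-‖z‖ ^ 2 / 2) by
          have := gaussConst_pos (V := Vec d)
          field_simp, ← Real.exp_add]
    refine Real.exp_le_exp.2 ?_
    have h2 : ‖z‖ ^ 2 ≤ (2 * r) ^ 2 := pow_le_pow_left₀ (norm_nonneg z) hz 2
    have h3 : (s * ‖z‖) ^ 2 ≤ 4 * (s * r) ^ 2 := by nlinarith [sq_nonneg s]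
    rw [neg_div, neg_div]
    have h4 : ‖z‖ ^ 2 / 2 - ‖z‖ ^ 2 / (2 * (1 + s ^ 2)) ≤ (s * ‖z‖) ^ 2 / 2 := by
      rw [div_sub_div _ _ (by norm_num) (by positivity), div_le_div_iff₀ (by positivity) (by norm_num)]
      nlinarith [sq_nonneg (s * s * ‖z‖)]
    linarith
  · simp [f, winFn, hz]

end win

/-- A nearly fixed part and a small remainder. -/
theorem abs_sub_conv_le {G u : Vec d → ℝ} {f : Vec d → ℝ≥0∞} (hG : Measurable G) (hu : Measurable u)
    {U : ℝ} (hGU : ∀ y, |G y| ≤ U) (huU : ∀ y, |u y| ≤ U) (hf : ∀ y, ENNReal.ofReal |G y - u y| ≤ f y)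
    {σ R : ℝ} (hσ : 0 < σ) (y : Vec d) :
    ENNReal.ofReal |G y - convK σ R G y|
      ≤ ENNReal.ofReal |u y - convK σ R u y| + f y
        + ∫⁻ z, ENNReal.ofReal |kerK σ R (y - z)| * f z := by
  have hK : Integrable fun z => kerK σ R (y - z) := (integrable_kerK hσ R).comp_sub_left y
  have hiG : Integrable fun z => kerK σ R (y - z) * G z :=
    hK.mul_bdd (c := U) hG.aestronglyMeasurable (ae_of_all _ fun z => hGU z)
  have hiu : Integrable fun z => kerK σ R (y - z) * u z :=
    hK.mul_bdd (c := U) hu.aestronglyMeasurable (ae_of_all _ fun z => huU z)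
  have e : G y - convK σ R G y
      = (u y - convK σ R u y) + ((G y - u y) - ∫ z, kerK σ R (y - z) * (G z - u z)) := by
    simp only [convK, mul_sub]
    rw [integral_sub hiG hiu]
    ring
  rw [e]
  refine (ENNReal.ofReal_le_ofReal (abs_add_le _ _)).trans ?_
  rw [ENNReal.ofReal_add (abs_nonneg _) (abs_nonneg _), add_assoc]
  refine add_le_add le_rfl ?_
  refine (ENNReal.ofReal_le_ofReal (abs_sub _ _)).trans ?_
  rw [ENNReal.ofReal_add (abs_nonneg _) (abs_nonneg _)]
  refine add_le_add (hf y) ?_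
  rw [← Real.norm_eq_abs, ofReal_norm]
  refine (enorm_integral_le_lintegral_enorm _).trans (lintegral_mono fun z => ?_)
  rw [← ofReal_norm, Real.norm_eq_abs, abs_mul, ENNReal.ofReal_mul (abs_nonneg _)]
  exact mul_le_mul_right (hf z) _

/-- Integrals over children depend measurably on the shift. -/
lemma measurable_child_lintegral (σ₀ : Measure (Vec d)) [SFinite σ₀] (C : Vec d ≃ₗ[ℝ] Vec d)
    {f : Vec d → Vec d → ℝ≥0∞} (hf : Measurable (Function.uncurry f)) :
    Measurable fun a => ∫⁻ y, f a y ∂gw (child σ₀ a C) := by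
  have e : ∀ a, ∫⁻ y, f a y ∂gw (child σ₀ a C)
      = ENNReal.ofReal |LinearMap.det (C : Vec d →ₗ[ℝ] Vec d)|⁻¹
        * ∫⁻ g, ENNReal.ofReal (gaussKer (C.symm (g - a))) * f a (C.symm (g - a)) ∂σ₀ := fun a => by
    have hfa : Measurable (f a) := hf.comp measurable_prodMk_left
    rw [lintegral_gw _ hfa, lintegral_child _ _ _
      (f := fun g => ENNReal.ofReal (gaussKer g) * f a g) (measurable_gaussKer.ennreal_ofReal.mul hfa)]
  simp only [e]
  have h1 : Measurable fun q : Vec d × Vec d => C.symm (q.2 - q.1) :=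
    (measurable_equiv C.symm).comp (measurable_snd.sub measurable_fst)
  exact (Measurable.lintegral_prod_right' (f := fun q : Vec d × Vec d =>
    ENNReal.ofReal (gaussKer (C.symm (q.2 - q.1))) * f q.1 (C.symm (q.2 - q.1)))
    ((measurable_gaussKer.comp h1).ennreal_ofReal.mul
      (hf.comp (measurable_fst.prodMk h1)))).const_mul _

/-- Tilted Gaussian mean. -/
noncomputable def tilted (ρ : ℝ) (f : Vec d → ℝ≥0∞) : ℝ≥0∞ :=
  ∫⁻ g, f g * ENNReal.ofReal (Real.exp (ρ ^ 2 * ‖g‖ ^ 2 / 2)) ∂stdGaussian (Vec d)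

section childErr

variable {C : Vec d ≃ₗ[ℝ] Vec d} {ρ : ℝ} (hρ0 : 0 ≤ ρ) (hρ1 : ρ < 1)
  (hC : ∀ x, ‖C x‖ ≤ ρ * ‖x‖)

include hρ0 hρ1 hC in
lemma lintegral_mixW : ∫⁻ a, mixW C a = 1 := by
  have h := mix_total (volume : Measure (Vec d)) hρ0 hρ1 hC (f := fun _ => 1) measurable_const
  simpa [child_volume, gw_volume] using h

include hρ0 hρ1 hC in
lemma mix_gauss {f : Vec d → ℝ≥0∞} (hf : Measurable f) :
    ∫⁻ a, mixW C a * ∫⁻ y, f (a + C y) ∂stdGaussian (Vec d) = ∫⁻ g, f g ∂stdGaussian (Vec d) := by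
  have h := mix_total (volume : Measure (Vec d)) hρ0 hρ1 hC hf
  simpa [child_volume, gw_volume] using h

include hρ0 hρ1 hC in
lemma mix_gauss_tilt {f : Vec d → ℝ≥0∞} (hf : Measurable f) :
    ∫⁻ a, mixW C a * ∫⁻ y, f (a + C y) * ENNReal.ofReal (Real.exp (‖y‖ ^ 2 / 4))
        ∂stdGaussian (Vec d)
      ≤ ENNReal.ofReal (√2 ^ d) * tilted ρ f := by
  have hCm := measurable_equiv C
  have hfu : Measurable (Function.uncurry fun (a y : Vec d) =>
      f (a + C y) * ENNReal.ofReal (Real.exp (‖y‖ ^ 2 / 4))) :=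
    (hf.comp (measurable_fst.add (hCm.comp measurable_snd))).mul
      (show Measurable fun q : Vec d × Vec d => ENNReal.ofReal (Real.exp (‖q.2‖ ^ 2 / 4)) by fun_prop)
  have h := lintegral_mix (volume : Measure (Vec d)) C (measurable_mixW C) hfu
  simp only [child_volume, gw_volume, sub_add_cancel] at h
  rw [h, tilted, lintegral_stdGaussian (by fun_prop), ← lintegral_const_mul' _ _ ENNReal.ofReal_ne_top]
  refine lintegral_mono fun g => ?_
  calc ∫⁻ y, mixW C (g - C y) * (ENNReal.ofReal (gaussKer y)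
          * (f g * ENNReal.ofReal (Real.exp (‖y‖ ^ 2 / 4))))
      = f g * ∫⁻ y, ENNReal.ofReal (mixDens C (g - C y) * (gaussKer y * Real.exp (‖y‖ ^ 2 / 4))) := by
        rw [← lintegral_const_mul _ (by
          have := continuous_mixDens C
          have := continuous_gaussKer (d := d)
          fun_prop)]
        refine lintegral_congr fun y => ?_
        rw [ENNReal.ofReal_mul (mixDens_nonneg C _), ENNReal.ofReal_mul (gaussKer_nonneg _), mixW]
        ring
    _ ≤ _ := by
        refine (mul_le_mul_right (lintegral_mixDens_half hρ0 hρ1 hC g) _).trans (le_of_eq ?_)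
        rw [ENNReal.ofReal_mul (by positivity), ENNReal.ofReal_mul (by positivity)]
        ring

variable {σ₀ : Measure (Vec d)} [SFinite σ₀] {v' : Vec d → Vec d} {M' : ℝ}

include hρ0 hρ1 hC in
/-- The part of a node cut away by the window of the child. -/
theorem cut_err_le {f : Vec d → ℝ} (hf : Measurable f) {σ r Rc : ℝ} (hσ : 0 < σ) (hr : 0 ≤ r)
    (hσr : 32 * (d:ℝ) ≤ (r / σ) ^ 2) :
    ∫⁻ a, mixW C a * ∫⁻ y, ENNReal.ofReal |f (a + C y) - winFn (fun z => f (a + C z)) σ r y|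
        ∂gw (child σ₀ a C)
      ≤ ENNReal.ofReal (Real.exp (-(r / σ) ^ 2 / 32)
          + √2 ^ d * Real.exp (ρ ^ 2 * Rc ^ 2 / 2 - (r / 2) ^ 2 / 4))
          * ∫⁻ g, ENNReal.ofReal |f g| ∂gw σ₀
        + ∫⁻ g, {g : Vec d | Rc ^ 2 ≤ ‖g‖ ^ 2}.indicator (fun g => ENNReal.ofReal |f g|) g
            ∂gw σ₀ := by
  set e₁ := Real.exp (-(r / σ) ^ 2 / 32)
  have hfm : Measurable fun g => ENNReal.ofReal |f g| := by fun_prop
  have hCm := measurable_equiv C
  set I : Vec d → ℝ≥0∞ := {y : Vec d | (r / 2) ^ 2 ≤ ‖y‖ ^ 2}.indicator 1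
  have hI : Measurable I := measurable_one.indicator (measurableSet_le measurable_const (by fun_prop))
  have hpt : ∀ a y, ENNReal.ofReal |f (a + C y) - winFn (fun z => f (a + C z)) σ r y|
      ≤ ENNReal.ofReal e₁ * ENNReal.ofReal |f (a + C y)| + I y * ENNReal.ofReal |f (a + C y)| := by
    intro a y
    refine (ENNReal.ofReal_le_ofReal (abs_sub_winFn_le (u := fun z => f (a + C z)) hσ hr hσr y)).trans ?_
    rw [ENNReal.ofReal_mul (abs_nonneg _), mul_comm, ← add_mul]
    refine mul_le_mul_left (le_trans ENNReal.ofReal_add_le (add_le_add le_rfl ?_)) _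
    simp only [I, Set.indicator_apply]
    split <;> simp
  refine (lintegral_mono fun a => mul_le_mul_right (lintegral_mono fun y => hpt a y) _).trans ?_
  have hm1 : ∀ a, Measurable fun y => ENNReal.ofReal e₁ * ENNReal.ofReal |f (a + C y)| := fun a => by
    fun_prop
  simp only [lintegral_add_left (hm1 _), lintegral_const_mul' _ _ ENNReal.ofReal_ne_top, mul_add,
    ← mul_assoc, mul_comm _ (ENNReal.ofReal e₁)]
  simp only [mul_assoc]
  have hm2 : Measurable fun a => ENNReal.ofReal e₁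
      * (mixW C a * ∫⁻ y, ENNReal.ofReal |f (a + C y)| ∂gw (child σ₀ a C)) :=
    ((measurable_mixW C).mul (measurable_child_lintegral σ₀ C
      (f := fun a y => ENNReal.ofReal |f (a + C y)|)
      (show Measurable fun q : Vec d × Vec d => ENNReal.ofReal |f (q.1 + C q.2)| by fun_prop))).const_mul _
  rw [lintegral_add_left hm2, lintegral_const_mul' _ _ ENNReal.ofReal_ne_top,
    mix_total σ₀ hρ0 hρ1 hC hfm]
  refine (add_le_add le_rfl (mix_tail σ₀ hρ0 hρ1 hC hfm (r / 2) Rc)).trans (le_of_eq ?_)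
  have he : (0:ℝ) ≤ √2 ^ d * Real.exp (ρ ^ 2 * Rc ^ 2 / 2 - (r / 2) ^ 2 / 4) := by positivity
  simp only [mul_add]
  rw [lintegral_add_left (hfm.mul_const _), lintegral_mul_const _ hfm, ← add_assoc,
    ENNReal.ofReal_add (Real.exp_pos _).le he, add_mul, mul_comm (∫⁻ g, _ ∂gw σ₀)]
  congr 1
  refine lintegral_congr fun g => ?_
  by_cases hg : g ∈ {g : Vec d | Rc ^ 2 ≤ ‖g‖ ^ 2} <;> simp [hg]

omit hρ0 hρ1 hC in
/-- Comparison of the Gaussian window of a bump with the Gaussian law. -/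
lemma bump_weight_le {s : ℝ} (hs1 : s ^ 2 ≤ 1) (z : Vec d) :
    Real.exp (-‖z‖ ^ 2 / (2 * (1 + s ^ 2))) ≤
      gaussConst (Vec d) * gaussKer z * Real.exp (‖z‖ ^ 2 / 4) ∧
    ∀ r : ℝ, ‖z‖ ≤ 2 * r → Real.exp (-‖z‖ ^ 2 / (2 * (1 + s ^ 2))) ≤
      gaussConst (Vec d) * gaussKer z * Real.exp (2 * (s * r) ^ 2) := by
  have e : gaussConst (Vec d) * gaussKer z = Real.exp (-‖z‖ ^ 2 / 2) := by
    have := gaussConst_pos (V := Vec d)
    rw [gaussKer]
    field_simp
  have h4 : ‖z‖ ^ 2 / 2 - ‖z‖ ^ 2 / (2 * (1 + s ^ 2)) ≤ (s * ‖z‖) ^ 2 / 2 := by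
    rw [div_sub_div _ _ (by norm_num) (by positivity), div_le_div_iff₀ (by positivity) (by norm_num)]
    nlinarith [sq_nonneg (s * s * ‖z‖)]
  have h5 : ‖z‖ ^ 2 / 4 ≤ ‖z‖ ^ 2 / (2 * (1 + s ^ 2)) :=
    div_le_div_of_nonneg_left (sq_nonneg _) (by positivity) (by linarith)
  constructor
  · rw [e, ← Real.exp_add]
    refine Real.exp_le_exp.2 ?_
    rw [neg_div, neg_div]
    linarith
  · intro r hz
    have h2 : ‖z‖ ^ 2 ≤ (2 * r) ^ 2 := pow_le_pow_left₀ (norm_nonneg z) hz 2
    have h3 : (s * ‖z‖) ^ 2 ≤ 4 * (s * r) ^ 2 := by nlinarith [sq_nonneg s]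
    rw [e, ← Real.exp_add]
    refine Real.exp_le_exp.2 ?_
    rw [neg_div, neg_div]
    linarith

omit hρ0 hρ1 hC in
/-- Pointwise bound on what the kernel does not keep. -/
lemma keep_pt_le {f l : Vec d → ℝ} (hf : Measurable f) (hl : Measurable l) {U : ℝ}
    (hfU : ∀ g, |f g| ≤ U) (hlU : ∀ g, |l g| ≤ U) {σ r s R δu : ℝ} (hσ : 0 < σ) (hr : 0 ≤ r)
    (hσr : 32 * (d:ℝ) ≤ (r / σ) ^ 2) (hs : 0 < s) (a y : Vec d)
    (hband : |chi σ r y * l (a + C y)
      - convK s R (fun z => chi σ r z * l (a + C z)) y| ≤ δu) :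
    let W : Vec d → ℝ≥0∞ := fun z => ENNReal.ofReal (chi σ r z) * ENNReal.ofReal |f (a + C z) - l (a + C z)|
      + ENNReal.ofReal (Real.exp (-(r / σ) ^ 2 / 8)) * ENNReal.ofReal |f (a + C z)|
    ENNReal.ofReal |winFn (fun z => f (a + C z)) σ r y
        - convK s R (winFn (fun z => f (a + C z)) σ r) y|
      ≤ ENNReal.ofReal δu + W y + ∫⁻ z, ENNReal.ofReal |kerK s R (y - z)| * W z := by
  intro W
  set e₀ := Real.exp (-(r / σ) ^ 2 / 8)
  have he₀ : 0 ≤ e₀ := (Real.exp_pos _).le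
  have hCm := measurable_equiv C
  have hfa : Measurable fun z => f (a + C z) := hf.comp (measurable_const.add hCm)
  have hla : Measurable fun z => l (a + C z) := hl.comp (measurable_const.add hCm)
  refine (abs_sub_conv_le (G := winFn (fun z => f (a + C z)) σ r)
    (u := fun z => chi σ r z * l (a + C z)) (f := W) (measurable_winFn hfa)
    ((measurable_chi σ r).mul hla) (U := U) (fun z => (abs_winFn_le z).trans (hfU _))
    (fun z => ?_) (fun z => ?_) hs y).trans (add_le_add (add_le_add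
      (ENNReal.ofReal_le_ofReal hband) le_rfl) le_rfl)
  · rw [abs_mul, abs_of_nonneg (chi_nonneg _ _ _)]
    exact (mul_le_of_le_one_left (abs_nonneg _) (chi_le_one _ _ _)).trans (hlU _)
  · have hc := chi_nonneg σ r z
    simp only [W]
    rw [← ENNReal.ofReal_mul hc, ← ENNReal.ofReal_mul he₀,
      ← ENNReal.ofReal_add (by positivity) (by positivity)]
    refine ENNReal.ofReal_le_ofReal ?_
    unfold winFn
    by_cases hz : z ∈ {z : Vec d | ‖z‖ ≤ 2 * r}
    · rw [Set.indicator_of_mem hz, ← mul_sub, abs_mul, abs_of_nonneg hc]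
      exact le_add_of_nonneg_right (by positivity)
    · have hz' : 2 * r ≤ ‖z‖ := (not_le.1 hz).le
      rw [Set.indicator_of_notMem hz, zero_sub, abs_neg, abs_mul, abs_of_nonneg hc]
      calc chi σ r z * |l (a + C z)| ≤ chi σ r z * (|f (a + C z) - l (a + C z)| + |f (a + C z)|) := by
            refine mul_le_mul_of_nonneg_left ?_ hc
            have := abs_sub (f (a + C z)) (f (a + C z) - l (a + C z))
            rw [sub_sub_cancel] at this
            linarith
        _ ≤ _ := by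
            rw [mul_add]
            exact add_le_add le_rfl
              (mul_le_mul_of_nonneg_right (chi_le_outside hσ hr hσr hz') (abs_nonneg _))

omit hρ0 hρ1 hC in
/-- The absolute kernel on the remainder of a window. -/
lemma keep_ker_le {σ₁ : Measure (Vec d)} [IsFiniteMeasure (gw σ₁)] {v₁ : Vec d} {M' : ℝ}
    (hB : Base σ₁ v₁ M') {hh ff : Vec d → ℝ≥0∞} (hhm : Measurable hh) (hfm : Measurable ff)
    {σ r s : ℝ} (R : ℝ) (hσ : 0 < σ) (hr : 0 ≤ r) (hσr : 32 * (d:ℝ) ≤ (r / σ) ^ 2) (hs : 0 < s)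
    (hs1 : s ≤ 1) (a : Vec d) :
    let W : Vec d → ℝ≥0∞ := fun z => ENNReal.ofReal (chi σ r z) * hh (a + C z)
      + ENNReal.ofReal (Real.exp (-(r / σ) ^ 2 / 8)) * ff (a + C z)
    ∫⁻ y, (∫⁻ z, ENNReal.ofReal |kerK s R (y - z)| * W z) ∂gw σ₁
      ≤ ENNReal.ofReal (M' * kap d s R * gaussConst (Vec d))
        * (ENNReal.ofReal (Real.exp (2 * (s * r) ^ 2)) * (∫⁻ z, hh (a + C z) ∂stdGaussian (Vec d))
          + ENNReal.ofReal (Real.exp (-(r / σ) ^ 2 / 8))
            * ((∫⁻ z, hh (a + C z) * ENNReal.ofReal (Real.exp (‖z‖ ^ 2 / 4)) ∂stdGaussian (Vec d))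
              + ∫⁻ z, ff (a + C z) * ENNReal.ofReal (Real.exp (‖z‖ ^ 2 / 4)) ∂stdGaussian (Vec d))) := by
  intro W
  set e₀ := Real.exp (-(r / σ) ^ 2 / 8)
  have hCm := measurable_equiv C
  have hW : Measurable W :=
    ((measurable_chi σ r).ennreal_ofReal.mul (hhm.comp (measurable_const.add hCm))).add
      ((hfm.comp (measurable_const.add hCm)).const_mul _)
  refine (kerAbs_base_le hB hs hs1 R hW).trans ?_
  rw [ENNReal.ofReal_mul' gaussConst_pos.le, mul_assoc]
  refine mul_le_mul_right ?_ _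
  have hha : Measurable fun z => hh (a + C z) := hhm.comp (measurable_const.add hCm)
  have hffa : Measurable fun z => ff (a + C z) := hfm.comp (measurable_const.add hCm)
  set E : Vec d → ℝ≥0∞ := fun z => ENNReal.ofReal (Real.exp (‖z‖ ^ 2 / 4))
  have hE : Measurable E := by fun_prop
  set S : Vec d → ℝ≥0∞ := fun z => ENNReal.ofReal (Real.exp (2 * (s * r) ^ 2)) * hh (a + C z)
    + ENNReal.ofReal e₀ * (hh (a + C z) * E z + ff (a + C z) * E z)
  have hS : Measurable S :=
    (hha.const_mul _).add (((hha.mul hE).add (hffa.mul hE)).const_mul _)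
  have e : ∫⁻ z, S z ∂stdGaussian (Vec d) = ENNReal.ofReal (Real.exp (2 * (s * r) ^ 2))
        * (∫⁻ z, hh (a + C z) ∂stdGaussian (Vec d))
      + ENNReal.ofReal e₀ * ((∫⁻ z, hh (a + C z) * E z ∂stdGaussian (Vec d))
        + ∫⁻ z, ff (a + C z) * E z ∂stdGaussian (Vec d)) := by
    simp only [S]
    rw [lintegral_add_left (hha.const_mul _), lintegral_const_mul' _ _ ENNReal.ofReal_ne_top,
      lintegral_const_mul' _ _ ENNReal.ofReal_ne_top,
      lintegral_add_left (show Measurable fun z => hh (a + C z) * E z from hha.mul hE)]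
  rw [← e, lintegral_stdGaussian hS, ← lintegral_const_mul' _ _ ENNReal.ofReal_ne_top]
  refine lintegral_mono fun z => ?_
  set w := ENNReal.ofReal (Real.exp (-‖z‖ ^ 2 / (2 * (1 + s ^ 2))))
  obtain ⟨hout, hin⟩ := bump_weight_le (d := d) (s := s) (pow_le_one₀ hs.le hs1) z
  set K := ENNReal.ofReal (gaussConst (Vec d)) * ENNReal.ofReal (gaussKer z)
  have hKe : K = ENNReal.ofReal (gaussConst (Vec d) * gaussKer z) :=
    (ENNReal.ofReal_mul gaussConst_pos.le).symm
  have hgg : 0 ≤ gaussConst (Vec d) * gaussKer z := mul_nonneg gaussConst_pos.le (gaussKer_nonneg z)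
  have ho : w ≤ K * E z := by
    rw [hKe, ← ENNReal.ofReal_mul hgg]
    exact ENNReal.ofReal_le_ofReal hout
  have h1 : ENNReal.ofReal (chi σ r z) * w
      ≤ K * (ENNReal.ofReal (Real.exp (2 * (s * r) ^ 2)) + ENNReal.ofReal e₀ * E z) := by
    by_cases hz : ‖z‖ ≤ 2 * r
    · refine le_trans ?_ (mul_le_mul_right le_self_add _)
      refine (mul_le_of_le_one_left zero_le (ENNReal.ofReal_le_one.2 (chi_le_one σ r z))).trans ?_
      rw [hKe, ← ENNReal.ofReal_mul hgg]
      exact ENNReal.ofReal_le_ofReal (hin r hz)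
    · refine le_trans ?_ (mul_le_mul_right le_add_self _)
      rw [mul_left_comm]
      exact mul_le_mul' (ENNReal.ofReal_le_ofReal (chi_le_outside hσ hr hσr (not_le.1 hz).le)) ho
  calc W z * w = hh (a + C z) * (ENNReal.ofReal (chi σ r z) * w)
        + ENNReal.ofReal e₀ * ff (a + C z) * w := by simp only [W]; ring
    _ ≤ hh (a + C z) * (K * (ENNReal.ofReal (Real.exp (2 * (s * r) ^ 2)) + ENNReal.ofReal e₀ * E z))
        + ENNReal.ofReal e₀ * ff (a + C z) * (K * E z) :=
      add_le_add (mul_le_mul_right h1 _) (mul_le_mul_right ho _)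
    _ = _ := by simp only [S, K]; ring

include hρ0 hρ1 hC in
/-- The part of a window that the kernel does not keep. -/
theorem keep_err_le {M' : ℝ} (hM' : 0 ≤ M') {v' : Vec d → Vec d} [hfin : ∀ a, IsFiniteMeasure (gw (child σ₀ a C))]
    (hB' : ∀ a, Base (child σ₀ a C) (v' a) M')
    {f l : Vec d → ℝ} (hf : Measurable f) (hl : Measurable l) {U : ℝ} (hfU : ∀ g, |f g| ≤ U)
    (hlU : ∀ g, |l g| ≤ U) {σ r s R δu : ℝ} (hσ : 0 < σ) (hr : 0 ≤ r)
    (hσr : 32 * (d:ℝ) ≤ (r / σ) ^ 2) (hs : 0 < s) (hs1 : s ≤ 1)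
    (hband : ∀ a y, |chi σ r y * l (a + C y)
      - convK s R (fun z => chi σ r z * l (a + C z)) y| ≤ δu) :
    ∫⁻ a, mixW C a * ∫⁻ y, ENNReal.ofReal |winFn (fun z => f (a + C z)) σ r y
          - convK s R (winFn (fun z => f (a + C z)) σ r) y| ∂gw (child σ₀ a C)
      ≤ ENNReal.ofReal (M' * δu)
        + ((∫⁻ g, ENNReal.ofReal |f g - l g| ∂gw σ₀)
          + ENNReal.ofReal (Real.exp (-(r / σ) ^ 2 / 8)) * ∫⁻ g, ENNReal.ofReal |f g| ∂gw σ₀)
        + ENNReal.ofReal (M' * kap d s R * gaussConst (Vec d))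
          * (ENNReal.ofReal (Real.exp (2 * (s * r) ^ 2))
              * (∫⁻ g, ENNReal.ofReal |f g - l g| ∂stdGaussian (Vec d))
            + ENNReal.ofReal (Real.exp (-(r / σ) ^ 2 / 8) * √2 ^ d)
              * (tilted ρ (fun g => ENNReal.ofReal |f g - l g|)
                + tilted ρ (fun g => ENNReal.ofReal |f g|))) := by
  set e₀ := Real.exp (-(r / σ) ^ 2 / 8)
  have he₀ : 0 ≤ e₀ := (Real.exp_pos _).le
  have hCm := measurable_equiv C
  set hh : Vec d → ℝ≥0∞ := fun g => ENNReal.ofReal |f g - l g|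
  set ff : Vec d → ℝ≥0∞ := fun g => ENNReal.ofReal |f g|
  have hhm : Measurable hh := by fun_prop
  have hfm : Measurable ff := by fun_prop
  set W : Vec d → Vec d → ℝ≥0∞ := fun a y =>
    ENNReal.ofReal (chi σ r y) * hh (a + C y) + ENNReal.ofReal e₀ * ff (a + C y)
  have hW : Measurable (Function.uncurry W) :=
    ((((measurable_chi σ r).comp measurable_snd).ennreal_ofReal).mul
      (hhm.comp (measurable_fst.add (hCm.comp measurable_snd)))).add
      ((hfm.comp (measurable_fst.add (hCm.comp measurable_snd))).const_mul _)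
  have hWa : ∀ a, Measurable (W a) := fun a =>
    ((measurable_chi σ r).ennreal_ofReal.mul (hhm.comp (measurable_const.add hCm))).add
      ((hfm.comp (measurable_const.add hCm)).const_mul _)
  have hpt : ∀ a y, ENNReal.ofReal |winFn (fun z => f (a + C z)) σ r y
        - convK s R (winFn (fun z => f (a + C z)) σ r) y|
      ≤ ENNReal.ofReal δu + W a y + ∫⁻ z, ENNReal.ofReal |kerK s R (y - z)| * W a z :=
    fun a y => keep_pt_le hf hl hfU hlU hσ hr hσr hs a y (hband a y)
  have hK := fun a => keep_ker_le (C := C) (hB' a) hhm hfm R hσ hr hσr hs hs1 a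
  have hm : ∀ {φ : Vec d → ℝ≥0∞}, Measurable φ → Measurable fun a =>
      mixW C a * ∫⁻ z, φ (a + C z) * ENNReal.ofReal (Real.exp (‖z‖ ^ 2 / 4)) ∂stdGaussian (Vec d) :=
    fun {φ} hφ => (measurable_mixW C).mul (Measurable.lintegral_prod_right'
      (f := fun q : Vec d × Vec d => φ (q.1 + C q.2) * ENNReal.ofReal (Real.exp (‖q.2‖ ^ 2 / 4)))
      ((hφ.comp (measurable_fst.add (hCm.comp measurable_snd))).mul (by fun_prop)))
  set κ := ENNReal.ofReal (M' * kap d s R * gaussConst (Vec d))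
  calc ∫⁻ a, mixW C a * ∫⁻ y, ENNReal.ofReal |winFn (fun z => f (a + C z)) σ r y
          - convK s R (winFn (fun z => f (a + C z)) σ r) y| ∂gw (child σ₀ a C)
      ≤ ∫⁻ a, ((mixW C a * ENNReal.ofReal (M' * δu)
            + mixW C a * ∫⁻ y, W a y ∂gw (child σ₀ a C))
          + κ * (ENNReal.ofReal (Real.exp (2 * (s * r) ^ 2))
              * (mixW C a * ∫⁻ z, hh (a + C z) ∂stdGaussian (Vec d))
            + ENNReal.ofReal e₀
              * ((mixW C a * ∫⁻ z, hh (a + C z) * ENNReal.ofReal (Real.exp (‖z‖ ^ 2 / 4))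
                    ∂stdGaussian (Vec d))
                + mixW C a * ∫⁻ z, ff (a + C z) * ENNReal.ofReal (Real.exp (‖z‖ ^ 2 / 4))
                    ∂stdGaussian (Vec d)))) := by
        refine lintegral_mono fun a => ?_
        refine (mul_le_mul_right (lintegral_mono (hpt a)) _).trans ?_
        rw [lintegral_add_left ((hWa a).const_add _), lintegral_add_left measurable_const,
          lintegral_const, mul_add, mul_add]
        refine add_le_add (add_le_add (mul_le_mul_right ?_ _) le_rfl) ?_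
        · rw [mul_comm, ENNReal.ofReal_mul hM']
          exact mul_le_mul_left (hB' a).dec.1 _
        · refine (mul_le_mul_right (hK a) _).trans (le_of_eq ?_)
          ring
    _ ≤ _ := by
        have m1 : Measurable fun a => mixW C a * ENNReal.ofReal (M' * δu) :=
          (measurable_mixW C).mul_const _
        have m2 : Measurable fun a => mixW C a * ∫⁻ y, W a y ∂gw (child σ₀ a C) :=
          (measurable_mixW C).mul (measurable_child_lintegral σ₀ C hW)
        have m3 : Measurable fun a => ENNReal.ofReal (Real.exp (2 * (s * r) ^ 2))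
            * (mixW C a * ∫⁻ z, hh (a + C z) ∂stdGaussian (Vec d)) :=
          ((measurable_mixW C).mul (Measurable.lintegral_prod_right'
            (f := fun q : Vec d × Vec d => hh (q.1 + C q.2))
            (hhm.comp (measurable_fst.add (hCm.comp measurable_snd))))).const_mul _
        rw [lintegral_add_left (show Measurable fun a => mixW C a * ENNReal.ofReal (M' * δu)
            + mixW C a * ∫⁻ y, W a y ∂gw (child σ₀ a C) from m1.add m2), lintegral_add_left m1,
          lintegral_mul_const _ (measurable_mixW C), lintegral_mixW hρ0 hρ1 hC, one_mul,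
          lintegral_const_mul' _ _ ENNReal.ofReal_ne_top, lintegral_add_left m3,
          lintegral_const_mul' _ _ ENNReal.ofReal_ne_top, mix_gauss hρ0 hρ1 hC hhm,
          lintegral_const_mul' _ _ ENNReal.ofReal_ne_top, lintegral_add_left (hm hhm),
          ENNReal.ofReal_mul he₀, mul_assoc (ENNReal.ofReal e₀), mul_add (ENNReal.ofReal (√2 ^ d))]
        gcongr
        · calc ∫⁻ a, mixW C a * ∫⁻ y, W a y ∂gw (child σ₀ a C)
              ≤ ∫⁻ a, mixW C a * ∫⁻ y, (hh (a + C y) + ENNReal.ofReal e₀ * ff (a + C y))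
                  ∂gw (child σ₀ a C) := by
                gcongr with a y
                exact add_le_add
                  (mul_le_of_le_one_left zero_le (ENNReal.ofReal_le_one.2 (chi_le_one σ r y))) le_rfl
            _ = _ := by
                rw [mix_total σ₀ hρ0 hρ1 hC (f := fun g => hh g + ENNReal.ofReal e₀ * ff g)
                  (hhm.add (hfm.const_mul _)), lintegral_add_left hhm,
                  lintegral_const_mul' _ _ ENNReal.ofReal_ne_top]
        · exact mix_gauss_tilt hρ0 hρ1 hC hhm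
        · exact mix_gauss_tilt hρ0 hρ1 hC hfm

end childErr

end Vale.Agent.P309.Sharp
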