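import Vale.Agent.P309.Sharp.Weight
import Vale.Agent.P309.Sharp.Ends
import Vale.Agent.P309.Dynamics

/-! The recursion over phases and the sharp lower bound, from the bound on one phase. -/

namespace Vale.Agent.P309.Sharp

open MeasureTheory ProbabilityTheory Filter
open scoped RealInnerProductSpace Real ENNReal

variable {d N : ℕ}

/-- The bound on one phase at fixed dimension and scale. -/
def StepAt (C₀ X : ℝ) (d : ℕ) : Prop :=
    ∀ k : ℕ, k = d / 64 →
    ∀ N : ℕ, (N:ℝ) ≤ Real.exp (C₀ * d ^ 2) →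
    ∀ P : Piece d,
      (∀ P' : Piece d, P.ratio * Real.exp (-Gs C₀ X d) ≤ P'.ratio → 1 / P'.δ ^ 2 ≤ Real.exp d) →
    ∀ (B : (Fin k → Vec d) → (Fin k → ℝ) → Fin N → ℝ≥0∞),
      (∀ v, Measurable fun q : (Fin k → Vec d) × (Fin k → ℝ) => B q.1 q.2 v) →
      (∀ x y, ∑ v, B x y v ≤ 1) →
    ∀ (Ψ : Fin N → Vec d → ℝ≥0∞), (∀ v, Measurable (Ψ v)) → (∀ v u, Ψ v u ≤ 1) →
    ∀ Z : ℝ, 0 ≤ Z →
      (∀ P' : Piece d, P.ratio * Real.exp (-Gs C₀ X d) ≤ P'.ratio →
        ∀ (L : Vec d → ℝ) (W : ℝ), Wgt X P' L W → ∀ v,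
          ∫⁻ g, ENNReal.ofReal |L g| * Ψ v (P'.μ + P'.A g) ∂gw P'.base ≤ ENNReal.ofReal (W * Z)) →
    ∀ (L : Vec d → ℝ) (W : ℝ), Wgt X P L W →
      ∫⁻ g, ENNReal.ofReal |L g| * ∑ v, (∫⁻ x, B x (labels x (P.μ + P.A g)) v ∂rowsLaw d k)
          * Ψ v (P.μ + P.A g) ∂gw P.base
        ≤ ENNReal.ofReal (W * ((1 + Real.exp (-(5 * d))) * Z + Real.exp (-(5 * d))))

/-- The statement of the bound on one phase. -/
def StepBound (C₀ : ℝ) : Prop :=
    ∀ᶠ X : ℝ in atTop, ∀ᶠ d : ℕ in atTop, StepAt C₀ X d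

/-- The success probability from a state at a given time, for a given signal. -/
noncomputable def value (st : ℕ → Fin N → Vec d → ℝ → Fin N → ℝ≥0∞)
    (out : Fin N → Measure (Vec d)) (ε : ℝ) (k : ℕ) : ℕ → ℕ → Fin N → Vec d → ℝ≥0∞
  | 0, _, w, u => out w {o | ‖o - u‖ ≤ ε}
  | n + 1, a, w, u => ∑ v, (∫⁻ x, block st a w x (labels x u) v ∂rowsLaw d k)
      * value st out ε k n (a + k) v u

section

variable {st : ℕ → Fin N → Vec d → ℝ → Fin N → ℝ≥0∞} {out : Fin N → Measure (Vec d)} {ε : ℝ} {k : ℕ}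
  [∀ v, IsProbabilityMeasure (out v)]

omit [∀ v, IsProbabilityMeasure (out v)] in
lemma measurableSet_capPairs (ε : ℝ) : MeasurableSet {p : Vec d × Vec d | ‖p.2 - p.1‖ ≤ ε} :=
  measurableSet_le (measurable_norm.comp (measurable_snd.sub measurable_fst)) measurable_const

lemma measurable_value
    (hst : ∀ t w v, Measurable fun p : Vec d × ℝ => st t w p.1 p.2 v) :
    ∀ n a w, Measurable (value st out ε k n a w)
  | 0, a, w => measurable_measure_prodMk_left (measurableSet_capPairs ε)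
  | n + 1, a, w => by
    simp only [value]
    refine Finset.measurable_sum _ fun v _ => Measurable.mul ?_ (measurable_value hst n (a + k) v)
    have h := (measurable_block hst (j := k) a w v).comp
      (measurable_snd.prodMk (measurable_labels.comp (measurable_snd.prodMk measurable_fst)) :
        Measurable fun p : Vec d × (Fin k → Vec d) => (p.2, labels p.2 p.1))
    exact Measurable.lintegral_prod_right' (ν := rowsLaw d k) h

lemma value_le_one (hst : ∀ t w v, Measurable fun p : Vec d × ℝ => st t w p.1 p.2 v)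
    (h1 : ∀ t w x y, ∑ v, st t w x y v ≤ 1) : ∀ n a w u, value st out ε k n a w u ≤ 1
  | 0, a, w, u => prob_le_one
  | n + 1, a, w, u => by
    simp only [value]
    refine (Finset.sum_le_sum fun v _ => mul_le_of_le_one_right' (value_le_one hst h1 n (a + k) v u)).trans ?_
    rw [← lintegral_finsetSum]
    · exact (lintegral_mono fun x => block_sum_le h1 a w x _).trans (by simp)
    · intro v _
      have h := (measurable_block hst (j := k) a w v).comp
        (measurable_id.prodMk (measurable_labels.comp measurable_prodMk_right) :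
          Measurable fun x : Fin k → Vec d => (x, labels x u))
      exact h

omit [∀ v, IsProbabilityMeasure (out v)] in
lemma sum_law_value (hst : ∀ t w v, Measurable fun p : Vec d × ℝ => st t w p.1 p.2 v)
    (π₀ : Fin N → ℝ≥0∞) (u : Vec d) : ∀ n a,
    ∑ w, law π₀ st a u w * value st out ε k n a w u
      = ∑ v, law π₀ st (a + n * k) u v * out v {o | ‖o - u‖ ≤ ε}
  | 0, a => by simp [value]
  | n + 1, a => by
    rw [show a + (n + 1) * k = (a + k) + n * k by ring, ← sum_law_value hst π₀ u n (a + k)]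
    simp only [value, law_add hst π₀ k a, Finset.mul_sum, Finset.sum_mul]
    rw [Finset.sum_comm]
    exact Finset.sum_congr rfl fun v _ => Finset.sum_congr rfl fun w _ => by ring

/-- The recursion over phases. -/
theorem value_bound {C₀ X : ℝ} (hstep : StepAt C₀ X d)
    (hk : k = d / 64) (hN : (N:ℝ) ≤ Real.exp (C₀ * d ^ 2))
    (hst : ∀ t w v, Measurable fun p : Vec d × ℝ => st t w p.1 p.2 v)
    (h1 : ∀ t w x y, ∑ v, st t w x y v ≤ 1) {K : ℕ} {r : ℝ} (hr : 0 ≤ r) {Cap : ℝ} (hCap : 0 ≤ Cap)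
    (hG : 0 ≤ Gs C₀ X d)
    (hdel : ∀ P : Piece d, r * Real.exp (-((K:ℝ) * Gs C₀ X d)) ≤ P.ratio →
      1 / P.δ ^ 2 ≤ Real.exp d ∧
        ∀ o, gw P.base {g | ‖o - (P.μ + P.A g)‖ ≤ ε} ≤ ENNReal.ofReal Cap) :
    ∀ n, n ≤ K → ∀ P : Piece d, r * Real.exp (-(((K - n : ℕ) : ℝ) * Gs C₀ X d)) ≤ P.ratio →
      ∀ (L : Vec d → ℝ) (W : ℝ), Wgt X P L W → ∀ a w,
      ∫⁻ g, ENNReal.ofReal |L g| * value st out ε k n a w (P.μ + P.A g) ∂gw P.base
        ≤ ENNReal.ofReal (W * ((1 + Real.exp (-(5 * d))) ^ n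
            * (Real.exp (3 * X ^ 2 * d) * Cap + n * Real.exp (-(5 * d))))) := by
  set q := Real.exp (-(5 * (d:ℝ)))
  have hq : 0 < q := Real.exp_pos _
  have hmono : ∀ j : ℕ, j ≤ K → ∀ P : Piece d, r * Real.exp (-((j:ℝ) * Gs C₀ X d)) ≤ P.ratio →
      r * Real.exp (-((K:ℝ) * Gs C₀ X d)) ≤ P.ratio := by
    intro j hj P hP
    refine le_trans (mul_le_mul_of_nonneg_left (Real.exp_le_exp.2 ?_) hr) hP
    exact neg_le_neg (mul_le_mul_of_nonneg_right (by exact_mod_cast hj) hG)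
  intro n
  induction n with
  | zero =>
    intro _ P hP L W hL a w
    have hP' := hdel P (hmono _ (by omega) P hP)
    have hm : Measurable fun g => P.μ + P.A g := measurable_const.add (measurable_equiv P.A)
    have hS : MeasurableSet {p : Vec d × Vec d | ‖p.2 - (P.μ + P.A p.1)‖ ≤ ε} :=
      measurableSet_le (measurable_norm.comp (measurable_snd.sub (hm.comp measurable_fst)))
        measurable_const
    have hcap : ∫⁻ g, value st out ε k 0 a w (P.μ + P.A g) ∂gw P.base ≤ ENNReal.ofReal Cap := by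
      calc ∫⁻ g, value st out ε k 0 a w (P.μ + P.A g) ∂gw P.base
          = ((gw P.base).prod (out w)) {p | ‖p.2 - (P.μ + P.A p.1)‖ ≤ ε} := (Measure.prod_apply hS).symm
        _ = ∫⁻ o, gw P.base {g | ‖o - (P.μ + P.A g)‖ ≤ ε} ∂out w := Measure.prod_apply_symm hS
        _ ≤ ∫⁻ _, ENNReal.ofReal Cap ∂out w := lintegral_mono fun o => hP'.2 o
        _ = _ := by simp
    have hM : 0 ≤ Real.exp (3 * X ^ 2 * d) * W := mul_nonneg (Real.exp_pos _).le hL.nonneg
    calc ∫⁻ g, ENNReal.ofReal |L g| * value st out ε k 0 a w (P.μ + P.A g) ∂gw P.base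
        ≤ ∫⁻ g, ENNReal.ofReal (Real.exp (3 * X ^ 2 * d) * W)
            * value st out ε k 0 a w (P.μ + P.A g) ∂gw P.base :=
          lintegral_mono fun g => mul_le_mul_left (ENNReal.ofReal_le_ofReal (hL.band.abs_le g)) _
      _ ≤ ENNReal.ofReal (Real.exp (3 * X ^ 2 * d) * W) * ENNReal.ofReal Cap := by
          rw [lintegral_const_mul' _ _ ENNReal.ofReal_ne_top]
          exact mul_le_mul_right hcap _
      _ ≤ _ := by
          rw [← ENNReal.ofReal_mul hM]
          refine ENNReal.ofReal_le_ofReal (le_of_eq ?_)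
          push_cast
          ring
  | succ n ih =>
    intro hn P hP L W hL a w
    set Z := (1 + q) ^ n * (Real.exp (3 * X ^ 2 * d) * Cap + n * q)
    have hZ : 0 ≤ Z := by positivity
    have hsub : ∀ P' : Piece d, P.ratio * Real.exp (-Gs C₀ X d) ≤ P'.ratio →
        r * Real.exp (-(((K - n : ℕ) : ℝ) * Gs C₀ X d)) ≤ P'.ratio := by
      intro P' hP'
      refine le_trans (le_of_eq ?_) ((mul_le_mul_of_nonneg_right hP (Real.exp_pos _).le).trans hP')
      rw [show K - n = (K - (n + 1)) + 1 by omega, mul_assoc, ← Real.exp_add]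
      push_cast
      ring_nf
    have hS := hstep k hk N hN P
      (fun P' hP' => (hdel P' (hmono _ (by omega) P' (hsub P' hP'))).1)
      (fun x y v => block st a w x y v) (fun v => measurable_block hst a w v)
      (fun x y => block_sum_le h1 a w x y) (fun v => value st out ε k n (a + k) v)
      (fun v => measurable_value hst n _ v) (fun v u => value_le_one hst h1 n _ v u) Z hZ
      (fun P' hP' L' W' hL' v => ih (by omega) P' (hsub P' hP') L' W' hL' (a + k) v) L W hL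
    refine le_trans (le_of_eq ?_) (hS.trans (ENNReal.ofReal_le_ofReal ?_))
    · rfl
    · refine mul_le_mul_of_nonneg_left ?_ hL.nonneg
      have h := one_le_pow₀ (show (1:ℝ) ≤ 1 + q by linarith) (n := n + 1)
      have h2 := mul_le_mul_of_nonneg_right h hq.le
      simp only [Z]
      rw [pow_succ (1 + q) n] at h2 ⊢
      push_cast
      linarith

end

/-- The bound on the uniform mass of a cap. -/
lemma sphereLaw_cap_le (hd : 4 ≤ d) (o : Vec d) {ε : ℝ} (hε : 0 < ε) :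
    sphereLaw d {s | ‖o - s‖ ≤ ε} ≤ ENNReal.ofReal (2 * 3 ^ d * (3 * ε) ^ (d - 2)) := by
  obtain ⟨m, rfl⟩ : ∃ m, d = m + 2 := ⟨d - 2, by omega⟩
  have hS : MeasurableSet {s : Vec (m + 2) | ‖o - s‖ ≤ ε} := measurableSet_le (by fun_prop) measurable_const
  rw [← lintegral_indicator_one hS, sphereLaw, lintegral_map (measurable_one.indicator hS) (by fun_prop),
    Nat.add_sub_cancel]
  exact cap_le (by omega) o hε

/-- Reading a bound on `log (1/ε)` from a cap estimate. -/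
lemma log_cap_le (hd : 4 ≤ d) {ε R : ℝ} (hε : 0 < ε) (hR : 0 ≤ R)
    (h : (1:ℝ) / 3 ≤ Real.exp R * (3 * ε) ^ (d - 2)) :
    Real.log (1 / ε) ≤ 2 + 2 * (R + 2) / d := by
  have hdR : (4:ℝ) ≤ d := by exact_mod_cast hd
  have h2 := Real.log_le_log (by norm_num) h
  rw [Real.log_mul (Real.exp_pos _).ne' (by positivity), Real.log_exp, Real.log_pow,
    Real.log_mul (by norm_num) hε.ne', one_div, Real.log_inv, Nat.cast_sub (by omega)] at h2
  rw [one_div, Real.log_inv]
  have l3 : Real.log 3 ≤ 2 := by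
    linarith [Real.log_le_sub_one_of_pos (show (0:ℝ) < 3 by norm_num)]
  push_cast at h2
  by_cases h0 : -Real.log ε ≤ Real.log 3
  · have : 0 ≤ 2 * (R + 2) / (d:ℝ) := by positivity
    linarith
  · rw [not_le] at h0
    have h4 : (d:ℝ) / 2 * (-Real.log ε - Real.log 3) ≤ R + Real.log 3 := by
      have := mul_le_mul_of_nonneg_right (show (d:ℝ) / 2 ≤ (d:ℝ) - 2 by linarith)
        (show 0 ≤ -Real.log ε - Real.log 3 by linarith)
      linarith
    have h5 : -Real.log ε - Real.log 3 ≤ 2 * (R + 2) / d := by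
      rw [le_div_iff₀ (by linarith)]
      linarith
    linarith

/-- The dynamics padded by idle steps after the horizon. -/
noncomputable def pad (T : ℕ) (step : ℕ → Fin N → Vec d → ℝ → Fin N → ℝ) :
    ℕ → Fin N → Vec d → ℝ → Fin N → ℝ≥0∞ := fun t w x y v =>
  if t < T then ENNReal.ofReal (step t w x y v) else if w = v then 1 else 0

section

variable {T : ℕ} {init : Fin N → ℝ} {step : ℕ → Fin N → Vec d → ℝ → Fin N → ℝ}
  {out : Fin N → Measure (Vec d)} {ε : ℝ}

lemma measurable_pad (h : ∀ t w v, Measurable fun p : Vec d × ℝ => step t w p.1 p.2 v) :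
    ∀ t w v, Measurable fun p : Vec d × ℝ => pad T step t w p.1 p.2 v := by
  intro t w v
  by_cases ht : t < T
  · simp only [pad, if_pos ht]; exact (h t w v).ennreal_ofReal
  · simp only [pad, if_neg ht]; exact measurable_const

lemma pad_sum_le (h0 : ∀ t w x y v, 0 ≤ step t w x y v) (h1 : ∀ t w x y, ∑ v, step t w x y v = 1) :
    ∀ t w x y, ∑ v, pad T step t w x y v ≤ 1 := by
  intro t w x y
  by_cases h : t < T
  · simp only [pad, if_pos h]
    rw [← ENNReal.ofReal_sum_of_nonneg fun v _ => h0 t w x y v, h1, ENNReal.ofReal_one]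
  · simp [pad, if_neg h]

lemma stateLaw_le_law (hinit0 : ∀ v, 0 ≤ init v) (hstep0 : ∀ t w x y v, 0 ≤ step t w x y v) :
    ∀ t, t ≤ T → ∀ s v, 0 ≤ stateLaw init step t s v ∧
      ENNReal.ofReal (stateLaw init step t s v)
        ≤ law (fun v => ENNReal.ofReal (init v)) (pad T step) t s v := by
  intro t
  induction t with
  | zero => intro _ s v; exact ⟨hinit0 v, le_rfl⟩
  | succ t ih =>
    intro ht s v
    have hi := ih (by omega) s
    have hnn : ∀ w, 0 ≤ ∫ x, step t w x ⟪x, s⟫ v ∂rowLaw d :=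
      fun w => integral_nonneg fun x => hstep0 _ _ _ _ _
    simp only [stateLaw, law]
    refine ⟨Finset.sum_nonneg fun w _ => mul_nonneg (hi w).1 (hnn w), ?_⟩
    rw [ENNReal.ofReal_sum_of_nonneg fun w _ => mul_nonneg (hi w).1 (hnn w)]
    refine Finset.sum_le_sum fun w _ => ?_
    rw [ENNReal.ofReal_mul (hi w).1]
    refine mul_le_mul' (hi w).2 ?_
    rw [← Real.enorm_of_nonneg (hnn w)]
    refine le_trans (enorm_integral_le_lintegral_enorm _) (le_of_eq (lintegral_congr fun x => ?_))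
    simp only [pad, if_pos (show t < T by omega)]
    exact Real.enorm_of_nonneg (hstep0 _ _ _ _ _)

lemma success_le_law (hinit0 : ∀ v, 0 ≤ init v) (hstep0 : ∀ t w x y v, 0 ≤ step t w x y v)
    (hstepm : ∀ t w v, Measurable fun p : Vec d × ℝ => step t w p.1 p.2 v)
    [∀ v, IsProbabilityMeasure (out v)] (hε1 : ε < 1) :
    ENNReal.ofReal (successProb init step out T ε)
      ≤ ∫⁻ s, ∑ v, law (fun v => ENNReal.ofReal (init v)) (pad T step) T s v
          * out v {o | ‖o - s‖ ≤ ε} ∂sphereLaw d := by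
  have hcmp := stateLaw_le_law (T := T) hinit0 hstep0
  have hst := measurable_pad (T := T) hstepm
  have hnm : Measurable fun g : Vec d => ‖g‖⁻¹ • g := by fun_prop
  have hout' : ∀ v, Measurable fun s => out v {o | ‖o - s‖ ≤ ε} := fun v =>
    measurable_measure_prodMk_left (measurableSet_capPairs ε)
  set π₀ : Fin N → ℝ≥0∞ := fun v => ENNReal.ofReal (init v)
  set st := pad T step
  have hnn : ∀ s, 0 ≤ ∑ v, stateLaw init step T s v
      * (out v {o | ‖o‖ = 1 ∧ Real.arccos ⟪o, s⟫ ≤ ε}).toReal :=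
    fun s => Finset.sum_nonneg fun v _ => mul_nonneg (hcmp T le_rfl s v).1 ENNReal.toReal_nonneg
  unfold successProb
  rw [← Real.enorm_of_nonneg (integral_nonneg hnn)]
  refine (enorm_integral_le_lintegral_enorm _).trans ?_
  unfold sphereLaw
  rw [lintegral_map (f := fun s => ∑ v, law π₀ st T s v * out v {o | ‖o - s‖ ≤ ε})
    (Finset.measurable_sum _ fun v _ => (measurable_law hst π₀ T v).mul (hout' v)) hnm]
  refine le_trans (lintegral_map_le _ _) (lintegral_mono fun g => ?_)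
  simp only
  rw [Real.enorm_of_nonneg (hnn _), ENNReal.ofReal_sum_of_nonneg fun v _ =>
    mul_nonneg (hcmp T le_rfl _ v).1 ENNReal.toReal_nonneg]
  refine Finset.sum_le_sum fun v _ => ?_
  rw [ENNReal.ofReal_mul (hcmp T le_rfl _ v).1]
  refine mul_le_mul' (hcmp T le_rfl _ v).2 (ENNReal.ofReal_toReal_le.trans (measure_mono ?_))
  rintro o ⟨ho, ho'⟩
  exact norm_sub_le_of_arccos hε1 ho ho'

end

section

variable {st : ℕ → Fin N → Vec d → ℝ → Fin N → ℝ≥0∞} {π₀ : Fin N → ℝ≥0∞}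
  {out : Fin N → Measure (Vec d)} {ε : ℝ} {T : ℕ} [∀ v, IsProbabilityMeasure (out v)]

/-- With few states some success forces a coarse accuracy. -/
lemma log_le_of_states {C : ℝ} (hC : 1 ≤ C) (hd : 128 ≤ d)
    (hN' : (N:ℝ) ≤ Real.exp (C * (d:ℝ) ^ 2))
    (hst : ∀ t w v, Measurable fun p : Vec d × ℝ => st t w p.1 p.2 v)
    (h1 : ∀ t w x y, ∑ v, st t w x y v ≤ 1) (hπ₀ : ∑ v, π₀ v ≤ 1) (hε : 0 < ε)
    (hmain : ENNReal.ofReal (2/3)
      ≤ ∫⁻ s, ∑ v, law π₀ st T s v * out v {o | ‖o - s‖ ≤ ε} ∂sphereLaw d) :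
    Real.log (1 / ε) ≤ (2 * C + 9) * d := by
  have hdR : (128:ℝ) ≤ d := by exact_mod_cast hd
  have hout' : ∀ v, Measurable fun s => out v {o | ‖o - s‖ ≤ ε} := fun v =>
    measurable_measure_prodMk_left (measurableSet_capPairs ε)
  have hcapN : ENNReal.ofReal (2/3)
      ≤ ENNReal.ofReal (Real.exp (C * (d:ℝ) ^ 2) * (2 * 3 ^ d * (3 * ε) ^ (d - 2))) := by
    refine hmain.trans ?_
    calc ∫⁻ s, ∑ v, law π₀ st T s v * out v {o | ‖o - s‖ ≤ ε} ∂sphereLaw d
        ≤ ∫⁻ s, ∑ v, out v {o | ‖o - s‖ ≤ ε} ∂sphereLaw d := by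
          refine lintegral_mono fun s => Finset.sum_le_sum fun v _ => mul_le_of_le_one_left' ?_
          exact (Finset.single_le_sum (fun i _ => (zero_le : (0:ℝ≥0∞) ≤ law π₀ st T s i))
            (Finset.mem_univ v)).trans (law_sum_le hst h1 hπ₀ T s)
      _ = ∑ v, ∫⁻ s, out v {o | ‖o - s‖ ≤ ε} ∂sphereLaw d := lintegral_finsetSum _ fun v _ => hout' v
      _ ≤ ∑ _v : Fin N, ENNReal.ofReal (2 * 3 ^ d * (3 * ε) ^ (d - 2)) := by
          refine Finset.sum_le_sum fun v _ => ?_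
          have : SFinite (sphereLaw d) := by unfold sphereLaw; infer_instance
          calc ∫⁻ s, out v {o | ‖o - s‖ ≤ ε} ∂sphereLaw d
              = ((sphereLaw d).prod (out v)) {p | ‖p.2 - p.1‖ ≤ ε} :=
                (Measure.prod_apply (measurableSet_capPairs ε)).symm
            _ = ∫⁻ o, sphereLaw d {s | ‖o - s‖ ≤ ε} ∂out v :=
                Measure.prod_apply_symm (measurableSet_capPairs ε)
            _ ≤ ∫⁻ _, ENNReal.ofReal (2 * 3 ^ d * (3 * ε) ^ (d - 2)) ∂out v :=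
                lintegral_mono fun o => sphereLaw_cap_le (by omega) o hε
            _ = _ := by simp
      _ ≤ _ := by
          rw [Finset.sum_const, Finset.card_univ, Fintype.card_fin, nsmul_eq_mul,
            ← ENNReal.ofReal_natCast N, ← ENNReal.ofReal_mul (Nat.cast_nonneg N)]
          exact ENNReal.ofReal_le_ofReal (mul_le_mul_of_nonneg_right hN' (by positivity))
  rw [ENNReal.ofReal_le_ofReal_iff (by positivity)] at hcapN
  have hR : (1:ℝ) / 3 ≤ Real.exp (C * (d:ℝ) ^ 2 + 2 * d + 1) * (3 * ε) ^ (d - 2) := by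
    refine le_trans (by linarith) (hcapN.trans ?_)
    rw [← mul_assoc]
    refine mul_le_mul_of_nonneg_right ?_ (by positivity)
    rw [show C * (d:ℝ) ^ 2 + 2 * d + 1 = C * (d:ℝ) ^ 2 + (1 + d * 2) by ring,
      Real.exp_add (C * (d:ℝ) ^ 2), Real.exp_add 1, Real.exp_nat_mul]
    refine mul_le_mul_of_nonneg_left (mul_le_mul ?_ ?_ (by positivity) (Real.exp_pos _).le)
      (Real.exp_pos _).le
    · linarith [Real.add_one_le_exp (1:ℝ)]
    · exact pow_le_pow_left₀ (by norm_num) (by linarith [Real.add_one_le_exp (2:ℝ)]) d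
  have hLd := log_cap_le (by omega) hε (by positivity) hR
  refine hLd.trans ?_
  rw [← le_sub_iff_add_le', div_le_iff₀ (by linarith)]
  nlinarith

omit [∀ v, IsProbabilityMeasure (out v)] in
lemma piece_small {C X : ℝ} {K : ℕ} (hd : 128 ≤ d) (hG0 : 0 ≤ Gs C X d) (hKG : (K:ℝ) * Gs C X d ≤ (d:ℝ) ^ 2 / 40)
    (hPB : ∀ (P : Piece d) (G : ℝ), 0 ≤ G → Real.exp (-G) * (√(d:ℝ) ^ (d - ntop d))⁻¹ ≤ P.ratio →
      1 / P.δ ^ 2 ≤ d * Real.exp (10 * G / d) ∧
      ∀ (o : Vec d) (ε : ℝ), 0 < ε →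
        gw P.base {g | ‖o - (P.μ + P.A g)‖ ≤ ε}
          ≤ ENNReal.ofReal (Real.exp (6 * G + 6 * d) * (3 * ε) ^ (d - 2))) (hε : 0 < ε)
    (P' : Piece d) (hP' : (√(d:ℝ) ^ (d - ntop d))⁻¹ * Real.exp (-((K:ℝ) * Gs C X d)) ≤ P'.ratio) :
    1 / P'.δ ^ 2 ≤ Real.exp d ∧ ∀ o, gw P'.base {g | ‖o - (P'.μ + P'.A g)‖ ≤ ε}
      ≤ ENNReal.ofReal (Real.exp (6 * ((K:ℝ) * Gs C X d) + 6 * d) * (3 * ε) ^ (d - 2)) := by
  have hdR : (128:ℝ) ≤ d := by exact_mod_cast hd
  have hPB' := hPB P' ((K:ℝ) * Gs C X d) (by positivity) (by rw [mul_comm]; exact hP')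
  refine ⟨hPB'.1.trans ?_, fun o => hPB'.2 o ε hε⟩
  have h1 : 10 * ((K:ℝ) * Gs C X d) / d ≤ d / 2 := by
    rw [div_le_iff₀ (by linarith)]
    nlinarith
  have h2 : (d:ℝ) ≤ Real.exp (d / 2) := by
    nlinarith [Real.quadratic_le_exp_of_nonneg (show (0:ℝ) ≤ d / 2 by positivity)]
  calc (d:ℝ) * Real.exp (10 * ((K:ℝ) * Gs C X d) / d) ≤ Real.exp (d / 2) * Real.exp (d / 2) :=
        mul_le_mul h2 (Real.exp_le_exp.2 h1) (Real.exp_pos _).le (Real.exp_pos _).le
    _ = _ := by rw [← Real.exp_add]; ring_nf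

/-- The recursion from the root. -/
lemma success_le_phases {C X : ℝ} {k K : ℕ} (hX : 1 ≤ X) (hd : 128 ≤ d) (hSd : StepAt C X d)
    (hPB : ∀ (P : Piece d) (G : ℝ), 0 ≤ G → Real.exp (-G) * (√(d:ℝ) ^ (d - ntop d))⁻¹ ≤ P.ratio →
      1 / P.δ ^ 2 ≤ d * Real.exp (10 * G / d) ∧
      ∀ (o : Vec d) (ε : ℝ), 0 < ε →
        gw P.base {g | ‖o - (P.μ + P.A g)‖ ≤ ε}
          ≤ ENNReal.ofReal (Real.exp (6 * G + 6 * d) * (3 * ε) ^ (d - 2)))
    (hkdef : k = d / 64) (hN' : (N:ℝ) ≤ Real.exp (C * (d:ℝ) ^ 2))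
    (hst : ∀ t w v, Measurable fun p : Vec d × ℝ => st t w p.1 p.2 v)
    (h1 : ∀ t w x y, ∑ v, st t w x y v ≤ 1) (hπ₀ : ∑ v, π₀ v ≤ 1) (hε : 0 < ε)
    (hidle : ∀ t, T ≤ t → ∀ w x y v, st t w x y v = if w = v then 1 else 0) (hK1 : T ≤ K * k)
    (hG0 : 0 ≤ Gs C X d) (hKG : (K:ℝ) * Gs C X d ≤ (d:ℝ) ^ 2 / 40)
    (hmain : ENNReal.ofReal (2/3)
      ≤ ∫⁻ s, ∑ v, law π₀ st T s v * out v {o | ‖o - s‖ ≤ ε} ∂sphereLaw d) :
    ENNReal.ofReal (2/3) ≤ ENNReal.ofReal (Real.exp (3 * d) * ((1 + Real.exp (-(5 * d : ℝ))) ^ K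
      * (Real.exp (3 * X ^ 2 * d) * (Real.exp (6 * ((K:ℝ) * Gs C X d) + 6 * d) * (3 * ε) ^ (d - 2))
        + K * Real.exp (-(5 * d : ℝ))))) := by
  have hdR : (128:ℝ) ≤ d := by exact_mod_cast hd
  obtain ⟨P, hP, hroot⟩ := exists_root (d := d) (by omega)
  set r := (√(d:ℝ) ^ (d - ntop d))⁻¹
  set Cap := Real.exp (6 * ((K:ℝ) * Gs C X d) + 6 * d) * (3 * ε) ^ (d - 2)
  have hdel : ∀ P : Piece d, r * Real.exp (-((K:ℝ) * Gs C X d)) ≤ P.ratio →
      1 / P.δ ^ 2 ≤ Real.exp d ∧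
        ∀ o, gw P.base {g | ‖o - (P.μ + P.A g)‖ ≤ ε} ≤ ENNReal.ofReal Cap :=
    fun P' hP' => piece_small hd hG0 hKG hPB hε P' hP'
  have hP0 : r * Real.exp (-(((K - K : ℕ) : ℝ) * Gs C X d)) ≤ P.ratio := by simpa using hP
  have hPd : 1 / P.δ ^ 2 ≤ Real.exp d :=
    (hdel P (le_trans (mul_le_of_le_one_right (by positivity)
      (Real.exp_le_one_iff.2 (neg_nonpos.2 (by positivity)))) hP)).1
  have hW : Wgt X P (fun _ => 1) 1 := by
    refine ⟨zero_le_one, (Band.const 1 (by positivity)).mono le_rfl ?_ (by positivity), ?_, ?_⟩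
    · rw [abs_one, mul_one]; exact Real.one_le_exp (by positivity)
    · simp
    · simp only [abs_one, ENNReal.ofReal_one, lintegral_one, mul_one]
      refine (P.base_spec (by omega)).dec.1.trans (ENNReal.ofReal_le_ofReal (hPd.trans ?_))
      exact Real.exp_le_exp.2 (by nlinarith)
  have hrec := value_bound (out := out) (ε := ε) hSd hkdef hN' hst h1 (by positivity)
    (show 0 ≤ Cap by positivity) hG0 hdel K le_rfl P hP0 _ 1 hW
  set Z := (1 + Real.exp (-(5 * d : ℝ))) ^ K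
    * (Real.exp (3 * X ^ 2 * d) * Cap + K * Real.exp (-(5 * d : ℝ)))
  refine hmain.trans ?_
  have hpad : ∀ s v, law π₀ st (K * k) s v = law π₀ st T s v := fun s v =>
    law_padded π₀ hidle (K * k) hK1 s v
  have hval : ∀ s, ∑ v, law π₀ st T s v * out v {o | ‖o - s‖ ≤ ε}
      = ∑ w, π₀ w * value st out ε k K 0 w s := by
    intro s
    have := sum_law_value (out := out) (ε := ε) (k := k) hst π₀ s K 0
    simp only [Nat.zero_add, law, hpad] at this
    exact this.symm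
  simp only [hval]
  refine (hroot _ (Finset.measurable_sum _ fun w _ =>
    (measurable_value hst K 0 w).const_mul _)).trans ?_
  rw [ENNReal.ofReal_mul (Real.exp_pos _).le]
  refine mul_le_mul_right ?_ _
  have hmv : ∀ w, Measurable fun g => value st out ε k K 0 w (P.μ + P.A g) := fun w =>
    (measurable_value hst K 0 w).comp (measurable_const.add (measurable_equiv P.A))
  rw [lintegral_finsetSum _ fun w _ => (hmv w).const_mul _]
  calc ∑ w, ∫⁻ g, π₀ w * value st out ε k K 0 w (P.μ + P.A g) ∂gw P.base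
      ≤ ∑ w, π₀ w * ENNReal.ofReal Z := by
        refine Finset.sum_le_sum fun w _ => ?_
        rw [lintegral_const_mul _ (hmv w)]
        refine mul_le_mul_right ?_ _
        simpa using hrec 0 w
    _ ≤ 1 * ENNReal.ofReal Z := by
        rw [← Finset.sum_mul]
        exact mul_le_mul_left hπ₀ _
    _ = _ := one_mul _

end

/-- The arithmetic after the recursion. -/
lemma log_le_phases {X A ε : ℝ} {d K : ℕ} (hd : 128 ≤ d) (hX : 1 ≤ X) (hA : 0 ≤ A) (hε : 0 < ε)
    (hKd : (K:ℝ) ≤ d)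
    (h : (2:ℝ) / 3 ≤ Real.exp (3 * d) * ((1 + Real.exp (-(5 * d : ℝ))) ^ K
      * (Real.exp (3 * X ^ 2 * d) * (Real.exp (6 * ((K:ℝ) * (A * d)) + 6 * d) * (3 * ε) ^ (d - 2))
        + K * Real.exp (-(5 * d : ℝ))))) :
    Real.log (1 / ε) ≤ 28 + 6 * X ^ 2 + 12 * A * K := by
  have hdR : (128:ℝ) ≤ d := by exact_mod_cast hd
  set q := Real.exp (-(5 * d : ℝ))
  have hq : 0 < q := Real.exp_pos _
  have hdq : (d:ℝ) * q ≤ Real.exp (-(4 * d)) := by
    calc (d:ℝ) * q ≤ Real.exp d * q :=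
          mul_le_mul_of_nonneg_right (by linarith [Real.add_one_le_exp (d:ℝ)]) hq.le
      _ = _ := by simp only [q]; rw [← Real.exp_add]; ring_nf
  have hpow : (1 + q) ^ K ≤ Real.exp 1 := by
    calc (1 + q) ^ K ≤ Real.exp q ^ K :=
          pow_le_pow_left₀ (by positivity) (by linarith [Real.add_one_le_exp q]) K
      _ = Real.exp (K * q) := by rw [← Real.exp_nat_mul]
      _ ≤ _ := Real.exp_le_exp.2 ((mul_le_mul_of_nonneg_right hKd hq.le).trans
          (hdq.trans (Real.exp_le_one_iff.2 (by linarith))))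
  set Cap := Real.exp (6 * ((K:ℝ) * (A * d)) + 6 * d) * (3 * ε) ^ (d - 2)
  set Z := (1 + q) ^ K * (Real.exp (3 * X ^ 2 * d) * Cap + K * q)
  have hsmall : Real.exp (3 * d) * (Real.exp 1 * (K * q)) ≤ 1 / 3 := by
    calc Real.exp (3 * d) * (Real.exp 1 * (K * q))
        ≤ Real.exp (3 * d) * (Real.exp 1 * Real.exp (-(4 * d))) := by
          gcongr
          exact (mul_le_mul_of_nonneg_right hKd hq.le).trans hdq
      _ = Real.exp (-((d:ℝ) - 1)) := by rw [← Real.exp_add, ← Real.exp_add]; ring_nf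
      _ ≤ _ := by
          rw [Real.exp_neg, one_div]
          exact inv_anti₀ (by norm_num) (by linarith [Real.add_one_le_exp ((d:ℝ) - 1)])
  set R := 10 * (d:ℝ) + 3 * X ^ 2 * d + 6 * ((K:ℝ) * (A * d))
  have hR0 : 0 ≤ R := by positivity
  have hR : (1:ℝ) / 3 ≤ Real.exp R * (3 * ε) ^ (d - 2) := by
    have h4 : Real.exp (3 * d) * Z ≤ Real.exp (3 * d) * (Real.exp 1 * (Real.exp (3 * X ^ 2 * d) * Cap))
        + Real.exp (3 * d) * (Real.exp 1 * (K * q)) := by
      rw [← mul_add, ← mul_add]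
      exact mul_le_mul_of_nonneg_left (mul_le_mul_of_nonneg_right hpow (by positivity)) (Real.exp_pos _).le
    have h5 : Real.exp (3 * d) * (Real.exp 1 * (Real.exp (3 * X ^ 2 * d) * Cap))
        ≤ Real.exp R * (3 * ε) ^ (d - 2) := by
      simp only [Cap, ← mul_assoc, ← Real.exp_add]
      refine mul_le_mul_of_nonneg_right (Real.exp_le_exp.2 ?_) (by positivity)
      simp only [R]
      linarith
    linarith
  refine (log_cap_le (by omega) hε hR0 hR).trans ?_
  rw [← le_sub_iff_add_le', div_le_iff₀ (by linarith)]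
  simp only [R]
  nlinarith

/-- The sharp bound, given the bound on one phase. -/
theorem sharp_bound (hstep : ∀ C₀ : ℝ, 1 ≤ C₀ → StepBound C₀) :
    ∀ C₀ : ℝ, 0 < C₀ → ∃ c : ℝ, 0 < c ∧ ∃ ε₀ : ℝ, 0 < ε₀ ∧ ∃ d₀ : ℕ, ∀ d : ℕ, d₀ ≤ d →
    ∀ N T : ℕ, (N:ℝ) ≤ 2 ^ (C₀ * (d:ℝ) ^ 2) →
    ∀ (init : Fin N → ℝ) (step : ℕ → Fin N → EuclideanSpace ℝ (Fin d) → ℝ → Fin N → ℝ)
      (out : Fin N → Measure (EuclideanSpace ℝ (Fin d))),
    (∀ v, 0 ≤ init v) → ∑ v, init v = 1 →
    (∀ t w x y v, 0 ≤ step t w x y v) → (∀ t w x y, ∑ v, step t w x y v = 1) →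
    (∀ t w v, Measurable fun p : EuclideanSpace ℝ (Fin d) × ℝ => step t w p.1 p.2 v) →
    (∀ v, IsProbabilityMeasure (out v)) →
    ∀ ε : ℝ, 0 < ε → ε ≤ ε₀ → 2 / 3 ≤ successProb init step out T ε →
    c * (d:ℝ) * Real.log (1 / ε) ≤ (T:ℝ) := by
  intro C₀ hC₀
  set C := max C₀ 1
  have hC1 : 1 ≤ C := le_max_right _ _
  obtain ⟨X, hS, hX⟩ := ((hstep C hC1).and (eventually_ge_atTop (1:ℝ))).exists
  set a : ℝ := 4 * X ^ 4 + 2 * gP C with ha
  have ha1 : 1 ≤ a := by
    have : 0 ≤ X ^ 4 := by positivity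
    simp only [a, gP]
    linarith
  set η : ℝ := (40 * a)⁻¹
  have hη : 0 < η := by positivity
  set C2 : ℝ := 28 + 6 * X ^ 2
  obtain ⟨d₁, hd₁⟩ := eventually_atTop.1 (hS.and piece_bounds)
  set d₀ := max d₁ (max 128 ⌈2 / η⌉₊)
  set c₁ : ℝ := (128 * 24 * a)⁻¹
  set c₂ : ℝ := η / (256 * (2 * C + 9))
  refine ⟨min c₁ c₂, lt_min (by positivity) (by positivity),
    Real.exp (-(2 * (C2 + 12 * a))), Real.exp_pos _, d₀, ?_⟩
  intro d hd N T hN init step out hinit0 hinit1 hstep0 hstep1 hstepm hout ε hε hεle hsucc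
  have hd1 : d₁ ≤ d := (le_max_left _ _).trans hd
  have hd128 : 128 ≤ d := (le_max_left _ _).trans ((le_max_right _ _).trans hd)
  have hdη : 2 / η ≤ (d:ℝ) := (Nat.le_ceil _).trans
    (by exact_mod_cast (le_max_right _ _).trans ((le_max_right _ _).trans hd))
  obtain ⟨hSd, hPB⟩ := hd₁ d hd1
  have hdR : (128:ℝ) ≤ d := by exact_mod_cast hd128
  set L := Real.log (1 / ε) with hLdef
  have hL : 2 * (C2 + 12 * a) ≤ L := by
    rw [hLdef, one_div, Real.log_inv]
    have := Real.log_le_log hε hεle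
    rw [Real.log_exp] at this
    linarith
  have hC2 : 28 ≤ C2 := by simp only [C2]; nlinarith
  have hL0 : 0 ≤ L := by linarith
  have hε1 : ε < 1 := lt_of_le_of_lt hεle (Real.exp_lt_one_iff.2 (by linarith))
  have hN' : (N:ℝ) ≤ Real.exp (C * (d:ℝ) ^ 2) := by
    refine hN.trans ?_
    rw [Real.rpow_def_of_pos (by norm_num)]
    refine Real.exp_le_exp.2 ?_
    have l2 : Real.log 2 ≤ 1 := by linarith [Real.log_le_sub_one_of_pos (show (0:ℝ) < 2 by norm_num)]
    calc Real.log 2 * (C₀ * (d:ℝ) ^ 2) ≤ 1 * (C₀ * (d:ℝ) ^ 2) :=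
          mul_le_mul_of_nonneg_right l2 (by positivity)
      _ ≤ _ := by
          rw [one_mul]
          exact mul_le_mul_of_nonneg_right (le_max_left _ _) (sq_nonneg _)
  have hout1 : ∀ v, IsProbabilityMeasure (out v) := hout
  have hst := measurable_pad (T := T) hstepm
  have h1 := pad_sum_le (T := T) hstep0 hstep1
  have hπ₀ : ∑ v, ENNReal.ofReal (init v) ≤ 1 := by
    rw [← ENNReal.ofReal_sum_of_nonneg fun v _ => hinit0 v, hinit1, ENNReal.ofReal_one]
  have hmain := (ENNReal.ofReal_le_ofReal hsucc).trans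
    (success_le_law (T := T) hinit0 hstep0 hstepm hε1)
  set k := d / 64 with hkdef
  have hk1 : 1 ≤ k := by omega
  have hkR : (d:ℝ) ≤ 128 * k := by
    have : d ≤ 128 * k := by omega
    exact_mod_cast this
  obtain ⟨K, hK1, hK2⟩ : ∃ K, T ≤ K * k ∧ K * k ≤ T + k - 1 := by
    refine ⟨(T + k - 1) / k, ?_, Nat.div_mul_le_self _ _⟩
    have h := Nat.lt_div_mul_add (a := T + k - 1) hk1
    omega
  have hK2' : ((K:ℝ) - 1) * k ≤ T := by
    have : ((K * k : ℕ) : ℝ) ≤ ((T + k : ℕ) : ℝ) := by exact_mod_cast (show K * k ≤ T + k by omega)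
    push_cast at this
    linarith
  have hd0 : (0:ℝ) ≤ d := Nat.cast_nonneg d
  by_cases hcase : (K:ℝ) ≤ η * d
  swap
  · -- many samples
    rw [not_le] at hcase
    have hηd : 2 ≤ η * d := by
      rw [div_le_iff₀ hη] at hdη
      linarith
    have hT : η * (d:ℝ) ^ 2 / 256 ≤ T := by
      refine le_trans ?_ hK2'
      have h3 : η * d / 2 * ((d:ℝ) / 128) ≤ ((K:ℝ) - 1) * k :=
        mul_le_mul (by linarith) (by linarith) (by positivity) (by linarith)
      linarith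
    have hLd' : L ≤ (2 * C + 9) * d := log_le_of_states hC1 hd128 hN' hst h1 hπ₀ hε hmain
    calc min c₁ c₂ * (d:ℝ) * L ≤ c₂ * (d:ℝ) * ((2 * C + 9) * d) :=
          mul_le_mul (mul_le_mul_of_nonneg_right (min_le_right _ _) hd0) hLd' hL0 (by positivity)
      _ = η * (d:ℝ) ^ 2 / 256 := by simp only [c₂]; field_simp
      _ ≤ _ := hT
  have hGs : Gs C X d = a * d := rfl
  have hG0 : 0 ≤ Gs C X d := by rw [hGs]; positivity
  have hKG : (K:ℝ) * Gs C X d ≤ (d:ℝ) ^ 2 / 40 := by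
    rw [hGs]
    refine (mul_le_mul_of_nonneg_right hcase (by positivity)).trans (le_of_eq ?_)
    simp only [η]
    field_simp
  have hKd : (K:ℝ) ≤ d := hcase.trans (mul_le_of_le_one_left hd0 (by
    simp only [η]; exact inv_le_one_of_one_le₀ (by linarith)))
  have h23 := success_le_phases hX hd128 hSd hPB hkdef hN' hst h1 hπ₀ hε
    (fun t ht w x y v => by simp only [pad, if_neg (not_lt.2 ht)]) hK1 hG0 hKG hmain
  rw [ENNReal.ofReal_le_ofReal_iff (by positivity)] at h23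
  have hLK : L ≤ C2 + 12 * a * K := by
    rw [hGs] at h23
    exact log_le_phases hd128 hX (by linarith) hε hKd h23
  have hK3 : L / (24 * a) ≤ (K:ℝ) - 1 := by
    rw [div_le_iff₀ (by positivity)]
    linarith
  calc min c₁ c₂ * (d:ℝ) * L ≤ c₁ * (d:ℝ) * L :=
        mul_le_mul_of_nonneg_right (mul_le_mul_of_nonneg_right (min_le_left _ _) hd0) hL0
    _ = L / (24 * a) * ((d:ℝ) / 128) := by simp only [c₁]; field_simp
    _ ≤ ((K:ℝ) - 1) * k := mul_le_mul hK3 (by linarith) (by positivity)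
        (le_trans (by positivity) hK3)
    _ ≤ _ := hK2'

end Vale.Agent.P309.Sharp
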