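import Vale.Agent.P309.Sharp.Err

/-! The low part of a node. -/

namespace Vale.Agent.P309.Sharp

open MeasureTheory ProbabilityTheory
open scoped RealInnerProductSpace Real ENNReal

variable {d : ℕ}

/-- The signal window. -/
def farSet (d : ℕ) (Rc : ℝ) : Set (Vec d) := {g | Rc ^ 2 ≤ ‖g‖ ^ 2}

lemma measurableSet_farSet (d : ℕ) (Rc : ℝ) : MeasurableSet (farSet d Rc) :=
  measurableSet_le measurable_const (by fun_prop)

/-- A function cut to the signal window. -/
noncomputable def nearPart (Rc : ℝ) (F : Vec d → ℝ) : Vec d → ℝ := (farSet d Rc)ᶜ.indicator F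

/-- A function cut away from the signal window. -/
noncomputable def farPart (Rc : ℝ) (F : Vec d → ℝ) : Vec d → ℝ := (farSet d Rc).indicator F

/-- The low part. -/
noncomputable def lowFn {i : ℕ} (W : Fin i → Vec d) (RW Rc : ℝ) (F : Vec d → ℝ) : Vec d → ℝ :=
  smooth W RW (nearPart Rc F)

variable {F : Vec d → ℝ} {Rc : ℝ}

lemma integrable_nearPart (hF : Measurable F) (hF1 : ∀ g, |F g| ≤ 1) : Integrable (nearPart Rc F) := by
  refine (integrable_indicator_iff (measurableSet_farSet d Rc).compl).2 ?_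
  have hsub : (farSet d Rc)ᶜ ⊆ Metric.closedBall (0 : Vec d) |Rc| := by
    intro g hg
    have h : ‖g‖ ^ 2 < Rc ^ 2 := not_le.1 hg
    have := sq_lt_sq.1 h
    rw [abs_norm] at this
    simpa using this.le
  refine IntegrableOn.mono_set ?_ hsub
  exact (integrableOn_const (C := (1:ℝ)) measure_closedBall_lt_top.ne).mono'
    hF.aestronglyMeasurable (ae_of_all _ hF1)

lemma integral_nearPart_sum_le {ι : Type*} [Fintype ι] (G : ι → Vec d → ℝ) (hG : ∀ t, Measurable (G t))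
    (hG0 : ∀ t g, 0 ≤ G t g) (hG1 : ∀ g, ∑ t, G t g ≤ 1) :
    ∑ t, ∫ g, |nearPart Rc (G t) g| ≤ volume.real (Metric.closedBall (0 : Vec d) |Rc|) := by
  have h1 : ∀ t g, |G t g| ≤ 1 := fun t g => by
    rw [abs_of_nonneg (hG0 t g)]
    exact (Finset.single_le_sum (fun u _ => hG0 u g) (Finset.mem_univ t)).trans (hG1 g)
  rw [← integral_finsetSum _ fun t _ => (integrable_nearPart (hG t) (h1 t)).abs]
  refine (integral_mono (integrable_finsetSum _ fun t _ => (integrable_nearPart (hG t) (h1 t)).abs)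
    (g := (Metric.closedBall (0 : Vec d) |Rc|).indicator fun _ => (1:ℝ))
    ((integrable_indicator_iff measurableSet_closedBall).2
      (integrableOn_const (C := (1:ℝ)) measure_closedBall_lt_top.ne)) fun g => ?_).trans ?_
  · by_cases hg : g ∈ (farSet d Rc)ᶜ
    · have h : ‖g‖ ^ 2 < Rc ^ 2 := not_le.1 hg
      have h' := sq_lt_sq.1 h
      rw [abs_norm] at h'
      simp only [nearPart, Set.indicator_of_mem hg, abs_of_nonneg (hG0 _ g)]
      rw [Set.indicator_of_mem (by simpa using h'.le)]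
      exact hG1 g
    · simp only [nearPart, Set.indicator_of_notMem hg, abs_zero, Finset.sum_const_zero]
      exact Set.indicator_nonneg (fun _ _ => zero_le_one) g
  · rw [integral_indicator measurableSet_closedBall]
    simp

lemma integrable_kerB_shift (B : Vec d ≃ₗ[ℝ] Vec d) {σ : ℝ} (hσ : 0 < σ) (R : ℝ) (g : Vec d) :
    Integrable fun x => kerB B σ R (g - x) := by
  refine Integrable.comp_sub_left ?_ g
  have he : MeasurableEmbedding (B.symm : Vec d → Vec d) :=
    B.symm.toContinuousLinearEquiv.toHomeomorph.toMeasurableEquiv.measurableEmbedding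
  have hD : LinearMap.det (B.symm : Vec d →ₗ[ℝ] Vec d) ≠ 0 := (LinearEquiv.isUnit_det' B.symm).ne_zero
  have hmap : (volume : Measure (Vec d)).map B.symm
      = ENNReal.ofReal |(LinearMap.det (B.symm : Vec d →ₗ[ℝ] Vec d))⁻¹| • volume :=
    Measure.map_linearMap_addHaar_eq_smul_addHaar volume (f := (B.symm : Vec d →ₗ[ℝ] Vec d)) hD
  have h : Integrable fun x => kerK σ R (B.symm x) := by
    refine (he.integrable_map_iff (g := kerK σ R)).1 ?_
    rw [hmap]
    exact (integrable_kerK hσ R).smul_measure ENNReal.ofReal_ne_top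
  exact h.const_mul _

/-- The low part and the part cut away add up to the smoothing. -/
lemma smooth_split {i : ℕ} (W : Fin i → Vec d) (RW : ℝ) (hF : Measurable F) (hF1 : ∀ g, |F g| ≤ 1)
    (g : Vec d) : smooth W RW F g = lowFn W RW Rc F g + smooth W RW (farPart Rc F) g := by
  have hK := integrable_kerB_shift (precond W) one_pos RW g
  have hS := measurableSet_farSet d Rc
  have hb : ∀ (S : Set (Vec d)) x, |S.indicator F x| ≤ 1 := fun S x => by
    by_cases hx : x ∈ S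
    · rw [Set.indicator_of_mem hx]; exact hF1 x
    · rw [Set.indicator_of_notMem hx, abs_zero]; exact zero_le_one
  simp only [lowFn, smooth, nearPart, farPart]
  rw [← integral_add (hK.mul_bdd (hF.indicator hS.compl).aestronglyMeasurable (ae_of_all _ (hb _)))
    (hK.mul_bdd (hF.indicator hS).aestronglyMeasurable (ae_of_all _ (hb _)))]
  refine integral_congr_ae (ae_of_all _ fun x => ?_)
  simp only [← mul_add, Set.indicator_compl_add_self_apply]

/-- The low part in the coordinates of its preconditioner is a band function. -/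
lemma band_lowFn {i : ℕ} (W : Fin i → Vec d) {RW : ℝ} (hRW : 0 ≤ RW) (hF : Measurable F)
    (hF1 : ∀ g, |F g| ≤ 1) :
    Band (fun z => lowFn W RW Rc F (precond W z)) (2 * RW)
      (coefK d RW * ((pickVol W)⁻¹ * ∫ g, |nearPart Rc F g|))
      (coefK d RW * (√2 ^ d * Real.exp (-RW ^ 2 / 4)) * ((pickVol W)⁻¹ * ∫ g, |nearPart Rc F g|)) := by
  have h := band_convKB (precond W) (σ := 1) (R := RW) (T := 2 * RW) one_pos (by linarith)
    (integrable_nearPart (Rc := Rc) hF hF1)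
  rw [← pickVol_eq, show -((1:ℝ) * (2 * RW - RW)) ^ 2 / 4 = -RW ^ 2 / 4 by ring] at h
  exact h

lemma abs_lowFn_le {i : ℕ} (W : Fin i → Vec d) {RW : ℝ} (hRW : 0 ≤ RW) (hF : Measurable F)
    (hF1 : ∀ g, |F g| ≤ 1) (g : Vec d) :
    |lowFn W RW Rc F g| ≤ coefK d RW * ((pickVol W)⁻¹ * ∫ g, |nearPart Rc F g|) := by
  simpa using (band_lowFn (Rc := Rc) W hRW hF hF1).abs_le ((precond W).symm g)

lemma measurable_lowFn {i : ℕ} (W : Fin i → Vec d) {RW : ℝ} (hRW : 0 ≤ RW) (hF : Measurable F)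
    (hF1 : ∀ g, |F g| ≤ 1) : Measurable (lowFn W RW Rc F) := by
  have h := (band_lowFn (Rc := Rc) W hRW hF hF1).continuous.measurable.comp
    (measurable_equiv (precond W).symm)
  simpa [Function.comp_def] using h

/-- The weight times the low part, in the variable of a child, is nearly kept by its kernel. -/
theorem keep_low_le {i : ℕ} (W : Fin i → Vec d) {RW : ℝ} (hRW : 0 ≤ RW) (hF : Measurable F)
    (hF1 : ∀ g, |F g| ≤ 1) {L : Vec d → ℝ} {T₀ M₀ ε₀ : ℝ} (hL : Band L T₀ M₀ ε₀)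
    {C : Vec d ≃ₗ[ℝ] Vec d} {ρ : ℝ} (hρ : 0 ≤ ρ) (hC : ∀ y, ‖C y‖ ≤ ρ * ‖y‖)
    (hBC : ∀ ξ, ‖LinearMap.adjoint
      (((precond W).symm : Vec d →ₗ[ℝ] Vec d) ∘ₗ (C : Vec d →ₗ[ℝ] Vec d)) ξ‖ ≤ ρ * ‖ξ‖)
    {σ r Tχ s R : ℝ} (hσ : 0 < σ) (hTχ : 0 ≤ Tχ) (hs : 0 < s) (hR : 0 ≤ R)
    (hT : Tχ + (ρ * T₀ + ρ * (2 * RW)) ≤ R / 2) (hsR : 32 * (d:ℝ) ≤ (s * R) ^ 2) (a y : Vec d) :
    let J := coefK d RW * ((pickVol W)⁻¹ * ∫ g, |nearPart Rc F g|)
    let Mχ := coefK d r * (√(2 * π) / σ) ^ d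
    |chi σ r y * (L (a + C y) * lowFn W RW Rc F (a + C y))
        - convK s R (fun z => chi σ r z * (L (a + C z) * lowFn W RW Rc F (a + C z))) y|
      ≤ Mχ * (M₀ * J) * Real.exp (-(s * R) ^ 2 / 32)
        + (Mχ * (M₀ * (√2 ^ d * Real.exp (-RW ^ 2 / 4) * J) + ε₀ * J)
          + coefK d r * (√(4 * π) / σ) ^ d * Real.exp (-(σ * Tχ) ^ 2 / 4) * (M₀ * J)) := by
  intro J Mχ
  have hCadj : ∀ ξ, ‖LinearMap.adjoint (C : Vec d →ₗ[ℝ] Vec d) ξ‖ ≤ ρ * ‖ξ‖ := by
    intro ξ
    rcases eq_or_ne (LinearMap.adjoint (C : Vec d →ₗ[ℝ] Vec d) ξ) 0 with h | h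
    · rw [h, norm_zero]; positivity
    refine le_of_mul_le_mul_right ?_ (norm_pos_iff.2 h)
    rw [← sq, ← real_inner_self_eq_norm_sq, LinearMap.adjoint_inner_left]
    refine (real_inner_le_norm _ _).trans ?_
    refine (mul_le_mul_of_nonneg_left (hC _) (norm_nonneg _)).trans (le_of_eq ?_)
    ring
  have h1 := hL.comp_affine a (C : Vec d →ₗ[ℝ] Vec d) (T' := ρ * T₀)
    fun ξ hξ => (hCadj ξ).trans (mul_le_mul_of_nonneg_left hξ hρ)
  have h2 := (band_lowFn (Rc := Rc) W hRW hF hF1).comp_affine ((precond W).symm a)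
    (((precond W).symm : Vec d →ₗ[ℝ] Vec d) ∘ₗ (C : Vec d →ₗ[ℝ] Vec d)) (T' := ρ * (2 * RW))
    fun ξ hξ => (hBC ξ).trans (mul_le_mul_of_nonneg_left hξ hρ)
  simp only [LinearMap.comp_apply, LinearEquiv.coe_coe, ← map_add, LinearEquiv.apply_symm_apply] at h2
  have h3 := (band_chi (d := d) (r := r) hσ hTχ).mul (h1.mul h2)
  refine (h3.abs_sub_convK_le hs (R := R) (δ := Real.exp (-(s * R) ^ 2 / 32))
    (fun ξ hξ => one_sub_mult_le hs hR hsR (hξ.trans hT)) (Real.exp_pos _).le y).trans (le_of_eq ?_)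
  simp only [J, Mχ, coefK]
  ring

/-- The Gaussian window beyond a radius. -/
lemma lintegral_far_le (Rc : ℝ) :
    ∫⁻ x : Vec d, (farSet d Rc).indicator (fun x => ENNReal.ofReal (Real.exp (-‖x‖ ^ 2 / 4))) x
      ≤ ENNReal.ofReal (√(8 * π) ^ d * Real.exp (-Rc ^ 2 / 8)) := by
  obtain ⟨hi, hv⟩ := integral_exp_neg_smul (d := d) (c := (8:ℝ)⁻¹) (by norm_num)
  refine (lintegral_mono (g := fun x : Vec d => ENNReal.ofReal
    (Real.exp (-Rc ^ 2 / 8) * Real.exp (-((8:ℝ)⁻¹ * ‖x‖ ^ 2)))) fun x => ?_).trans ?_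
  · by_cases hx : x ∈ farSet d Rc
    · simp only [Set.indicator_of_mem hx]
      rw [← Real.exp_add]
      refine ENNReal.ofReal_le_ofReal (Real.exp_le_exp.2 ?_)
      have : Rc ^ 2 ≤ ‖x‖ ^ 2 := hx
      linarith
    · rw [Set.indicator_of_notMem hx]; exact zero_le
  · rw [← ofReal_integral_eq_lintegral_ofReal (hi.const_mul _)
      (ae_of_all _ fun x => by positivity), integral_const_mul, hv]
    refine ENNReal.ofReal_le_ofReal (le_of_eq ?_)
    rw [mul_comm, div_inv_eq_mul, mul_comm π 8]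

end Vale.Agent.P309.Sharp
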