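import Vale.Agent.P309.Sharp.Rows

/-! The probability that random rows pass near a list of picks. -/

namespace Vale.Agent.P309.Sharp

open MeasureTheory ProbabilityTheory Complex
open scoped RealInnerProductSpace Real ENNReal

variable {d k : ℕ}

/-- Rows seen in the variable `g` of `u = μ + A g`, at scale `δ`. -/
noncomputable def hat (A : Vec d ≃ₗ[ℝ] Vec d) (δ : ℝ) : Vec d →ₗ[ℝ] Vec d :=
  δ⁻¹ • LinearMap.adjoint (A : Vec d →ₗ[ℝ] Vec d)

lemma inner_hat (A : Vec d ≃ₗ[ℝ] Vec d) (δ : ℝ) (x g : Vec d) :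
    ⟪hat A δ x, g⟫ = δ⁻¹ * ⟪x, A g⟫ := by
  simp [hat, inner_smul_left, LinearMap.adjoint_inner_left]

lemma norm_hat_le {A : Vec d ≃ₗ[ℝ] Vec d} {δ : ℝ} (hδ : 0 < δ) (hA : ∀ g, ‖A g‖ ≤ δ * ‖g‖)
    (x : Vec d) : ‖hat A δ x‖ ≤ ‖x‖ := by
  have h := inner_hat A δ x (hat A δ x)
  rw [real_inner_self_eq_norm_sq] at h
  have h2 : δ⁻¹ * ⟪x, A (hat A δ x)⟫ ≤ ‖x‖ * ‖hat A δ x‖ := by
    refine (mul_le_mul_of_nonneg_left ((real_inner_le_norm _ _).trans
      (mul_le_mul_of_nonneg_left (hA _) (norm_nonneg _))) (by positivity)).trans (le_of_eq ?_)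
    field_simp
  rcases eq_or_lt_of_le (norm_nonneg (hat A δ x)) with h0 | h0
  · rw [← h0]; positivity
  · exact le_of_mul_le_mul_right (by rw [← sq, h]; linarith) h0

lemma coord_hat {N : ℕ} (A : Vec d ≃ₗ[ℝ] Vec d) (δ : ℝ) (e : Fin N → Vec d) (x : Vec d) :
    coord e (hat A δ x) = coord (fun r => δ⁻¹ • A (e r)) x := by
  ext r
  rw [coord_apply, coord_apply, real_inner_comm, inner_hat, inner_smul_left, real_inner_comm x]
  simp

lemma orthonormal_hat {N : ℕ} {A : Vec d ≃ₗ[ℝ] Vec d} {δ : ℝ} (hδ : 0 < δ) {e : Fin N → Vec d}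
    (he : Orthonormal ℝ e) (hA : ∀ g r, ⟪A g, A (e r)⟫ = δ ^ 2 * ⟪g, e r⟫) :
    Orthonormal ℝ fun r => δ⁻¹ • A (e r) := by
  rw [orthonormal_iff_ite] at he ⊢
  intro r r'
  rw [real_inner_smul_left, real_inner_smul_right, hA, he r r', ← mul_assoc, ← mul_assoc]
  field_simp

lemma norm_comb_le (X : Fin k → Vec d) (ζ : Vec k) :
    ‖comb X ζ‖ ≤ √(∑ l, ‖X l‖ ^ 2) * ‖ζ‖ := by
  refine (norm_sum_le _ _).trans ?_
  simp only [norm_smul, Real.norm_eq_abs]
  refine (Real.sum_mul_le_sqrt_mul_sqrt _ _ _).trans (le_of_eq ?_)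
  simp only [sq_abs, ← EuclideanSpace.real_norm_sq_eq, Real.sqrt_sq (norm_nonneg _), mul_comm]

lemma map_comb {d' : ℕ} (L : Vec d →ₗ[ℝ] Vec d') (X : Fin k → Vec d) (ζ : Vec k) :
    L (comb X ζ) = comb (fun l => L (X l)) ζ := by
  simp [comb, map_sum]

/-- Two orthogonal blocks of coordinates of independent normal rows are independent. -/
lemma lintegral_rows_split {N N' : ℕ} {f : Fin N → Vec d} {f' : Fin N' → Vec d}
    (hf : Orthonormal ℝ f) (hf' : Orthonormal ℝ f') (hff : ∀ r r', ⟪f r, f' r'⟫ = 0)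
    {F : (Fin k → Vec N) → ℝ≥0∞} {G : (Fin k → Vec N') → ℝ≥0∞} (hF : Measurable F) (hG : Measurable G) :
    ∫⁻ x, F (fun l => coord f (x l)) * G (fun l => coord f' (x l))
        ∂Measure.pi (fun _ : Fin k => stdGaussian (Vec d))
      = (∫⁻ X, F X ∂Measure.pi (fun _ : Fin k => stdGaussian (Vec N)))
        * ∫⁻ Y, G Y ∂Measure.pi (fun _ : Fin k => stdGaussian (Vec N')) := by
  have hm : Measurable fun p : Vec N × Vec d => lift f p.1 + rest f p.2 :=
    ((measurable_lift f).comp measurable_fst).add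
      ((rest f).continuous_of_finiteDimensional.measurable.comp measurable_snd)
  have hmp : MeasurePreserving (fun (q : Fin k → Vec N × Vec d) l => lift f (q l).1 + rest f (q l).2)
      (Measure.pi fun _ => (stdGaussian (Vec N)).prod (stdGaussian (Vec d)))
      (Measure.pi fun _ : Fin k => stdGaussian (Vec d)) :=
    measurePreserving_pi _ _ fun _ => ⟨hm, stdGaussian_split hf⟩
  have hFm : Measurable fun x : Fin k → Vec d => F fun l => coord f (x l) :=
    hF.comp (measurable_pi_lambda _ fun l => (measurable_coord f).comp (measurable_pi_apply l))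
  have hGm : Measurable fun x : Fin k → Vec d => G fun l => coord f' (x l) :=
    hG.comp (measurable_pi_lambda _ fun l => (measurable_coord f').comp (measurable_pi_apply l))
  have h1 := hmp.lintegral_comp (hFm.mul hGm)
  simp only [Pi.mul_apply] at h1
  rw [← h1]
  have c1 : ∀ p : Vec N × Vec d, coord f (lift f p.1 + rest f p.2) = p.1 := fun p => by
    rw [map_add, coord_lift hf, coord_rest hf, add_zero]
  have c2 : ∀ p : Vec N × Vec d, coord f' (lift f p.1 + rest f p.2) = coord f' p.2 := fun p => by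
    have h0 : ∀ h, coord f' (lift f h) = 0 := fun h => by
      ext r'
      simp [coord_apply, lift, inner_sum, inner_smul_right, real_inner_comm, hff]
    simp [rest, map_add, map_sub, h0]
  simp only [c1, c2]
  have hGd : Measurable fun y : Fin k → Vec d => G fun l => coord f' (y l) := hGm
  have e := (measurePreserving_arrowProdEquivProdArrow (Vec N) (Vec d) (Fin k)
    (fun _ => stdGaussian (Vec N)) (fun _ => stdGaussian (Vec d))).lintegral_comp
      (f := fun p : (Fin k → Vec N) × (Fin k → Vec d) => F p.1 * G (fun l => coord f' (p.2 l)))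
      ((hF.comp measurable_fst).mul (hGd.comp measurable_snd))
  refine e.trans ?_
  rw [lintegral_prod_mul hF.aemeasurable hGd.aemeasurable]
  congr 1
  exact (measurePreserving_pi _ _ fun _ => ⟨measurable_coord f', map_coord hf'⟩).lintegral_comp hG

lemma volume_closedBall_ge {ρ : ℝ} (hρ : 0 ≤ ρ) (a : Vec k) :
    ENNReal.ofReal ((2 * ρ) ^ k) ≤ volume {b : Vec k | ‖b - a‖ ≤ ρ * √k} := by
  set S : Set (Fin k → ℝ) := Set.pi Set.univ fun l => Set.Icc (a l - ρ) (a l + ρ)
  have h1 : volume S = ENNReal.ofReal ((2 * ρ) ^ k) := by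
    simp only [S, volume_pi_pi, Real.volume_Icc]
    rw [ENNReal.ofReal_pow (by positivity), Finset.prod_congr rfl fun l _ =>
      show ENNReal.ofReal (a l + ρ - (a l - ρ)) = ENNReal.ofReal (2 * ρ) by ring_nf]
    simp
  rw [← h1, ← (PiLp.volume_preserving_ofLp (Fin k)).measure_preimage
    (MeasurableSet.univ_pi fun _ => measurableSet_Icc).nullMeasurableSet]
  refine measure_mono fun b hb => ?_
  have hb' : ∀ l, |b l - a l| ≤ ρ := fun l => by
    have h2 := (Set.mem_univ_pi.1 hb) l
    rw [abs_sub_le_iff]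
    constructor <;> linarith [h2.1, h2.2]
  show ‖b - a‖ ≤ ρ * √k
  rw [← sq_le_sq₀ (norm_nonneg _) (by positivity), EuclideanSpace.real_norm_sq_eq, mul_pow,
    Real.sq_sqrt (Nat.cast_nonneg k)]
  calc ∑ l, (b - a) l ^ 2 ≤ ∑ _l : Fin k, ρ ^ 2 := Finset.sum_le_sum fun l _ => by
        simp only [PiLp.sub_apply]
        rw [← sq_abs]
        exact pow_le_pow_left₀ (abs_nonneg _) (hb' l) 2
    _ = _ := by simp [mul_comm]

/-- Centred dominance for a Gaussian matrix. -/
lemma lintegral_exp_near_le {N i : ℕ} (a : Fin i → Vec k) (Y : Fin i → Vec N) :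
    ∫⁻ X, ENNReal.ofReal (Real.exp (-(∑ j, ‖comb X (a j) - Y j‖ ^ 2) / 2))
        ∂Measure.pi (fun _ : Fin k => stdGaussian (Vec N))
      ≤ ENNReal.ofReal (pickVol a ^ N) := by
  set P := Measure.pi (fun _ : Fin k => stdGaussian (Vec N))
  set Q := Measure.pi (fun _ : Fin N => stdGaussian (Vec i))
  set V : (Fin k → Vec N) → Fin N → Vec i := fun X r => WithLp.toLp 2 fun j => (comb X (a j) - Y j) r
  set v : (Fin N → Vec i) → Fin k → Vec N := fun η l => WithLp.toLp 2 fun r => ∑ j, η r j * a j l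
  set c : (Fin N → Vec i) → ℝ := fun η => ∑ r, ∑ j, η r j * Y j r
  have hp : ∀ (X : Fin k → Vec N) (η : Fin N → Vec i),
      ∑ r, ⟪η r, V X r⟫ = (∑ l, ⟪X l, v η l⟫) - c η := by
    intro X η
    simp only [PiLp.inner_apply, RCLike.inner_apply, conj_trivial, V, v, c, comb, PiLp.sub_apply,
      WithLp.ofLp_sum, Finset.sum_apply, PiLp.smul_apply, smul_eq_mul, sub_mul, Finset.sum_sub_distrib,
      Finset.sum_mul]
    congr 1
    · conv_lhs => enter [2, r]; rw [Finset.sum_comm]
      rw [Finset.sum_comm]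
      exact Finset.sum_congr rfl fun l _ => Finset.sum_congr rfl fun r _ =>
        Finset.sum_congr rfl fun j _ => by ring
    · exact Finset.sum_congr rfl fun r _ => Finset.sum_congr rfl fun j _ => by ring
  have key : ∀ X, ((Real.exp (-(∑ j, ‖comb X (a j) - Y j‖ ^ 2) / 2) : ℝ) : ℂ)
      = ∫ η, cexp (((∑ r, ⟪η r, V X r⟫ : ℝ) : ℂ) * I) ∂Q := by
    intro X
    simp only [Complex.ofReal_sum, Finset.sum_mul, Complex.exp_sum]
    rw [integral_fintype_prod_eq_prod (f := fun r (z : Vec i) => cexp ((⟪z, V X r⟫ : ℝ) * I))]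
    simp only [← charFun_apply, charFun_stdGaussian]
    rw [← Complex.exp_sum, Complex.ofReal_exp]
    congr 1
    have : ∀ r, ((‖V X r‖ : ℂ)) ^ 2 = ((∑ j, (comb X (a j) - Y j) r ^ 2 : ℝ) : ℂ) := fun r => by
      rw [← Complex.ofReal_pow, EuclideanSpace.real_norm_sq_eq]
    simp only [this, EuclideanSpace.real_norm_sq_eq]
    rw [Finset.sum_comm]
    push_cast
    rw [← Finset.sum_neg_distrib, Finset.sum_div]
  have hR : ∫ X, Real.exp (-(∑ j, ‖comb X (a j) - Y j‖ ^ 2) / 2) ∂P ≤ pickVol a ^ N := by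
    have h1 : ((∫ X, Real.exp (-(∑ j, ‖comb X (a j) - Y j‖ ^ 2) / 2) ∂P : ℝ) : ℂ)
        = ∫ η, ∫ X, cexp (((∑ r, ⟪η r, V X r⟫ : ℝ) : ℂ) * I) ∂P ∂Q := by
      rw [← integral_complex_ofReal]
      simp only [key]
      refine integral_integral_swap (Integrable.of_bound ?_ 1 (ae_of_all _ fun p => ?_))
      · simp only [hp, Function.uncurry_def]
        exact Continuous.aestronglyMeasurable (by simp only [v, c]; fun_prop)
      · simp only [Function.uncurry, Complex.norm_exp_ofReal_mul_I, le_refl]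
    have h2 : ∀ η : Fin N → Vec i, ‖∫ X, cexp (((∑ r, ⟪η r, V X r⟫ : ℝ) : ℂ) * I) ∂P‖
        ≤ ∏ r, Real.exp (-‖∑ j, η r j • a j‖ ^ 2 / 2) := by
      intro η
      have e : ∀ X : Fin k → Vec N, cexp (((∑ r, ⟪η r, V X r⟫ : ℝ) : ℂ) * I)
          = cexp (((-c η : ℝ) : ℂ) * I) * ∏ l, cexp ((⟪X l, v η l⟫ : ℝ) * I) := by
        intro X
        rw [hp, ← Complex.exp_sum, ← Complex.exp_add, ← Finset.sum_mul, ← add_mul]
        congr 2
        push_cast
        ring
      simp only [e]
      rw [integral_const_mul,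
        integral_fintype_prod_eq_prod (f := fun l (z : Vec N) => cexp ((⟪z, v η l⟫ : ℝ) * I))]
      simp only [← charFun_apply, charFun_stdGaussian]
      rw [norm_mul, Complex.norm_exp_ofReal_mul_I, one_mul, ← Complex.exp_sum, Complex.norm_exp,
        ← Real.exp_sum]
      refine le_of_eq (congrArg _ ?_)
      simp only [← Complex.ofReal_pow, EuclideanSpace.real_norm_sq_eq]
      simp only [Complex.re_sum, Complex.div_re, Complex.neg_re, Complex.ofReal_re, Complex.neg_im,
        Complex.ofReal_im, neg_zero]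
      simp [v, ← Finset.sum_div, Complex.normSq_ofNat]
      rw [Finset.sum_comm, ← Finset.sum_mul]
      ring
    calc ∫ X, Real.exp (-(∑ j, ‖comb X (a j) - Y j‖ ^ 2) / 2) ∂P
        ≤ ‖((∫ X, Real.exp (-(∑ j, ‖comb X (a j) - Y j‖ ^ 2) / 2) ∂P : ℝ) : ℂ)‖ := by
          rw [Complex.norm_real]; exact Real.le_norm_self _
      _ ≤ ∫ η, ∏ r, Real.exp (-‖∑ j, η r j • a j‖ ^ 2 / 2) ∂Q := by
          rw [h1]
          refine norm_integral_le_of_norm_le ?_ (ae_of_all _ h2)
          refine Integrable.of_bound (Continuous.aestronglyMeasurable (by fun_prop)) 1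
            (ae_of_all _ fun η => ?_)
          rw [Real.norm_of_nonneg (by positivity)]
          exact Finset.prod_le_one (fun r _ => by positivity) fun r _ =>
            Real.exp_le_one_iff.2 (by nlinarith [norm_nonneg (∑ j, η r j • a j)])
      _ = pickVol a ^ N := by
          rw [integral_fintype_prod_eq_prod (f := fun _ (z : Vec i) =>
            Real.exp (-‖∑ j, z j • a j‖ ^ 2 / 2)), ← gauss_duality, Finset.prod_const, Finset.card_univ,
            Fintype.card_fin]
          rfl
  have hint : Integrable (fun X => Real.exp (-(∑ j, ‖comb X (a j) - Y j‖ ^ 2) / 2)) P := by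
    refine Integrable.of_bound (Continuous.aestronglyMeasurable (by unfold comb; fun_prop)) 1
      (ae_of_all _ fun X => ?_)
    rw [Real.norm_of_nonneg (Real.exp_pos _).le]
    refine Real.exp_le_one_iff.2 ?_
    have : 0 ≤ ∑ j, ‖comb X (a j) - Y j‖ ^ 2 := by positivity
    linarith
  rw [← ofReal_integral_eq_lintegral_ofReal hint (ae_of_all _ fun X => (Real.exp_pos _).le)]
  exact ENNReal.ofReal_le_ofReal hR

lemma integral_inner_sq {i : ℕ} (v : Vec i) :
    Integrable (fun η => ⟪v, η⟫ ^ 2) (stdGaussian (Vec i)) ∧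
      ∫ η, ⟪v, η⟫ ^ 2 ∂stdGaussian (Vec i) = ‖v‖ ^ 2 := by
  have h := variance_dual_stdGaussian (E := Vec i) (innerSL ℝ v)
  have hm : MemLp (fun η => ⟪v, η⟫) 2 (stdGaussian (Vec i)) := by
    simpa [Function.comp_def] using
      ContinuousLinearMap.comp_memLp' (innerSL ℝ v) (IsGaussian.memLp_two_id (μ := stdGaussian (Vec i)))
  have hm' : MemLp (⇑(innerSL ℝ v)) 2 (stdGaussian (Vec i)) := hm
  rw [variance_eq_sub hm', integral_strongDual_stdGaussian, innerSL_apply_norm] at h
  simp only [Pi.pow_apply, innerSL_apply_apply, ne_eq, OfNat.ofNat_ne_zero, not_false_eq_true,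
    zero_pow, sub_zero] at h
  exact ⟨hm.integrable_sq, h⟩

/-- Coefficients of near picks have small Gaussian volume. -/
lemma pickVol_coeff_le {i : ℕ} {W : Fin i → Vec d} {Y : Fin k → Vec d} {a : Fin i → Vec k} {R lam : ℝ}
    (hR : 0 ≤ R) (hlam : 0 < lam) (hY : ∀ ζ, ‖comb Y ζ‖ ≤ R * ‖ζ‖)
    (ha : ∀ j, ‖comb Y (a j) - W j‖ ≤ 5) :
    pickVol (fun j => lam • a j) ≤ ((2 * (R / lam) + 1) * Real.exp 25) ^ i * pickVol W := by
  set a' : Fin i → Vec k := fun j => lam • a j
  set c : ℝ := 2 * (R / lam) + 1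
  have hc1 : 1 ≤ c := by simp only [c]; linarith [div_nonneg hR hlam.le]
  have hc : 0 < c := by linarith
  set row : Fin k → Vec i := fun r => WithLp.toLp 2 fun j => a' j r
  have hrow : ∀ η : Vec i, ‖∑ j, η j • a' j‖ ^ 2 = ∑ r, ⟪row r, η⟫ ^ 2 := by
    intro η
    rw [EuclideanSpace.real_norm_sq_eq]
    refine Finset.sum_congr rfl fun r _ => ?_
    simp [row, PiLp.inner_apply, mul_comm]
  have hvol : pickVol a' = pickVol row := by
    rw [pickVol, gauss_duality a', pickVol]
    simp only [hrow]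
  set E : Fin i → Vec d := fun j => comb Y (a j) - W j
  set P := (precond row : Vec i →ₗ[ℝ] Vec i)
  set u : Fin d → Vec i := fun r => WithLp.toLp 2 fun j => E j r
  have hu : ∀ η : Vec i, ‖∑ j, η j • E j‖ ^ 2 = ∑ r, ⟪u r, η⟫ ^ 2 := by
    intro η
    rw [EuclideanSpace.real_norm_sq_eq]
    refine Finset.sum_congr rfl fun r _ => ?_
    simp [u, PiLp.inner_apply, mul_comm]
  set T : Vec i → ℝ := fun y => ∑ r, ⟪diag (pickBasis row) (pickScale row) (u r), y⟫ ^ 2
  have hT : ∀ y, ‖∑ j, (P y) j • E j‖ ^ 2 = T y := fun y => by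
    rw [hu]
    refine Finset.sum_congr rfl fun r _ => ?_
    simp only [P, LinearEquiv.coe_coe, precond, diagEquiv_apply, diag_symm]
  set m := ∫ y, T y ∂stdGaussian (Vec i)
  have hTi : Integrable T (stdGaussian (Vec i)) :=
    integrable_finsetSum _ fun r _ => (integral_inner_sq _).1
  have hm : m ≤ 25 * i := by
    simp only [m, T]
    rw [integral_finsetSum _ fun r _ => (integral_inner_sq _).1]
    calc ∑ r, ∫ y, ⟪diag (pickBasis row) (pickScale row) (u r), y⟫ ^ 2 ∂stdGaussian (Vec i)
        ≤ ∑ r, ‖u r‖ ^ 2 := by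
          refine Finset.sum_le_sum fun r _ => ?_
          rw [(integral_inner_sq _).2]
          refine pow_le_pow_left₀ (norm_nonneg _) ((norm_diag_le (c := 1) (fun q => ?_) zero_le_one _).trans
            (le_of_eq (one_mul _))) 2
          rw [abs_of_pos (pickScale_pos _ _)]
          exact pickScale_le_one _ _
      _ = ∑ j, ‖E j‖ ^ 2 := by
          simp only [EuclideanSpace.real_norm_sq_eq, u]
          exact Finset.sum_comm
      _ ≤ ∑ _j : Fin i, (25:ℝ) := Finset.sum_le_sum fun j _ =>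
          (pow_le_pow_left₀ (norm_nonneg _) (ha j) 2).trans (by norm_num)
      _ = 25 * i := by simp [mul_comm]
  set F : Vec i → ℝ := fun η => gaussKer η * Real.exp (-‖∑ j, η j • W j‖ ^ 2 / 2)
  set H : Vec i → ℝ := fun z => gaussKer ((precond row).symm z) * Real.exp (-‖∑ j, z j • E j‖ ^ 2)
  have hpt : ∀ η : Vec i, H (c • η) ≤ F η := by
    intro η
    have h2 : ‖∑ j, η j • W j‖ ^ 2
        ≤ 2 * (R / lam) ^ 2 * ‖∑ j, η j • a' j‖ ^ 2 + 2 * ‖∑ j, η j • E j‖ ^ 2 := by
      set S := ∑ j, η j • a j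
      have h3 : ∑ j, η j • W j = comb Y S - ∑ j, η j • E j := by
        have h3' : comb Y S = ∑ j, η j • comb Y (a j) := by
          simp only [S, comb, WithLp.ofLp_sum, Finset.sum_apply, PiLp.smul_apply, smul_eq_mul,
            Finset.sum_smul, Finset.smul_sum, smul_smul]
          exact Finset.sum_comm
        rw [h3', ← Finset.sum_sub_distrib]
        exact Finset.sum_congr rfl fun j _ => by rw [← smul_sub, sub_sub_cancel]
      have h4 : ‖∑ j, η j • a' j‖ = lam * ‖S‖ := by
        simp only [a', smul_comm (η _) lam, ← Finset.smul_sum, norm_smul, Real.norm_of_nonneg hlam.le, S]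
      have h5 : ‖comb Y S‖ ≤ R / lam * ‖∑ j, η j • a' j‖ := by
        rw [h4]
        refine (hY S).trans (le_of_eq ?_)
        field_simp
      rw [h3]
      have h6 := pow_le_pow_left₀ (norm_nonneg _) ((norm_sub_le (comb Y S) (∑ j, η j • E j)).trans
        (add_le_add h5 le_rfl)) 2
      nlinarith [sq_nonneg (R / lam * ‖∑ j, η j • a' j‖ - ‖∑ j, η j • E j‖)]
    simp only [H, F, gaussKer]
    rw [mul_assoc, mul_assoc, ← Real.exp_add, ← Real.exp_add]
    refine mul_le_mul_of_nonneg_left (Real.exp_le_exp.2 ?_) (inv_nonneg.2 gaussConst_pos.le)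
    have hsm : ∀ (d' : ℕ) (v : Fin i → Vec d'), ‖∑ j, (c • η) j • v j‖ ^ 2 = c ^ 2 * ‖∑ j, η j • v j‖ ^ 2 := by
      intro d' v
      simp only [PiLp.smul_apply, smul_eq_mul, ← smul_smul, ← Finset.smul_sum, norm_smul,
        Real.norm_of_nonneg hc.le, mul_pow]
    rw [norm_sq_precond_symm, ← hrow, hsm, hsm, norm_smul, Real.norm_of_nonneg hc.le, mul_pow]
    have hA : 2 * (R / lam) ^ 2 ≤ c ^ 2 := by simp only [c]; nlinarith [div_nonneg hR hlam.le]
    have hB : 1 ≤ c ^ 2 := one_le_pow₀ hc1
    nlinarith [mul_le_mul_of_nonneg_right hA (sq_nonneg ‖∑ j, η j • a' j‖),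
      mul_le_mul_of_nonneg_right hB (sq_nonneg ‖η‖),
      mul_le_mul_of_nonneg_right hB (sq_nonneg ‖∑ j, η j • E j‖)]
  have hker : Continuous (gaussKer (V := Vec i)) := continuous_gaussKer
  have hFi : Integrable F := by
    refine integrable_gaussKer.mono' (Continuous.aestronglyMeasurable (by fun_prop))
      (ae_of_all _ fun η => ?_)
    rw [Real.norm_of_nonneg (mul_nonneg (gaussKer_nonneg _) (Real.exp_pos _).le)]
    exact mul_le_of_le_one_right (gaussKer_nonneg _)
      (Real.exp_le_one_iff.2 (by nlinarith [norm_nonneg (∑ j, η j • W j)]))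
  have hPs : Continuous (precond row).symm := (precond row).toContinuousLinearEquiv.symm.continuous
  have hHi : Integrable H := by
    refine integrable_gaussKer.mono' (Continuous.aestronglyMeasurable (by fun_prop))
      (ae_of_all _ fun z => ?_)
    rw [Real.norm_of_nonneg (mul_nonneg (gaussKer_nonneg _) (Real.exp_pos _).le)]
    refine (mul_le_of_le_one_right (gaussKer_nonneg _) (Real.exp_le_one_iff.2 (by
      nlinarith [norm_nonneg (∑ j, z j • E j)]))).trans ?_
    refine mul_le_mul_of_nonneg_left (Real.exp_le_exp.2 ?_) (inv_nonneg.2 gaussConst_pos.le)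
    rw [norm_sq_precond_symm]
    have : 0 ≤ ∑ r, ⟪row r, z⟫ ^ 2 := by positivity
    linarith
  have h1 := integral_mono (hHi.comp_smul hc.ne') hFi hpt
  rw [Measure.integral_comp_smul_of_nonneg (μ := (volume : Measure (Vec i))) H c (hR := hc.le),
    finrank_euclideanSpace_fin, smul_eq_mul, inv_mul_le_iff₀ (by positivity)] at h1
  have hD : LinearMap.det P ≠ 0 := (LinearEquiv.isUnit_det' (precond row)).ne_zero
  have hPm : Measurable P := (precond row).toContinuousLinearEquiv.continuous.measurable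
  have hmap := Measure.map_linearMap_addHaar_eq_smul_addHaar (volume : Measure (Vec i)) hD
  have h2 : ∫ z, H z ∂((volume : Measure (Vec i)).map P)
      = ∫ y, Real.exp (-T y) ∂stdGaussian (Vec i) := by
    rw [integral_map hPm.aemeasurable (Continuous.aestronglyMeasurable (by fun_prop)),
      stdGaussian_eq_withDensity, integral_withDensity_eq_integral_toReal_smul
      measurable_gaussKer.ennreal_ofReal (ae_of_all _ fun _ => ENNReal.ofReal_lt_top)]
    refine integral_congr_ae (ae_of_all _ fun y => ?_)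
    simp only [H, ← hT, ENNReal.toReal_ofReal (gaussKer_nonneg _), smul_eq_mul, P, LinearEquiv.coe_coe,
      LinearEquiv.symm_apply_apply]
  rw [hmap, integral_smul_measure, ENNReal.toReal_ofReal (abs_nonneg _), smul_eq_mul, abs_inv,
    ← pickVol_eq row, inv_mul_eq_div, div_eq_iff (pickVol_pos row).ne'] at h2
  have hJ : Real.exp (-m) ≤ ∫ y, Real.exp (-T y) ∂stdGaussian (Vec i) := by
    have hi1 : Integrable (fun y => Real.exp (-m) * (1 + m - T y)) (stdGaussian (Vec i)) :=
      ((integrable_const _).sub hTi).const_mul _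
    have hi2 : Integrable (fun y => Real.exp (-T y)) (stdGaussian (Vec i)) := by
      refine Integrable.of_bound (Continuous.aestronglyMeasurable (by fun_prop)) 1 (ae_of_all _ fun y => ?_)
      rw [Real.norm_of_nonneg (Real.exp_pos _).le]
      have : 0 ≤ T y := by positivity
      exact Real.exp_le_one_iff.2 (by linarith)
    refine le_trans (le_of_eq ?_) (integral_mono hi1 hi2 fun y => ?_)
    · rw [integral_const_mul, integral_sub (integrable_const _) hTi]
      simp [m]
    · calc Real.exp (-m) * (1 + m - T y) ≤ Real.exp (-m) * Real.exp (m - T y) :=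
            mul_le_mul_of_nonneg_left (by linarith [Real.add_one_le_exp (m - T y)]) (Real.exp_pos _).le
        _ = _ := by rw [← Real.exp_add]; ring_nf
  have hFW : pickVol W = ∫ η, F η := by
    rw [pickVol, gauss_duality W, stdGaussian_eq_withDensity, integral_withDensity_eq_integral_toReal_smul
      measurable_gaussKer.ennreal_ofReal (ae_of_all _ fun _ => ENNReal.ofReal_lt_top)]
    simp only [ENNReal.toReal_ofReal (gaussKer_nonneg _), smul_eq_mul, F]
  rw [hvol, hFW, mul_pow]
  have h7 : Real.exp (-(25 * i)) * pickVol row ≤ c ^ i * ∫ η, F η := by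
    refine le_trans ?_ h1
    rw [h2]
    exact mul_le_mul_of_nonneg_right ((Real.exp_le_exp.2 (by linarith)).trans hJ) (pickVol_pos row).le
  rw [Real.exp_neg, inv_mul_le_iff₀ (Real.exp_pos _), mul_comm (25:ℝ), Real.exp_nat_mul] at h7
  linarith

/-- The probability that rows pass near all picks. -/
theorem near_le {N₀ N' i : ℕ} {A : Vec d ≃ₗ[ℝ] Vec d} {δ : ℝ} (hδ : 0 < δ)
    (hA : ∀ g, ‖A g‖ ≤ δ * ‖g‖) {e : Fin (N₀ + 1) → Vec d} {e' : Fin N' → Vec d}
    (he : Orthonormal ℝ e) (he' : Orthonormal ℝ e') (hee : ∀ r r', ⟪e r, e' r'⟫ = 0)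
    (hAe : ∀ g r, ⟪A g, A (e r)⟫ = δ ^ 2 * ⟪g, e r⟫)
    (hAe' : ∀ g r, ⟪A g, A (e' r)⟫ = δ ^ 2 * ⟪g, e' r⟫)
    (W : Fin i → Vec d) {z : ℝ} (hz : pickVol W ≤ z) {R J : ℝ} (hR : 1 ≤ R) (hJ : 0 ≤ J) (hk : 1 ≤ k)
    {S : Set (Fin k → Vec d)} (hS : MeasurableSet S)
    (hSR : ∀ x ∈ S, ∀ ζ, ‖comb x ζ‖ ≤ R * ‖ζ‖) {M : ℝ} (hM : 0 < M)
    (hSJ : ∀ x ∈ S, jac (fun l => coord e (hat A δ (x l))) ≤ ENNReal.ofReal J)
    (hSW : ∀ x ∈ S, ∀ j, spanDist (W j) (fun l => hat A δ (x l)) ≤ ENNReal.ofReal 4) :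
    Measure.pi (fun _ : Fin k => stdGaussian (Vec d)) S
      ≤ ENNReal.ofReal ((Real.exp (13 * M) * ((2 * (R / √M) + 1) * Real.exp 25) ^ N') ^ i * z ^ N'
          * ((Real.exp 2 * R * (√(2 * π) * 5) / 2) ^ k * J) ^ i) := by
  set P := Measure.pi (fun _ : Fin k => stdGaussian (Vec d))
  set H : (Fin k → Vec d) → Fin k → Vec d := fun x l => hat A δ (x l)
  set f : Fin (N₀ + 1) → Vec d := fun r => δ⁻¹ • A (e r)
  set f' : Fin N' → Vec d := fun r => δ⁻¹ • A (e' r)
  have hcoord : ∀ {M : ℕ} (u : Fin M → Vec d) (hu : Orthonormal ℝ u) (x : Fin k → Vec d) (ζ : Vec k)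
      (w : Vec d) (r : ℝ), ‖comb (H x) ζ - w‖ ≤ r →
        ‖comb (fun l => coord (fun q => δ⁻¹ • A (u q)) (x l)) ζ - coord u w‖ ≤ r := by
    intro M u hu x ζ w r h
    have : comb (fun l => coord (fun q => δ⁻¹ • A (u q)) (x l)) ζ = coord u (comb (H x) ζ) := by
      rw [map_comb]; simp only [H, coord_hat]
    rw [this, ← map_sub]
    refine le_trans ?_ h
    rw [← sq_le_sq₀ (norm_nonneg _) (norm_nonneg _), norm_sq_split hu]
    nlinarith [norm_nonneg (rest u (comb (H x) ζ - w))]
  -- coefficients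
  have hex : ∀ x ∈ S, ∀ j, ∃ a : Vec k, ‖comb (H x) a - W j‖ ≤ 4 := by
    intro x hx j
    have h := hSW x hx j
    rw [spanDist_eq, ENNReal.ofReal_le_ofReal_iff (by norm_num)] at h
    obtain ⟨c₀, hc₀⟩ := Submodule.mem_span_range_iff_exists_fun ℝ |>.1
      ((Submodule.span ℝ (Set.range (H x))).starProjection_apply_mem (W j))
    refine ⟨WithLp.toLp 2 c₀, ?_⟩
    rw [norm_sub_rev]
    simpa only [comb, hc₀] using h
  set ρ : ℝ := 1 / (R * √k)
  have hk0 : (0:ℝ) < √k := Real.sqrt_pos.2 (by exact_mod_cast hk)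
  have hρ : 0 < ρ := by positivity
  set z' : ℝ := ((2 * (R / √M) + 1) * Real.exp 25) ^ i * z
  set F : (Fin i → Vec k) → (Fin k → Vec (N₀ + 1)) → ℝ≥0∞ := fun a X =>
    Set.indicator {X | jac X ≤ ENNReal.ofReal J} 1 X
      * ∏ j, Set.indicator {ζ : Vec k | ‖comb X ζ - coord e (W j)‖ ≤ 5} 1 (a j)
  set G : (Fin i → Vec k) → (Fin k → Vec N') → ℝ≥0∞ := fun a Y =>
    Set.indicator {a : Fin i → Vec k | pickVol (fun j => √M • a j) ≤ z'} 1 a
      * ENNReal.ofReal (Real.exp (13 * M * i)
        * Real.exp (-(∑ j, ‖comb Y (√M • a j) - √M • coord e' (W j)‖ ^ 2) / 2))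
  set vol0 : ℝ≥0∞ := ENNReal.ofReal ((2 * ρ) ^ k) ^ i
  have hpick : Measurable fun a : Fin i → Vec k => pickVol (fun j => √M • a j) := by
    have : StronglyMeasurable fun a : Fin i → Vec k => pickVol (fun j => √M • a j) :=
      StronglyMeasurable.integral_prod_right (f := fun (a : Fin i → Vec k) g =>
        Real.exp (-(∑ j, ⟪√M • a j, g⟫ ^ 2) / 2)) (Continuous.stronglyMeasurable (by fun_prop))
    exact this.measurable
  -- pointwise comparison
  have hpt : ∀ x, S.indicator (fun _ => vol0) x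
      ≤ ∫⁻ a : Fin i → Vec k, F a (fun l => coord f (x l)) * G a (fun l => coord f' (x l)) := by
    intro x
    by_cases hx : x ∈ S
    swap
    · simp [hx]
    rw [Set.indicator_of_mem hx]
    choose a0 ha0 using hex x hx
    set U : Set (Fin i → Vec k) := Set.pi Set.univ fun j => {b | ‖b - a0 j‖ ≤ ρ * √k}
    have hUm : MeasurableSet U := MeasurableSet.univ_pi fun j => measurableSet_le (by fun_prop) (by fun_prop)
    have hvol : vol0 ≤ volume U := by
      simp only [U, vol0, volume_pi_pi]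
      calc ENNReal.ofReal ((2 * ρ) ^ k) ^ i = ∏ _j : Fin i, ENNReal.ofReal ((2 * ρ) ^ k) := by simp
        _ ≤ _ := Finset.prod_le_prod' fun j _ => volume_closedBall_ge hρ.le (a0 j)
    refine hvol.trans ?_
    rw [← lintegral_indicator_one hUm]
    refine lintegral_mono fun a => ?_
    by_cases ha : a ∈ U
    swap
    · simp [ha]
    rw [Set.indicator_of_mem ha, Pi.one_apply]
    have hRn : ∀ ζ, ‖comb (H x) ζ‖ ≤ R * ‖ζ‖ := by
      intro ζ
      rw [show comb (H x) ζ = hat A δ (comb x ζ) by rw [map_comb]]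
      exact (norm_hat_le hδ hA _).trans (hSR x hx ζ)
    have h5 : ∀ j, ‖comb (H x) (a j) - W j‖ ≤ 5 := by
      intro j
      have h1 : ‖a j - a0 j‖ ≤ ρ * √k := Set.mem_univ_pi.1 ha j
      rw [show comb (H x) (a j) - W j = comb (H x) (a j - a0 j) + (comb (H x) (a0 j) - W j) by
        rw [comb_sub]; abel]
      refine (norm_add_le _ _).trans ?_
      have h2 : R * ‖a j - a0 j‖ ≤ 1 := by
        refine (mul_le_mul_of_nonneg_left h1 (by linarith)).trans (le_of_eq ?_)
        simp only [ρ]; field_simp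
      linarith [hRn (a j - a0 j), ha0 j]
    have hF1 : F a (fun l => coord f (x l)) = 1 := by
      have hJ' : (fun l => coord f (x l)) ∈ {X : Fin k → Vec (N₀ + 1) | jac X ≤ ENNReal.ofReal J} := by
        have := hSJ x hx
        simp only [coord_hat] at this
        exact this
      simp only [F, Set.indicator_of_mem hJ', Pi.one_apply, one_mul]
      refine Finset.prod_eq_one fun j _ => ?_
      exact Set.indicator_of_mem (s := {ζ : Vec k | ‖comb (fun l => coord f (x l)) ζ - coord e (W j)‖ ≤ 5})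
        (hcoord e he x (a j) (W j) 5 (h5 j)) _
    rw [hF1, one_mul]
    have hz' : a ∈ {a : Fin i → Vec k | pickVol (fun j => √M • a j) ≤ z'} :=
      (pickVol_coeff_le (by linarith) (Real.sqrt_pos.2 hM) hRn h5).trans
        (mul_le_mul_of_nonneg_left hz (by positivity))
    simp only [G, Set.indicator_of_mem hz', Pi.one_apply, one_mul]
    rw [← Real.exp_add, ← ENNReal.ofReal_one]
    refine ENNReal.ofReal_le_ofReal (Real.one_le_exp ?_)
    have h7 : ∑ j, ‖comb (fun l => coord f' (x l)) (√M • a j) - √M • coord e' (W j)‖ ^ 2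
        ≤ ∑ _j : Fin i, (25 * M) := by
      refine Finset.sum_le_sum fun j _ => ?_
      rw [comb_smul, ← smul_sub, norm_smul, mul_pow, Real.norm_eq_abs, sq_abs, Real.sq_sqrt hM.le,
        mul_comm (25:ℝ)]
      exact mul_le_mul_of_nonneg_left ((pow_le_pow_left₀ (norm_nonneg _)
        (hcoord e' he' x (a j) (W j) 5 (h5 j)) 2).trans (by norm_num)) hM.le
    simp at h7
    rw [neg_div]
    linarith [mul_nonneg hM.le (Nat.cast_nonneg i : (0:ℝ) ≤ i)]
  have hfm : Measurable fun p : (Fin k → Vec d) × (Fin i → Vec k) =>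
      F p.2 (fun l => coord f (p.1 l)) * G p.2 (fun l => coord f' (p.1 l)) := by
    have h1 : Measurable fun x : Fin k → Vec d => fun l => coord f (x l) :=
      measurable_pi_lambda _ fun l => (measurable_coord f).comp (measurable_pi_apply l)
    have h2 : Measurable fun x : Fin k → Vec d => fun l => coord f' (x l) :=
      measurable_pi_lambda _ fun l => (measurable_coord f').comp (measurable_pi_apply l)
    refine Measurable.mul (Measurable.mul ?_ ?_) (Measurable.mul ?_ ?_)
    · exact (measurable_one.indicator (measurableSet_le measurable_jac measurable_const)).comp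
        (h1.comp measurable_fst)
    · refine Finset.measurable_prod _ fun j _ => ?_
      have hU : MeasurableSet {p : (Fin k → Vec d) × (Fin i → Vec k) |
          ‖comb (fun l => coord f (p.1 l)) (p.2 j) - coord e (W j)‖ ≤ 5} :=
        measurableSet_le (Continuous.measurable (by
          have := (coord f).continuous_of_finiteDimensional
          unfold comb; fun_prop)) measurable_const
      simp only [Set.indicator_apply]
      exact Measurable.ite hU measurable_one measurable_const
    · exact (measurable_one.indicator (measurableSet_le hpick measurable_const)).comp measurable_snd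
    · refine (Continuous.measurable ?_).ennreal_ofReal
      have := (coord f').continuous_of_finiteDimensional
      unfold comb
      fun_prop
  have hmain : P S * vol0 ≤ ∫⁻ a : Fin i → Vec k, ∫⁻ x, F a (fun l => coord f (x l))
      * G a (fun l => coord f' (x l)) ∂P := by
    rw [← lintegral_lintegral_swap hfm.aemeasurable, mul_comm, ← lintegral_indicator_const hS]
    exact lintegral_mono hpt
  have hf := orthonormal_hat hδ he hAe
  have hf' := orthonormal_hat hδ he' hAe'
  have hff : ∀ r r', ⟪f r, f' r'⟫ = 0 := fun r r' => by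
    simp only [f, f', real_inner_smul_left, real_inner_smul_right, hAe', hee, mul_zero]
  set PX := Measure.pi (fun _ : Fin k => stdGaussian (Vec (N₀ + 1)))
  set g0 : ℝ := Real.exp (13 * M * i) * z' ^ N'
  have hFm : ∀ a, Measurable (F a) := by
    intro a
    refine Measurable.mul (measurable_one.indicator (measurableSet_le measurable_jac measurable_const)) ?_
    refine Finset.measurable_prod _ fun j _ => ?_
    have hU : MeasurableSet {X : Fin k → Vec (N₀ + 1) | ‖comb X (a j) - coord e (W j)‖ ≤ 5} :=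
      measurableSet_le (Continuous.measurable (by unfold comb; fun_prop)) measurable_const
    simp only [Set.indicator_apply]
    exact Measurable.ite hU measurable_one measurable_const
  have hinner : ∀ a, ∫⁻ x, F a (fun l => coord f (x l)) * G a (fun l => coord f' (x l)) ∂P
      ≤ (∫⁻ X, F a X ∂PX) * ENNReal.ofReal g0 := by
    intro a
    have hGm : Measurable (G a) := by
      refine measurable_const.mul (Continuous.measurable ?_).ennreal_ofReal
      unfold comb
      fun_prop
    rw [lintegral_rows_split hf hf' hff (hFm a) hGm]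
    refine mul_le_mul_right ?_ _
    simp only [G]
    rw [lintegral_const_mul' _ _ (by by_cases h : a ∈ {a : Fin i → Vec k | pickVol (fun j => √M • a j) ≤ z'} <;> simp [h])]
    by_cases h : a ∈ {a : Fin i → Vec k | pickVol (fun j => √M • a j) ≤ z'}
    swap
    · simp [h]
    rw [Set.indicator_of_mem h, Pi.one_apply, one_mul]
    simp only [ENNReal.ofReal_mul (Real.exp_pos _).le, g0]
    rw [lintegral_const_mul' _ _ ENNReal.ofReal_ne_top]
    exact mul_le_mul_right ((lintegral_exp_near_le (fun j => √M • a j) (fun j => √M • coord e' (W j))).trans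
      (ENNReal.ofReal_le_ofReal (pow_le_pow_left₀ (pickVol_pos _).le h N'))) _
  set V1 : ℝ := Real.exp (2 * k) * (√(2 * π) * (5 / √k)) ^ k * J
  have houter : ∫⁻ a : Fin i → Vec k, ∫⁻ X, F a X ∂PX ≤ ENNReal.ofReal V1 ^ i := by
    have hFu : Measurable fun p : (Fin i → Vec k) × (Fin k → Vec (N₀ + 1)) => F p.1 p.2 := by
      refine Measurable.mul ((measurable_one.indicator
        (measurableSet_le measurable_jac measurable_const)).comp measurable_snd) ?_
      refine Finset.measurable_prod _ fun j _ => ?_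
      have hU : MeasurableSet {p : (Fin i → Vec k) × (Fin k → Vec (N₀ + 1)) |
          ‖comb p.2 (p.1 j) - coord e (W j)‖ ≤ 5} :=
        measurableSet_le (Continuous.measurable (by unfold comb; fun_prop)) measurable_const
      simp only [Set.indicator_apply]
      exact Measurable.ite hU measurable_one measurable_const
    rw [lintegral_lintegral_swap hFu.aemeasurable]
    refine le_trans (lintegral_mono (g := fun _ => ENNReal.ofReal V1 ^ i) fun X => ?_) (by simp)
    simp only [F]
    by_cases hX : X ∈ {X : Fin k → Vec (N₀ + 1) | jac X ≤ ENNReal.ofReal J}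
    swap
    · simp [hX]
    simp only [Set.indicator_of_mem hX, Pi.one_apply, one_mul]
    have hm : ∀ j, MeasurableSet {ζ : Vec k | ‖comb X ζ - coord e (W j)‖ ≤ 5} := fun j =>
      measurableSet_le (Continuous.measurable (by unfold comb; fun_prop)) measurable_const
    rw [volume_pi, lintegral_pi_prod (volume : Measure (Vec k)) (fun j ζ =>
      Set.indicator {ζ : Vec k | ‖comb X ζ - coord e (W j)‖ ≤ 5} (1 : Vec k → ℝ≥0∞) ζ)
      (fun j => (measurable_one.indicator (hm j)))]
    calc _ ≤ ∏ _j : Fin i, ENNReal.ofReal V1 := by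
          refine Finset.prod_le_prod' fun j _ => ?_
          rw [lintegral_indicator_one (hm j)]
          refine (volume_comb_le' X _ (by norm_num) (Nat.cast_pos.2 hk)).trans ?_
          simp only [V1]
          rw [ENNReal.ofReal_mul (p := _ * _) (by positivity)]
          exact mul_le_mul_right (show jac X ≤ _ from hX) _
      _ = _ := by simp
  have hall : P S * vol0 ≤ ENNReal.ofReal V1 ^ i * ENNReal.ofReal g0 := by
    refine hmain.trans ((lintegral_mono hinner).trans ?_)
    rw [lintegral_mul_const' _ _ ENNReal.ofReal_ne_top]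
    exact mul_le_mul_left houter _
  have hz0 : 0 ≤ z := (pickVol_pos W).le.trans hz
  have hV1 : 0 ≤ V1 := by positivity
  have hg0 : 0 ≤ g0 := by positivity
  simp only [vol0] at hall
  rw [← ENNReal.ofReal_pow hV1, ← ENNReal.ofReal_pow (by positivity),
    ← ENNReal.ofReal_mul (by positivity)] at hall
  have h0 : (0:ℝ) < ((2 * ρ) ^ k) ^ i := by positivity
  rw [← ENNReal.le_div_iff_mul_le (Or.inl (ne_of_gt (ENNReal.ofReal_pos.2 h0)))
    (Or.inl ENNReal.ofReal_ne_top), ← ENNReal.ofReal_div_of_pos h0] at hall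
  refine hall.trans (ENNReal.ofReal_le_ofReal (le_of_eq ?_))
  have e1 : (2 * ρ) ^ k = ((R * √k / 2) ^ k)⁻¹ := by
    rw [← inv_pow]
    simp only [ρ]
    field_simp
  rw [e1, inv_pow, div_inv_eq_mul]
  simp only [g0, z', V1]
  rw [mul_comm (13 * M) (i:ℝ), Real.exp_nat_mul, mul_comm (2:ℝ) (k:ℝ), Real.exp_nat_mul]
  rw [show Real.exp 2 * R * (√(2 * π) * 5) / 2
      = Real.exp 2 * (R * √k / 2) * (√(2 * π) * (5 / √k)) by field_simp]
  generalize √(2 * π) * (5 / √k) = V
  generalize R * √k / 2 = U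
  ring

end Vale.Agent.P309.Sharp
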