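import Vale.Agent.P309.Sharp.Tree
import Vale.Agent.P309.Sharp.Bases

/-! Node functions of a family of kernels and mixtures over children. -/

namespace Vale.Agent.P309.Sharp

open MeasureTheory ProbabilityTheory
open scoped RealInnerProductSpace Real ENNReal

variable {d k : ℕ}

section node

variable {A : Vec d ≃ₗ[ℝ] Vec d} {δ : ℝ} {Φ : (Fin k → Vec d) → Vec k → ℝ}
  (hΦ : Measurable (Function.uncurry Φ)) (h0 : ∀ x y, 0 ≤ Φ x y) (h1 : ∀ x y, Φ x y ≤ 1) {Ry : ℝ}

include hΦ in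
lemma measurable_cutK0 : Measurable (Function.uncurry fun x y => cutK Φ Ry x y) :=
  hΦ.indicator (measurableSet_le (measurable_snd.norm) measurable_const)

include hΦ in
lemma measurable_cutK_labs : Measurable fun q : (Fin k → Vec d) × Vec d =>
    cutK Φ Ry q.1 (labs A δ q.1 q.2) := by
  have h1 : Measurable fun q : (Fin k → Vec d) × Vec d => (q.1, labs A δ q.1 q.2) :=
    measurable_fst.prodMk (measurable_labs A δ)
  have h2 := (measurable_cutK0 (Ry := Ry) hΦ).comp h1
  exact h2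

include hΦ in
lemma measurable_nodeFn0 (S : Set (Fin k → Vec d)) : Measurable (nodeFn A δ Φ Ry S) := by
  have h : StronglyMeasurable (Function.uncurry fun (g : Vec d) (x : Fin k → Vec d) =>
      cutK Φ Ry x (labs A δ x g)) :=
    ((measurable_cutK_labs hΦ).comp measurable_swap).stronglyMeasurable
  exact h.integral_prod_right.measurable

include h0 in
lemma cutK_nonneg0 (x : Fin k → Vec d) (y : Vec k) : 0 ≤ cutK Φ Ry x y :=
  Set.indicator_nonneg (fun y _ => h0 x y) y

include h0 in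
lemma cutK_le (x : Fin k → Vec d) (y : Vec k) : cutK Φ Ry x y ≤ Φ x y :=
  Set.indicator_le_self' (fun y _ => h0 x y) y

include h0 in
lemma nodeFn_nonneg (S : Set (Fin k → Vec d)) (g : Vec d) : 0 ≤ nodeFn A δ Φ Ry S g :=
  integral_nonneg fun x => cutK_nonneg0 h0 x _

include hΦ h0 h1 in
lemma ofReal_nodeFn (S : Set (Fin k → Vec d)) (g : Vec d) :
    ENNReal.ofReal (nodeFn A δ Φ Ry S g)
      = ∫⁻ x in S, ENNReal.ofReal (cutK Φ Ry x (labs A δ x g)) ∂rowsLaw d k := by
  refine ofReal_integral_eq_lintegral_ofReal (Integrable.integrableOn ?_)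
    (ae_of_all _ fun x => cutK_nonneg0 h0 x _)
  refine (memLp_top_of_bound (((measurable_cutK_labs hΦ).comp measurable_prodMk_right)
    |>.aestronglyMeasurable) 1 (ae_of_all _ fun x => ?_)).integrable le_top
  rw [Function.comp_apply, Real.norm_of_nonneg (cutK_nonneg0 h0 x _)]
  exact (cutK_le h0 x _).trans (h1 x _)

end node

/-- The labels of good rows stay in the window. -/
lemma norm_labs_le {A : Vec d ≃ₗ[ℝ] Vec d} {δ : ℝ} (hδ : 0 < δ) (hA : ∀ g, ‖A g‖ ≤ δ * ‖g‖)
    {x : Fin k → Vec d} {R : ℝ} (hR : 0 ≤ R) (hx : ∀ ζ, ‖comb x ζ‖ ≤ R * ‖ζ‖) (g : Vec d) :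
    ‖labs A δ x g‖ ≤ R * ‖g‖ := by
  set y := labs A δ x g
  have e : ‖y‖ ^ 2 = ⟪hat A δ (comb x y), g⟫ := by
    rw [map_comb, ← real_inner_self_eq_norm_sq]
    conv_lhs => rw [PiLp.inner_apply]
    simp only [comb, sum_inner, inner_smul_left, RCLike.inner_apply, conj_trivial]
    rfl
  rcases eq_or_lt_of_le (norm_nonneg y) with h0 | h0
  · rw [← h0]; positivity
  refine le_of_mul_le_mul_right ?_ h0
  rw [← sq, e]
  refine (real_inner_le_norm _ _).trans ?_
  refine (mul_le_mul_of_nonneg_right ((norm_hat_le hδ hA _).trans (hx y)) (norm_nonneg _)).trans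
    (le_of_eq (by ring))

section family

variable {A : Vec d ≃ₗ[ℝ] Vec d} {δ : ℝ} {ι : Type*} [Fintype ι]
  {Φ : ι → (Fin k → Vec d) → Vec k → ℝ} (hΦ : ∀ v, Measurable (Function.uncurry (Φ v)))
  (h0 : ∀ v x y, 0 ≤ Φ v x y) (h1 : ∀ x y, ∑ v, Φ v x y ≤ 1) {Ry : ℝ}

include h0 h1 in
lemma single_le_one (v : ι) (x : Fin k → Vec d) (y : Vec k) : Φ v x y ≤ 1 :=
  (Finset.single_le_sum (fun u _ => h0 u x y) (Finset.mem_univ v)).trans (h1 x y)

include h0 h1 in
lemma sum_ofReal_le_one (x : Fin k → Vec d) (y : Vec k) :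
    ∑ v, ENNReal.ofReal (Φ v x y) ≤ 1 := by
  rw [← ENNReal.ofReal_sum_of_nonneg fun v _ => h0 v x y]
  exact ENNReal.ofReal_le_one.2 (h1 x y)

include hΦ h0 h1 in
/-- The node functions of disjoint pieces of a family of kernels sum to at most one. -/
lemma sum_nodeFn_le (c : ι → ℕ) (S : (v : ι) → Fin (c v) → Set (Fin k → Vec d))
    (hS : ∀ v t, MeasurableSet (S v t)) (hd : ∀ v, Pairwise fun s t => Disjoint (S v s) (S v t))
    (g : Vec d) : ∑ v, ∑ t, nodeFn A δ (Φ v) Ry (S v t) g ≤ 1 := by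
  classical
  rw [← ENNReal.ofReal_le_one]
  rw [ENNReal.ofReal_sum_of_nonneg fun v _ => Finset.sum_nonneg fun t _ => nodeFn_nonneg (h0 v) _ _]
  simp only [ENNReal.ofReal_sum_of_nonneg fun t (_ : t ∈ Finset.univ) => nodeFn_nonneg (h0 _) _ _,
    ofReal_nodeFn (hΦ _) (h0 _) (single_le_one h0 h1 _)]
  have hm : ∀ v, Measurable fun x => ENNReal.ofReal (Φ v x (labs A δ x g)) := fun v =>
    ((hΦ v).comp (measurable_id.prodMk ((measurable_labs A δ).comp measurable_prodMk_right))).ennreal_ofReal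
  calc ∑ v, ∑ t, ∫⁻ x in S v t, ENNReal.ofReal (cutK (Φ v) Ry x (labs A δ x g)) ∂rowsLaw d k
      ≤ ∑ v, ∫⁻ x, ENNReal.ofReal (Φ v x (labs A δ x g)) ∂rowsLaw d k := by
        refine Finset.sum_le_sum fun v _ => ?_
        rw [← lintegral_biUnion_finset (fun s _ t _ h => hd v h) (fun t _ => hS v t)]
        refine le_trans (setLIntegral_le_lintegral _ _) (lintegral_mono fun x => ?_)
        exact ENNReal.ofReal_le_ofReal (cutK_le (h0 v) _ _)
    _ ≤ ∫⁻ _, 1 ∂rowsLaw d k := by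
        rw [← lintegral_finsetSum _ fun v _ => hm v]
        exact lintegral_mono fun x => sum_ofReal_le_one h0 h1 _ _
    _ = 1 := by simp

include hΦ h0 h1 in
/-- The whole kernel is covered by nodes, lost rows, bad rows and the window. -/
lemma cover_le (hδ : 0 < δ) (hA : ∀ g, ‖A g‖ ≤ δ * ‖g‖) {R Rc : ℝ} (hR : 0 ≤ R) (hRy : R * |Rc| ≤ Ry)
    {G : Set (Fin k → Vec d)} (hG : MeasurableSet G) (hGR : ∀ x ∈ G, ∀ ζ, ‖comb x ζ‖ ≤ R * ‖ζ‖)
    (c : ι → ℕ) (S : (v : ι) → Fin (c v) → Set (Fin k → Vec d))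
    (w : ι → ℝ≥0∞) (hw : ∀ v, w v ≤ 1) (g : Vec d) :
    ∑ v, (∫⁻ x, ENNReal.ofReal (Φ v x (labs A δ x g)) ∂rowsLaw d k) * w v
      ≤ ∑ v, ∑ t, ENNReal.ofReal (nodeFn A δ (Φ v) Ry (S v t) g) * w v
        + ∑ v, ENNReal.ofReal (nodeFn A δ (Φ v) Ry (G \ ⋃ t, S v t) g)
        + rowsLaw d k Gᶜ + {g : Vec d | Rc ^ 2 ≤ ‖g‖ ^ 2}.indicator 1 g := by
  classical
  set f : ι → (Fin k → Vec d) → ℝ≥0∞ := fun v x => ENNReal.ofReal (Φ v x (labs A δ x g))
  have hm : ∀ v, Measurable (f v) := fun v =>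
    ((hΦ v).comp (measurable_id.prodMk ((measurable_labs A δ).comp measurable_prodMk_right))).ennreal_ofReal
  have hsum : ∀ x, ∑ v, f v x * w v ≤ 1 := fun x =>
    (Finset.sum_le_sum fun v _ => mul_le_of_le_one_right' (hw v)).trans (sum_ofReal_le_one h0 h1 _ _)
  by_cases hg : g ∈ {g : Vec d | Rc ^ 2 ≤ ‖g‖ ^ 2}
  · rw [Set.indicator_of_mem hg, Pi.one_apply]
    refine le_trans ?_ le_add_self
    calc ∑ v, (∫⁻ x, f v x ∂rowsLaw d k) * w v = ∫⁻ x, ∑ v, f v x * w v ∂rowsLaw d k := by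
          rw [lintegral_finsetSum _ fun v _ => (hm v).mul_const _]
          exact Finset.sum_congr rfl fun v _ => (lintegral_mul_const _ (hm v)).symm
      _ ≤ 1 := (lintegral_mono hsum).trans (by simp)
  rw [Set.indicator_of_notMem hg, add_zero]
  have hg'' : ‖g‖ ≤ |Rc| := by
    have h : ‖g‖ ^ 2 < Rc ^ 2 := not_le.1 hg
    have := sq_lt_sq.1 h
    rw [abs_norm] at this
    exact this.le
  have hin : ∀ v, ∀ x ∈ G, f v x = ENNReal.ofReal (cutK (Φ v) Ry x (labs A δ x g)) := by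
    intro v x hx
    simp only [f, cutK]
    rw [Set.indicator_of_mem]
    exact ((norm_labs_le hδ hA hR (hGR x hx) g).trans
      (mul_le_mul_of_nonneg_left hg'' hR)).trans hRy
  have hbad : ∑ v, (∫⁻ x in Gᶜ, f v x ∂rowsLaw d k) * w v ≤ rowsLaw d k Gᶜ := by
    calc ∑ v, (∫⁻ x in Gᶜ, f v x ∂rowsLaw d k) * w v
        = ∫⁻ x in Gᶜ, ∑ v, f v x * w v ∂rowsLaw d k := by
          rw [lintegral_finsetSum _ fun v _ => (hm v).mul_const _]
          exact Finset.sum_congr rfl fun v _ => (lintegral_mul_const _ (hm v)).symm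
      _ ≤ _ := (setLIntegral_mono measurable_const fun x _ => hsum x).trans (by simp)
  calc ∑ v, (∫⁻ x, f v x ∂rowsLaw d k) * w v
      = ∑ v, (∫⁻ x in G, f v x ∂rowsLaw d k) * w v
          + ∑ v, (∫⁻ x in Gᶜ, f v x ∂rowsLaw d k) * w v := by
        rw [← Finset.sum_add_distrib]
        exact Finset.sum_congr rfl fun v _ => by rw [← add_mul, lintegral_add_compl _ hG]
    _ ≤ _ := add_le_add ?_ hbad
  rw [← Finset.sum_add_distrib]
  refine Finset.sum_le_sum fun v _ => ?_
  simp only [ofReal_nodeFn (hΦ v) (h0 v) (single_le_one h0 h1 v)]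
  rw [setLIntegral_congr_fun hG (hin v)]
  set u := fun x => ENNReal.ofReal (cutK (Φ v) Ry x (labs A δ x g))
  calc (∫⁻ x in G, u x ∂rowsLaw d k) * w v
      ≤ ((∫⁻ x in ⋃ t, S v t, u x ∂rowsLaw d k) + ∫⁻ x in G \ ⋃ t, S v t, u x ∂rowsLaw d k) * w v := by
        gcongr
        refine (lintegral_mono_set (t := (⋃ t, S v t) ∪ (G \ ⋃ t, S v t))
          (by rw [Set.union_diff_self]; exact Set.subset_union_right)).trans (lintegral_union_le _ _ _)
    _ ≤ _ := by
        rw [add_mul]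
        refine add_le_add ?_ (mul_le_of_le_one_right' (hw v))
        rw [← Finset.sum_mul]
        gcongr
        exact (lintegral_iUnion_le _ _).trans (le_of_eq (tsum_fintype _))

include hΦ h0 h1 in
/-- The weights of a family sum to at most the volume of the window. -/
lemma sum_mass_le (S : ι → Set (Fin k → Vec d)) :
    ∑ v, mass (Φ v) Ry (S v) ≤ volume.real (Metric.closedBall (0 : Vec k) Ry) := by
  set V := volume.real (Metric.closedBall (0 : Vec k) Ry)
  have hset : {y : Vec k | ‖y‖ ≤ Ry} = Metric.closedBall (0 : Vec k) Ry := by ext y; simp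
  have hwt : ∀ v x, wt (Φ v) Ry x = ∫ y in Metric.closedBall (0 : Vec k) Ry, Φ v x y := fun v x => by
    rw [wt, ← hset, ← integral_indicator (by rw [hset]; exact measurableSet_closedBall)]
    rfl
  have hi : ∀ v x, IntegrableOn (Φ v x) (Metric.closedBall (0 : Vec k) Ry) := fun v x => by
    refine (integrableOn_const (C := (1:ℝ)) measure_closedBall_lt_top.ne).mono'
      (((hΦ v).comp measurable_prodMk_left).aestronglyMeasurable) (ae_of_all _ fun y => ?_)
    rw [Real.norm_of_nonneg (h0 v x y)]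
    exact single_le_one h0 h1 v x y
  have hle : ∀ x, ∑ v, wt (Φ v) Ry x ≤ V := by
    intro x
    simp only [hwt]
    rw [← integral_finsetSum _ fun v _ => hi v x]
    refine (setIntegral_mono (integrable_finsetSum _ fun v _ => hi v x)
      (integrableOn_const (C := (1:ℝ)) measure_closedBall_lt_top.ne) fun y => h1 x y).trans ?_
    simp [V]
  have hV : ∀ v x, wt (Φ v) Ry x ≤ V := fun v x =>
    (Finset.single_le_sum (fun u _ => wt_nonneg' (h0 u) x) (Finset.mem_univ v)).trans (hle x)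
  calc ∑ v, mass (Φ v) Ry (S v) ≤ ∑ v, ∫ x, wt (Φ v) Ry x ∂rowsLaw d k :=
        Finset.sum_le_sum fun v _ => setIntegral_le_integral (integrable_wt' (hΦ v) (h0 v) (hV v))
          (ae_of_all _ (wt_nonneg' (h0 v)))
    _ = ∫ x, ∑ v, wt (Φ v) Ry x ∂rowsLaw d k :=
        (integral_finsetSum _ fun v _ => integrable_wt' (hΦ v) (h0 v) (hV v)).symm
    _ ≤ ∫ _, V ∂rowsLaw d k :=
        integral_mono (integrable_finsetSum _ fun v _ => integrable_wt' (hΦ v) (h0 v) (hV v))
          (integrable_const V) hle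
    _ = V := by simp

end family

/-- The weight of a shift. -/
noncomputable def mixW (C : Vec d ≃ₗ[ℝ] Vec d) (a : Vec d) : ℝ≥0∞ := ENNReal.ofReal (mixDens C a)

lemma measurable_mixW (C : Vec d ≃ₗ[ℝ] Vec d) : Measurable (mixW C) :=
  (continuous_mixDens C).measurable.ennreal_ofReal

section mix

variable (σ₀ : Measure (Vec d)) [SFinite σ₀] {C : Vec d ≃ₗ[ℝ] Vec d} {ρ : ℝ} (hρ0 : 0 ≤ ρ)
  (hρ1 : ρ < 1) (hC : ∀ x, ‖C x‖ ≤ ρ * ‖x‖)

include hρ0 hρ1 hC in
/-- Children mixed over shifts give back the base. -/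
theorem mix_total {f : Vec d → ℝ≥0∞} (hf : Measurable f) :
    ∫⁻ a, mixW C a * ∫⁻ y, f (a + C y) ∂gw (child σ₀ a C) = ∫⁻ g, f g ∂gw σ₀ := by
  have hCm := measurable_equiv C
  rw [lintegral_mix σ₀ C (measurable_mixW C) (f := fun a y => f (a + C y))
    (hf.comp (measurable_fst.add (hCm.comp measurable_snd))), lintegral_gw _ hf]
  refine lintegral_congr fun g => ?_
  simp only [sub_add_cancel]
  rw [← lintegral_mixDens hρ0 hρ1 hC g, ← lintegral_mul_const]
  · refine lintegral_congr fun y => ?_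
    rw [mixW, ENNReal.ofReal_mul (mixDens_nonneg C _)]
    ring
  · have := continuous_mixDens C
    have := continuous_gaussKer (d := d)
    fun_prop

include hρ0 hρ1 hC in
/-- Only a small part of each point is sent far out. -/
theorem mix_tail {f : Vec d → ℝ≥0∞} (hf : Measurable f) (r Rc : ℝ) :
    ∫⁻ a, mixW C a * ∫⁻ y, {y : Vec d | r ^ 2 ≤ ‖y‖ ^ 2}.indicator 1 y * f (a + C y)
        ∂gw (child σ₀ a C)
      ≤ ∫⁻ g, f g * (ENNReal.ofReal (√2 ^ d * Real.exp (ρ ^ 2 * Rc ^ 2 / 2 - r ^ 2 / 4))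
          + {g : Vec d | Rc ^ 2 ≤ ‖g‖ ^ 2}.indicator 1 g) ∂gw σ₀ := by
  have hCm := measurable_equiv C
  have hK := continuous_gaussKer (d := d)
  have hM := continuous_mixDens C
  have hI : Measurable ({y : Vec d | r ^ 2 ≤ ‖y‖ ^ 2}.indicator (1 : Vec d → ℝ≥0∞)) :=
    measurable_one.indicator (measurableSet_le measurable_const (by fun_prop))
  have hI' : Measurable ({g : Vec d | Rc ^ 2 ≤ ‖g‖ ^ 2}.indicator (1 : Vec d → ℝ≥0∞)) :=
    measurable_one.indicator (measurableSet_le measurable_const (by fun_prop))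
  rw [lintegral_mix σ₀ C (measurable_mixW C)
    (f := fun a y => {y : Vec d | r ^ 2 ≤ ‖y‖ ^ 2}.indicator 1 y * f (a + C y))
    ((hI.comp measurable_snd).mul (hf.comp (measurable_fst.add (hCm.comp measurable_snd)))),
    lintegral_gw (f := fun g => f g * (ENNReal.ofReal (√2 ^ d
        * Real.exp (ρ ^ 2 * Rc ^ 2 / 2 - r ^ 2 / 4))
      + {g : Vec d | Rc ^ 2 ≤ ‖g‖ ^ 2}.indicator 1 g)) _ (hf.mul (measurable_const.add hI'))]
  refine lintegral_mono fun g => ?_
  simp only [sub_add_cancel, Pi.mul_apply]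
  rw [← mul_assoc (ENNReal.ofReal (gaussKer g)), mul_comm (ENNReal.ofReal (gaussKer g)), mul_assoc]
  calc ∫⁻ y, mixW C (g - C y) * (ENNReal.ofReal (gaussKer y)
        * ({y : Vec d | r ^ 2 ≤ ‖y‖ ^ 2}.indicator 1 y * f g))
      = f g * ∫⁻ y, mixW C (g - C y) * (ENNReal.ofReal (gaussKer y)
          * {y : Vec d | r ^ 2 ≤ ‖y‖ ^ 2}.indicator 1 y) := by
        rw [← lintegral_const_mul _ (by unfold mixW; fun_prop)]
        exact lintegral_congr fun y => by ring
    _ ≤ _ := by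
        refine mul_le_mul_right ?_ _
        by_cases hg : g ∈ {g : Vec d | Rc ^ 2 ≤ ‖g‖ ^ 2}
        · rw [Set.indicator_of_mem hg, Pi.one_apply, mul_add, mul_one]
          refine le_trans ?_ le_add_self
          rw [← lintegral_mixDens hρ0 hρ1 hC g]
          refine lintegral_mono fun y => ?_
          rw [mixW, ENNReal.ofReal_mul (mixDens_nonneg C _)]
          exact mul_le_mul_right (mul_le_of_le_one_right' (Set.indicator_le_self' (fun _ _ => zero_le) y)) _
        · rw [Set.indicator_of_notMem hg, add_zero]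
          have hg' : ‖g‖ ^ 2 ≤ Rc ^ 2 := (not_le.1 hg).le
          refine le_trans (lintegral_mono fun y => ?_)
            ((le_of_eq (lintegral_const_mul' (ENNReal.ofReal (Real.exp (-r ^ 2 / 4))) _
              ENNReal.ofReal_ne_top)).trans
              ((mul_le_mul_right (lintegral_mixDens_half hρ0 hρ1 hC g) _).trans ?_))
          · by_cases hy : y ∈ {y : Vec d | r ^ 2 ≤ ‖y‖ ^ 2}
            · rw [Set.indicator_of_mem hy, Pi.one_apply, mul_one, mixW,
                ← ENNReal.ofReal_mul (mixDens_nonneg C _), ← ENNReal.ofReal_mul (Real.exp_pos _).le]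
              refine ENNReal.ofReal_le_ofReal ?_
              rw [mul_left_comm (Real.exp _), mul_left_comm (Real.exp _) (gaussKer y), ← Real.exp_add]
              refine mul_le_mul_of_nonneg_left (le_mul_of_one_le_right (gaussKer_nonneg _) ?_)
                (mixDens_nonneg C _)
              refine Real.one_le_exp ?_
              have : r ^ 2 ≤ ‖y‖ ^ 2 := hy
              linarith
            · simp [hy]
          · rw [← ENNReal.ofReal_mul (Real.exp_pos _).le, ← ENNReal.ofReal_mul (gaussKer_nonneg g)]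
            refine ENNReal.ofReal_le_ofReal ?_
            rw [show Real.exp (-r ^ 2 / 4) * (√2 ^ d * Real.exp (ρ ^ 2 * ‖g‖ ^ 2 / 2) * gaussKer g)
              = gaussKer g * (√2 ^ d * (Real.exp (-r ^ 2 / 4) * Real.exp (ρ ^ 2 * ‖g‖ ^ 2 / 2))) by ring,
              ← Real.exp_add]
            refine mul_le_mul_of_nonneg_left (mul_le_mul_of_nonneg_left (Real.exp_le_exp.2 ?_)
              (by positivity)) (gaussKer_nonneg g)
            have := mul_le_mul_of_nonneg_left hg' (sq_nonneg ρ)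
            linarith

end mix

end Vale.Agent.P309.Sharp
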