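import Vale.Agent.P309.Sharp.Params
import Vale.Agent.P309.Phase
import Mathlib.MeasureTheory.Measure.CharacteristicFunction.TaylorExpansion

/-! Tools for pairs of rows: split coefficient vectors, signed push-forwards, row integrals. -/

namespace Vale.Agent.P309.Sharp

open MeasureTheory ProbabilityTheory Complex
open scoped RealInnerProductSpace Real ENNReal

variable {d k n : ℕ}

/-! ### Split coefficient vectors -/

/-- The first half of a coefficient vector. -/
noncomputable def fstV (y : Vec (k + k)) : Vec k := WithLp.toLp 2 fun l => y (Fin.castAdd k l)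

/-- The second half of a coefficient vector. -/
noncomputable def sndV (y : Vec (k + k)) : Vec k := WithLp.toLp 2 fun l => y (Fin.natAdd k l)

/-- The coefficient vector with given halves. -/
noncomputable def joinV (a b : Vec k) : Vec (k + k) :=
  WithLp.toLp 2 (Fin.append (WithLp.ofLp a) (WithLp.ofLp b))

lemma measurable_fstV : Measurable (fstV (k := k)) := by unfold fstV; fun_prop

lemma measurable_sndV : Measurable (sndV (k := k)) := by unfold sndV; fun_prop

lemma fstV_joinV (a b : Vec k) : fstV (joinV a b) = a := by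
  ext l; simp [fstV, joinV]

lemma sndV_joinV (a b : Vec k) : sndV (joinV a b) = b := by
  ext l; simp [sndV, joinV, -Fin.natAdd_eq_addNat]

lemma measurable_joinV : Measurable fun q : Vec k × Vec k => joinV q.1 q.2 := by
  refine (WithLp.measurable_toLp 2 (Fin (k + k) → ℝ)).comp (measurable_pi_lambda _ fun l => ?_)
  cases l using Fin.addCases with
  | left j =>
    simp only [Fin.append_left]
    exact ((PiLp.continuous_apply 2 _ j).comp continuous_fst).measurable
  | right j =>
    simp only [Fin.append_right]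
    exact ((PiLp.continuous_apply 2 _ j).comp continuous_snd).measurable

lemma inner_joinV (a b : Vec k) (η : Vec (k + k)) :
    ⟪joinV a b, η⟫ = ⟪a, fstV η⟫ + ⟪b, sndV η⟫ := by
  simp [joinV, fstV, sndV, PiLp.inner_apply, Fin.sum_univ_add, -Fin.natAdd_eq_addNat]

lemma comb_append (X Y : Fin k → Vec d) (η : Vec (k + k)) :
    comb (Fin.append X Y) η = comb X (fstV η) + comb Y (sndV η) := by
  simp [comb, fstV, sndV, Fin.sum_univ_add, -Fin.natAdd_eq_addNat]

lemma lintegral_halves {f g : Vec k → ℝ≥0∞} (hf : Measurable f) (hg : Measurable g) :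
    ∫⁻ y : Vec (k + k), f (fstV y) * g (sndV y) = (∫⁻ a, f a) * ∫⁻ b, g b := by
  have hm : Measurable fun y : Vec (k + k) => f (fstV y) * g (sndV y) :=
    (hf.comp measurable_fstV).mul (hg.comp measurable_sndV)
  have hf' : Measurable fun a : Fin k → ℝ => f (WithLp.toLp 2 a) := hf.comp (by fun_prop)
  have hg' : Measurable fun a : Fin k → ℝ => g (WithLp.toLp 2 a) := hg.comp (by fun_prop)
  rw [← (PiLp.volume_preserving_toLp (Fin (k + k))).lintegral_comp hm,
    ← (PiLp.volume_preserving_toLp (Fin k)).lintegral_comp hf,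
    ← (PiLp.volume_preserving_toLp (Fin k)).lintegral_comp hg, volume_pi,
    Vale.Agent.P309.lintegral_pi_append _
      (f := fun a : Fin (k + k) → ℝ => f (fstV (WithLp.toLp 2 a)) * g (sndV (WithLp.toLp 2 a)))
      (hm.comp (by fun_prop)), ← volume_pi]
  have e : ∀ a b : Fin k → ℝ,
      f (fstV (WithLp.toLp 2 (Fin.append a b))) * g (sndV (WithLp.toLp 2 (Fin.append a b)))
        = f (WithLp.toLp 2 a) * g (WithLp.toLp 2 b) := fun a b => by
    simp [fstV, sndV, -Fin.natAdd_eq_addNat]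
  simp only [e]
  simp only [lintegral_const_mul _ hg']
  rw [lintegral_mul_const _ hf']

/-! ### Window kernels and labels -/

variable {Φ : (Fin k → Vec d) → Vec k → ℝ} {Ry : ℝ}

lemma measurable_cutK (hΦ : Measurable (Function.uncurry Φ)) :
    Measurable fun q : (Fin k → Vec d) × Vec k => cutK Φ Ry q.1 q.2 := by
  have hs : MeasurableSet {q : (Fin k → Vec d) × Vec k | ‖q.2‖ ≤ Ry} :=
    measurableSet_le (by fun_prop) measurable_const
  have e : (fun q : (Fin k → Vec d) × Vec k => cutK Φ Ry q.1 q.2)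
      = {q : (Fin k → Vec d) × Vec k | ‖q.2‖ ≤ Ry}.indicator (Function.uncurry Φ) := by
    funext q
    by_cases h : ‖q.2‖ ≤ Ry
    · rw [cutK, Set.indicator_of_mem (show q.2 ∈ {y : Vec k | ‖y‖ ≤ Ry} from h),
        Set.indicator_of_mem (show q ∈ {q : (Fin k → Vec d) × Vec k | ‖q.2‖ ≤ Ry} from h)]
      rfl
    · rw [cutK, Set.indicator_of_notMem (show q.2 ∉ {y : Vec k | ‖y‖ ≤ Ry} from h),
        Set.indicator_of_notMem (show q ∉ {q : (Fin k → Vec d) × Vec k | ‖q.2‖ ≤ Ry} from h)]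
  rw [e]
  exact hΦ.indicator hs

lemma cutK_nonneg (h0 : ∀ x y, 0 ≤ Φ x y) (x : Fin k → Vec d) (y : Vec k) : 0 ≤ cutK Φ Ry x y :=
  Set.indicator_nonneg (fun y _ => h0 x y) y

lemma cutK_le_one (h1 : ∀ x y, Φ x y ≤ 1) (x : Fin k → Vec d) (y : Vec k) : cutK Φ Ry x y ≤ 1 := by
  by_cases h : y ∈ {y : Vec k | ‖y‖ ≤ Ry}
  · rw [cutK, Set.indicator_of_mem h]; exact h1 x y
  · rw [cutK, Set.indicator_of_notMem h]; exact zero_le_one

lemma measurableSet_window' (Ry : ℝ) : MeasurableSet {y : Vec k | ‖y‖ ≤ Ry} :=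
  measurableSet_le measurable_norm measurable_const

lemma volume_window_lt_top (Ry : ℝ) : volume {y : Vec k | ‖y‖ ≤ Ry} < ⊤ := by
  refine lt_of_le_of_lt (measure_mono ?_) (measure_closedBall_lt_top (x := (0 : Vec k)) (r := Ry))
  intro y hy
  simpa [mem_closedBall_zero_iff] using hy

lemma integrable_cutK (hΦ : Measurable (Function.uncurry Φ)) (h0 : ∀ x y, 0 ≤ Φ x y)
    (h1 : ∀ x y, Φ x y ≤ 1) (x : Fin k → Vec d) : Integrable (cutK Φ Ry x) := by
  have hc := measurable_cutK (Ry := Ry) hΦ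
  have hm : Measurable ((fun q : (Fin k → Vec d) × Vec k => cutK Φ Ry q.1 q.2) ∘ Prod.mk x) :=
    hc.comp measurable_prodMk_left
  refine ((integrableOn_const (C := (1:ℝ)) (volume_window_lt_top Ry).ne).integrable_indicator
    (measurableSet_window' Ry)).mono' hm.aestronglyMeasurable (ae_of_all _ fun y => ?_)
  rw [Real.norm_of_nonneg (cutK_nonneg h0 x y)]
  by_cases h : y ∈ {y : Vec k | ‖y‖ ≤ Ry}
  · rw [Set.indicator_of_mem h]; exact cutK_le_one h1 x y
  · rw [Set.indicator_of_notMem h, cutK, Set.indicator_of_notMem h]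

lemma wt_nonneg (h0 : ∀ x y, 0 ≤ Φ x y) (x : Fin k → Vec d) : 0 ≤ wt Φ Ry x :=
  integral_nonneg fun y => cutK_nonneg h0 x y

lemma wt_le (hΦ : Measurable (Function.uncurry Φ)) (h0 : ∀ x y, 0 ≤ Φ x y) (h1 : ∀ x y, Φ x y ≤ 1)
    (x : Fin k → Vec d) : wt Φ Ry x ≤ volume.real {y : Vec k | ‖y‖ ≤ Ry} := by
  rw [← integral_indicator_one (measurableSet_window' Ry)]
  refine integral_mono (integrable_cutK hΦ h0 h1 x)
    ((integrableOn_const (C := (1:ℝ)) (volume_window_lt_top Ry).ne).integrable_indicator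
      (measurableSet_window' Ry)) fun y => ?_
  by_cases h : y ∈ {y : Vec k | ‖y‖ ≤ Ry}
  · rw [Set.indicator_of_mem h]; exact cutK_le_one h1 x y
  · rw [Set.indicator_of_notMem h, cutK, Set.indicator_of_notMem h]

lemma measurable_wt (hΦ : Measurable (Function.uncurry Φ)) : Measurable (wt Φ Ry) := by
  have hc := (measurable_cutK (Ry := Ry) hΦ).stronglyMeasurable
  exact (hc.integral_prod_right' (ν := (volume : Measure (Vec k)))).measurable

lemma integrable_wt (hΦ : Measurable (Function.uncurry Φ)) (h0 : ∀ x y, 0 ≤ Φ x y)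
    (h1 : ∀ x y, Φ x y ≤ 1) (S : Set (Fin k → Vec d)) :
    Integrable (wt Φ Ry) ((rowsLaw d k).restrict S) :=
  Integrable.of_bound (measurable_wt hΦ).aestronglyMeasurable (volume.real {y : Vec k | ‖y‖ ≤ Ry})
    (ae_of_all _ fun x => by
      rw [Real.norm_of_nonneg (wt_nonneg h0 x)]; exact wt_le hΦ h0 h1 x)

lemma mass_nonneg (h0 : ∀ x y, 0 ≤ Φ x y) (S : Set (Fin k → Vec d)) : 0 ≤ mass Φ Ry S :=
  integral_nonneg fun x => wt_nonneg h0 x

variable (A : Vec d ≃ₗ[ℝ] Vec d) (δ : ℝ)

lemma inner_labs (x : Fin k → Vec d) (g : Vec d) (ζ : Vec k) :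
    ⟪labs A δ x g, ζ⟫ = ⟪g, comb (hrows A δ x) ζ⟫ := by
  simp only [labs, comb, hrows, inner_sum, inner_smul_right]
  rw [PiLp.inner_apply]
  refine Finset.sum_congr rfl fun l _ => ?_
  simp [real_inner_comm g]

lemma measurable_hrows : Measurable (hrows (k := k) A δ) :=
  measurable_pi_lambda _ fun l =>
    (hat A δ).continuous_of_finiteDimensional.measurable.comp (measurable_pi_apply l)

lemma measurable_labs_left (x : Fin k → Vec d) : Measurable (labs A δ x) := by
  have h : Measurable ((fun q : (Fin k → Vec d) × Vec d => labs A δ q.1 q.2) ∘ Prod.mk x) :=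
    (measurable_labs A δ).comp measurable_prodMk_left
  exact h

/-! ### The kernel in preconditioned coordinates -/

lemma adjoint_precond {i : ℕ} (W : Fin i → Vec d) (ξ : Vec d) :
    LinearMap.adjoint (precond W : Vec d →ₗ[ℝ] Vec d) ξ = precond W ξ := by
  refine ext_inner_left ℝ fun y => ?_
  rw [LinearMap.adjoint_inner_right]
  simp only [LinearEquiv.coe_coe, precond, diagEquiv_apply, diag_symm]

lemma norm_precond_le {i : ℕ} (W : Fin i → Vec d) (x : Vec d) : ‖precond W x‖ ≤ ‖x‖ := by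
  refine (norm_diag_le (c := 1) (fun q => ?_) zero_le_one x).trans (le_of_eq (one_mul _))
  rw [abs_of_pos (pickScale_pos W q)]
  exact pickScale_le_one W q

lemma integrable_kerB (B : Vec d ≃ₗ[ℝ] Vec d) {σ : ℝ} (hσ : 0 < σ) (R : ℝ) :
    Integrable (kerB B σ R) ∧ ∫ x, |kerB B σ R x| = ∫ x : Vec d, |kerK σ R x| := by
  set D := |LinearMap.det (B : Vec d →ₗ[ℝ] Vec d)|
  have hD : 0 < D := abs_pos.2 (LinearEquiv.isUnit_det' B).ne_zero
  have he : MeasurableEmbedding (B : Vec d → Vec d) :=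
    B.toContinuousLinearEquiv.toHomeomorph.toMeasurableEquiv.measurableEmbedding
  have hB : ∀ z, kerB B σ R (B z) = D⁻¹ * kerK σ R z := fun z => by
    simp only [kerB, LinearEquiv.symm_apply_apply, D]
  constructor
  · have hmap : (volume : Measure (Vec d)).map B
        = ENNReal.ofReal |(LinearMap.det (B : Vec d →ₗ[ℝ] Vec d))⁻¹| • volume :=
      Measure.map_linearMap_addHaar_eq_smul_addHaar volume (f := (B : Vec d →ₗ[ℝ] Vec d))
        (LinearEquiv.isUnit_det' B).ne_zero
    have h2 : Integrable (kerB B σ R) ((volume : Measure (Vec d)).map B) := by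
      rw [he.integrable_map_iff]
      exact ((integrable_kerK (d := d) hσ R).const_mul D⁻¹).congr (ae_of_all _ fun z => (hB z).symm)
    rw [hmap] at h2
    refine (integrable_smul_measure ?_ ENNReal.ofReal_ne_top).1 h2
    simp [abs_inv, (LinearEquiv.isUnit_det' B).ne_zero]
  · have h := integral_comp_equiv B fun x => |kerB B σ R x|
    simp only [hB, abs_mul, abs_inv, abs_of_pos hD, integral_const_mul, smul_eq_mul] at h
    exact (mul_left_cancel₀ (inv_ne_zero hD.ne') h).symm

/-! ### Polynomial weights along rows at a given width -/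

/-- Polynomial weights of width `√K` along rows, with a free tilt. -/
theorem lintegral_poly_scaled_le {N : ℕ} (X : Fin n → Vec (N + 1)) {p : ℕ} (hp : n + 1 ≤ 2 * p)
    {K m : ℝ} (hK : 0 < K) (hm : 0 < m) :
    ∫⁻ ζ : Vec n, ENNReal.ofReal ((2 / (1 + ‖comb X ζ‖ ^ 2 / K)) ^ p)
      ≤ ENNReal.ofReal (2 * Real.exp m * 8 ^ p * √(π * K / m) ^ n) * jac X := by
  set c : ℝ := √(K / (2 * m))
  have hc : 0 < c := by positivity
  set φ : ℕ → Vec n → ℝ≥0∞ := fun l ζ => ENNReal.ofReal (Real.exp m * 8 ^ p * ((4 ^ p) ^ l)⁻¹)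
    * ENNReal.ofReal (Real.exp (-‖comb X ζ‖ ^ 2 / (2 * ((2:ℝ) ^ l * c) ^ 2)))
  have hpt : ∀ ζ, ENNReal.ofReal ((2 / (1 + ‖comb X ζ‖ ^ 2 / K)) ^ p) ≤ ∑' l, φ l ζ := by
    intro ζ
    set x := ‖comb X ζ‖ ^ 2 / K with hx
    have hx0 : 0 ≤ x := by positivity
    have hex : ∃ l : ℕ, x ≤ 4 ^ l := by
      obtain ⟨l, hl⟩ := pow_unbounded_of_one_lt x (show (1:ℝ) < 4 by norm_num)
      exact ⟨l, hl.le⟩
    classical
    set l := Nat.find hex
    have hl : x ≤ 4 ^ l := Nat.find_spec hex
    have hl' : (4:ℝ) ^ l ≤ 4 * (1 + x) := by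
      rcases Nat.eq_zero_or_pos l with h | h
      · rw [h, pow_zero]; linarith
      · have := Nat.find_min hex (show l - 1 < l by omega)
        rw [not_le] at this
        calc (4:ℝ) ^ l = 4 * 4 ^ (l - 1) := by rw [← pow_succ']; congr 1; omega
          _ ≤ _ := by linarith
    refine le_trans ?_ (ENNReal.le_tsum l)
    simp only [φ]
    rw [← ENNReal.ofReal_mul (by positivity)]
    refine ENNReal.ofReal_le_ofReal ?_
    have h2l : ((2:ℝ) ^ l * c) ^ 2 = 4 ^ l * (K / (2 * m)) := by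
      rw [mul_pow, Real.sq_sqrt (by positivity), ← pow_mul, mul_comm l 2, pow_mul]; norm_num
    rw [h2l]
    have he : 1 ≤ Real.exp m * Real.exp (-‖comb X ζ‖ ^ 2 / (2 * (4 ^ l * (K / (2 * m))))) := by
      rw [← Real.exp_add]
      refine Real.one_le_exp ?_
      have h5 : -‖comb X ζ‖ ^ 2 / (2 * (4 ^ l * (K / (2 * m)))) = -(m * (x / 4 ^ l)) := by
        rw [hx]; field_simp
      rw [h5]
      have : x / 4 ^ l ≤ 1 := (div_le_one (by positivity)).2 hl
      nlinarith
    calc (2 / (1 + x)) ^ p ≤ (8 * (4 ^ l)⁻¹) ^ p := by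
          refine pow_le_pow_left₀ (by positivity) ?_ p
          rw [← div_eq_mul_inv, div_le_div_iff₀ (by positivity) (by positivity)]
          linarith
      _ = 8 ^ p * ((4 ^ p) ^ l)⁻¹ * 1 := by
          rw [mul_pow, inv_pow, ← pow_mul, ← pow_mul, mul_comm l p, mul_one]
      _ ≤ 8 ^ p * ((4 ^ p) ^ l)⁻¹
            * (Real.exp m * Real.exp (-‖comb X ζ‖ ^ 2 / (2 * (4 ^ l * (K / (2 * m)))))) :=
          mul_le_mul_of_nonneg_left he (by positivity)
      _ = _ := by ring
  have hcc := continuous_comb X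
  refine (lintegral_mono hpt).trans ?_
  rw [lintegral_tsum fun l => by fun_prop]
  have hle : ∀ l, ∫⁻ ζ, φ l ζ
      ≤ ENNReal.ofReal (Real.exp m * 8 ^ p * √(π * K / m) ^ n) * jac X
          * ENNReal.ofReal ((1/2) ^ l) := by
    intro l
    simp only [φ]
    rw [lintegral_const_mul' _ _ ENNReal.ofReal_ne_top]
    refine (mul_le_mul_right (lintegral_exp_comb_scaled X (by positivity)) _).trans ?_
    rw [← mul_assoc, mul_right_comm (ENNReal.ofReal _) (jac X), ← ENNReal.ofReal_mul (by positivity),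
      ← ENNReal.ofReal_mul (by positivity)]
    refine mul_le_mul_left (ENNReal.ofReal_le_ofReal ?_) _
    have hsq : √(2 * π) * c = √(π * K / m) := by
      rw [← Real.sqrt_mul (by positivity)]
      congr 1
      field_simp
    have h4 : (2:ℝ) ^ (l * (n + 1)) ≤ (4 ^ p) ^ l := by
      rw [show (4:ℝ) = 2 ^ 2 by norm_num, ← pow_mul, ← pow_mul]
      refine pow_le_pow_right₀ one_le_two ?_
      rw [mul_comm l, ← mul_assoc]
      exact Nat.mul_le_mul_right l hp
    rw [show √(2 * π) * ((2:ℝ) ^ l * c) = √(π * K / m) * 2 ^ l by rw [← hsq]; ring, mul_pow,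
      ← pow_mul (2:ℝ), one_div_pow]
    calc Real.exp m * 8 ^ p * ((4 ^ p) ^ l)⁻¹ * (√(π * K / m) ^ n * 2 ^ (l * n))
        = Real.exp m * 8 ^ p * √(π * K / m) ^ n * (((4 ^ p) ^ l)⁻¹ * 2 ^ (l * n)) := by ring
      _ ≤ Real.exp m * 8 ^ p * √(π * K / m) ^ n * (1 / 2 ^ l) := by
          refine mul_le_mul_of_nonneg_left ?_ (by positivity)
          rw [← div_eq_inv_mul, div_le_div_iff₀ (by positivity) (by positivity), ← pow_add, one_mul]
          refine le_trans (le_of_eq ?_) h4
          ring_nf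
  refine (ENNReal.tsum_le_tsum hle).trans ?_
  rw [ENNReal.tsum_mul_left, ← ENNReal.ofReal_tsum_of_nonneg (fun l => by positivity)
    (summable_geometric_two), tsum_geometric_two, mul_right_comm, ← ENNReal.ofReal_mul (by positivity)]
  refine le_of_eq ?_
  congr 2
  ring

/-! ### Push-forwards with integrable characteristic functions -/

lemma charFun_le_of_lintegral {E : Type*} [NormedAddCommGroup E] [InnerProductSpace ℝ E]
    [FiniteDimensional ℝ E] [MeasurableSpace E] [BorelSpace E] {χ : E → ℂ} (hχ : Continuous χ)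
    {b : E → ℝ} {S : ℝ} (hS : 0 ≤ S) (hb : ∀ ξ, ‖χ ξ‖ ≤ b ξ)
    (hi : ∫⁻ ξ, ENNReal.ofReal (b ξ) ≤ ENNReal.ofReal S) :
    Integrable χ ∧ ∫ ξ, ‖χ ξ‖ ≤ S := by
  have hl : ∫⁻ ξ, ‖χ ξ‖ₑ ≤ ENNReal.ofReal S := le_trans (lintegral_mono fun ξ => by
    rw [← ofReal_norm]; exact ENNReal.ofReal_le_ofReal (hb ξ)) hi
  have hint : Integrable χ := ⟨hχ.aestronglyMeasurable, lt_of_le_of_lt hl ENNReal.ofReal_lt_top⟩
  refine ⟨hint, ?_⟩
  rw [integral_norm_eq_lintegral_enorm hχ.aestronglyMeasurable]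
  exact ENNReal.toReal_le_of_le_ofReal hS hl

/-- The signed parts of `δ₀ - kerB`. -/
noncomputable def parts (B : Vec d ≃ₗ[ℝ] Vec d) (R : ℝ) : Fin 3 → Measure (Vec d) :=
  ![Measure.dirac 0, volume.withDensity fun z => ENNReal.ofReal (kerB B 1 R z),
    volume.withDensity fun z => ENNReal.ofReal (-kerB B 1 R z)]

/-- Their signs. -/
def sgn : Fin 3 → ℝ := ![1, -1, 1]

lemma isFiniteMeasure_parts (B : Vec d ≃ₗ[ℝ] Vec d) (R : ℝ) (i : Fin 3) :
    IsFiniteMeasure (parts B R i) := by
  have hi := (integrable_kerB B one_pos R).1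
  fin_cases i
  · show IsFiniteMeasure (Measure.dirac (0 : Vec d)); infer_instance
  · exact isFiniteMeasure_withDensity_ofReal hi.hasFiniteIntegral
  · exact isFiniteMeasure_withDensity_ofReal hi.neg.hasFiniteIntegral


/-- The signed parts integrate as `δ₀ - kerB`. -/
lemma sum_parts_integral {E : Type*} [NormedAddCommGroup E] [NormedSpace ℝ E] [CompleteSpace E]
    (B : Vec d ≃ₗ[ℝ] Vec d) (R : ℝ) {f : Vec d → E} (hf : StronglyMeasurable f) {C : ℝ}
    (hb : ∀ z, ‖f z‖ ≤ C) :
    ∑ i, sgn i • ∫ z, f z ∂parts B R i = f 0 - ∫ z, kerB B 1 R z • f z := by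
  obtain ⟨hi, -⟩ := integrable_kerB B one_pos R
  have hk := measurable_kerB B 1 R
  have key : ∀ u : Vec d → ℝ, Measurable u → Integrable u →
      ∫ z, f z ∂(volume.withDensity fun z => ENNReal.ofReal (u z)) = ∫ z, max (u z) 0 • f z := by
    intro u hu _
    rw [integral_withDensity_eq_integral_toReal_smul hu.ennreal_ofReal
      (ae_of_all _ fun _ => ENNReal.ofReal_lt_top)]
    simp only [ENNReal.toReal_ofReal']
  have hint : ∀ u : Vec d → ℝ, Integrable u → Integrable fun z => max (u z) 0 • f z := fun u hu =>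
    hu.pos_part.smul_bdd C hf.aestronglyMeasurable (ae_of_all _ hb)
  simp only [Fin.sum_univ_three, parts, sgn, Matrix.cons_val_zero, Matrix.cons_val_one,
    Matrix.cons_val, integral_dirac' f 0 hf, one_smul, neg_smul]
  rw [key _ hk hi, key (fun z => -kerB B 1 R z) hk.neg hi.neg, ← sub_eq_add_neg, sub_add, ← integral_sub (hint _ hi) (hint (fun z => -kerB B 1 R z) hi.neg)]
  congr 1
  refine integral_congr_ae (ae_of_all _ fun z => ?_)
  simp only [← sub_smul]
  congr 1
  rcases le_total 0 (kerB B 1 R z) with h | h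
  · simp [max_eq_left h, h]
  · simp [max_eq_right h, h]

lemma norm_labels_bound (B : Vec d ≃ₗ[ℝ] Vec d) (R : ℝ) {f : Vec d → ℝ}
    (hb : ∀ z, |f z| ≤ 1) : |∫ z, kerB B 1 R z * f z| ≤ ∫ x : Vec d, |kerK 1 R x| := by
  rw [← (integrable_kerB B one_pos R).2, ← Real.norm_eq_abs]
  refine norm_integral_le_of_norm_le (integrable_kerB B one_pos R).1.abs (ae_of_all _ fun z => ?_)
  rw [norm_mul, Real.norm_eq_abs, Real.norm_eq_abs]
  exact mul_le_of_le_one_right (abs_nonneg _) (hb z)

end Vale.Agent.P309.Sharp
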