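import Vale.Agent.P309.Sharp.PairTools

/-! The high part of a terminal node, the mass bound of a node, and smoothing against a base. -/

namespace Vale.Agent.P309.Sharp

open MeasureTheory ProbabilityTheory Filter Complex
open scoped RealInnerProductSpace Real ENNReal

variable {d k : ℕ}

/-- The high part contributed by one tuple of rows. -/
noncomputable def psiK (A : Vec d ≃ₗ[ℝ] Vec d) (δ : ℝ) (Φ : (Fin k → Vec d) → Vec k → ℝ) (Ry : ℝ)
    (B : Vec d ≃ₗ[ℝ] Vec d) (R : ℝ) (x : Fin k → Vec d) (g : Vec d) : ℝ :=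
  cutK Φ Ry x (labs A δ x g) - ∫ z, kerB B 1 R z * cutK Φ Ry x (labs A δ x (g - z))

/-- Pairs of row tuples that are not transversal. -/
def badSet (A : Vec d ≃ₗ[ℝ] Vec d) (δ : ℝ) (B : Vec d ≃ₗ[ℝ] Vec d) (Λ : ℝ) (v : Vec d) :
    Set ((Fin k → Vec d) × (Fin k → Vec d)) :=
  {q | ∃ (ζ ζ' : Vec k) (c : ℝ), Λ * ‖comb (hrows A δ q.1) ζ + (comb (hrows A δ q.2) ζ' - c • v)‖
    < ‖B (comb (hrows A δ q.2) ζ' - c • v)‖}

lemma measurableSet_badSet (A : Vec d ≃ₗ[ℝ] Vec d) (δ : ℝ) (B : Vec d ≃ₗ[ℝ] Vec d) (Λ : ℝ)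
    (v : Vec d) : MeasurableSet (badSet (k := k) A δ B Λ v) := by
  have hh := (hat A δ).continuous_of_finiteDimensional
  have hBc := (B : Vec d →ₗ[ℝ] Vec d).continuous_of_finiteDimensional
  have h2 : Continuous fun q : (Fin k → Vec d) × (Fin k → Vec d) => hrows A δ q.1 := by
    unfold hrows
    exact continuous_pi fun l => hh.comp ((continuous_apply l).comp continuous_fst)
  have h3 : Continuous fun q : (Fin k → Vec d) × (Fin k → Vec d) => hrows A δ q.2 := by
    unfold hrows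
    exact continuous_pi fun l => hh.comp ((continuous_apply l).comp continuous_snd)
  have e : badSet (k := k) A δ B Λ v = ⋃ (ζ : Vec k) (ζ' : Vec k) (c : ℝ),
      {q | Λ * ‖comb (hrows A δ q.1) ζ + (comb (hrows A δ q.2) ζ' - c • v)‖
        < ‖B (comb (hrows A δ q.2) ζ' - c • v)‖} := by
    ext q; simp [badSet]
  rw [e]
  refine (isOpen_iUnion fun ζ => isOpen_iUnion fun ζ' => isOpen_iUnion fun c =>
    isOpen_lt ?_ ?_).measurableSet
  · unfold comb; fun_prop
  · refine (hBc.comp ?_).norm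
    unfold comb; fun_prop

/-! ### Orthogonal component along a direction -/

lemma coord_perp {N : ℕ} {e : Fin N → Vec d} {v : Vec d} (hv : ∀ r, ⟪v, e r⟫ = 0) (ξ : Vec d) :
    coord e (perp v ξ) = coord e ξ := by
  ext r
  rw [coord_apply, coord_apply]
  have h : e r ∈ (Submodule.span ℝ {v})ᗮ :=
    Submodule.mem_orthogonal_singleton_iff_inner_right.2 (hv r)
  have h2 : (Submodule.span ℝ {v})ᗮ.starProjection (e r) = e r :=
    Submodule.starProjection_eq_self_iff.2 h
  rw [perp, ← Submodule.inner_starProjection_left_eq_right, h2]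

lemma norm_coord_le_perp {N : ℕ} {e : Fin N → Vec d} (he : Orthonormal ℝ e) {v : Vec d}
    (hv : ∀ r, ⟪v, e r⟫ = 0) (ξ : Vec d) : ‖coord e ξ‖ ≤ ‖perp v ξ‖ := by
  rw [← coord_perp hv, ← sq_le_sq₀ (norm_nonneg _) (norm_nonneg _), norm_sq_split he (perp v ξ)]
  exact le_add_of_nonneg_right (sq_nonneg _)

lemma exists_perp_eq (v ξ : Vec d) : ∃ c : ℝ, ξ - perp v ξ = c • v := by
  have h := Submodule.starProjection_add_starProjection_orthogonal (K := Submodule.span ℝ {v}) ξ
  obtain ⟨c, hc⟩ := Submodule.mem_span_singleton.1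
    ((Submodule.span ℝ {v}).starProjection_apply_mem ξ)
  exact ⟨c, by rw [hc, perp]; exact sub_eq_iff_eq_add.2 h.symm⟩

lemma spanDist_le_comb (w : Vec d) (Y : Fin k → Vec d) (a : Vec k) :
    spanDist w Y ≤ ENNReal.ofReal ‖w - comb Y a‖ := by
  rw [spanDist_eq]
  refine ENNReal.ofReal_le_ofReal ?_
  rw [(Submodule.span ℝ (Set.range Y)).starProjection_minimal]
  exact ciInf_le ⟨0, by rintro _ ⟨y, rfl⟩; positivity⟩
    (⟨comb Y a, Submodule.sum_mem _ fun i _ => Submodule.smul_mem _ _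
      (Submodule.subset_span ⟨i, rfl⟩)⟩ : Submodule.span ℝ (Set.range Y))

/-- Transversal rows see at least a fixed fraction of a preconditioned frequency. -/
lemma norm_le_of_not_bad {A : Vec d ≃ₗ[ℝ] Vec d} {δ : ℝ} {i : ℕ} {W : Fin i → Vec d} {Λ : ℝ}
    (hΛ : 0 ≤ Λ) {v : Vec d} {x x' : Fin k → Vec d}
    (h : (x, x') ∉ badSet A δ (precond W) Λ v) (ζ ζ' : Vec k) :
    ‖precond W (comb (hrows A δ x) ζ)‖
      ≤ (Λ + 1) * ‖perp v (comb (hrows A δ x) ζ + comb (hrows A δ x') ζ')‖ := by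
  set ξ := comb (hrows A δ x) ζ
  set ξ' := comb (hrows A δ x') ζ'
  obtain ⟨c, hc⟩ := exists_perp_eq v (ξ + ξ')
  have hP : perp v (ξ + ξ') = ξ + (ξ' - c • v) := by
    rw [← hc]; abel
  have hn : ‖precond W (ξ' - c • v)‖ ≤ Λ * ‖ξ + (ξ' - c • v)‖ := by
    by_contra hcon
    exact h ⟨ζ, ζ', c, not_le.1 hcon⟩
  have h1 : precond W ξ = precond W (ξ + (ξ' - c • v)) - precond W (ξ' - c • v) := by
    rw [← map_sub, add_sub_cancel_right]
  rw [hP, h1]
  refine (norm_sub_le _ _).trans ?_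
  linarith [norm_precond_le W (ξ + (ξ' - c • v))]

/-! ### One tuple and two tuples -/

section
variable {A : Vec d ≃ₗ[ℝ] Vec d} {δ : ℝ} {Φ : (Fin k → Vec d) → Vec k → ℝ} {Ry : ℝ}
  (hΦ : Measurable (Function.uncurry Φ)) (h0 : ∀ x y, 0 ≤ Φ x y) (h1 : ∀ x y, Φ x y ≤ 1)
include hΦ h0 h1

/-- One tuple of rows against a base. -/
lemma single_le (ν : Measure (Vec d)) [IsFiniteMeasure ν] (x : Fin k → Vec d) {b : Vec k → ℝ}
    {S : ℝ} (hS : 0 ≤ S) (hb : ∀ ζ, ‖charFun ν (comb (hrows A δ x) ζ)‖ ≤ b ζ)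
    (hi : ∫⁻ ζ, ENNReal.ofReal (b ζ) ≤ ENNReal.ofReal S) :
    ∫⁻ g, ENNReal.ofReal (cutK Φ Ry x (labs A δ x g)) ∂ν ≤ ENNReal.ofReal (S * wt Φ Ry x) := by
  have hl := measurable_labs_left A δ x
  have hcf : ∀ ζ, charFun (ν.map (labs A δ x)) ζ = charFun ν (comb (hrows A δ x) ζ) := by
    intro ζ
    rw [charFun_apply, integral_map hl.aemeasurable (by fun_prop), charFun_apply]
    simp only [inner_labs]
  obtain ⟨hint, hnorm⟩ := charFun_le_of_lintegral (continuous_charFun (μ := ν.map (labs A δ x))) hS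
    (fun ζ => by rw [hcf]; exact hb ζ) hi
  have hF := integrable_cutK (Ry := Ry) hΦ h0 h1 x
  have hFm : Measurable (cutK Φ Ry x) := by
    have h : Measurable ((fun q : (Fin k → Vec d) × Vec k => cutK Φ Ry q.1 q.2) ∘ Prod.mk x) :=
      (measurable_cutK hΦ).comp measurable_prodMk_left
    exact h
  have hFν : Integrable (cutK Φ Ry x) (ν.map (labs A δ x)) :=
    Integrable.of_bound hFm.aestronglyMeasurable 1 (ae_of_all _ fun y => by
      rw [Real.norm_of_nonneg (cutK_nonneg h0 x y)]; exact cutK_le_one h1 x y)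
  have h2pi : (1:ℝ) ≤ (2 * π) ^ Module.finrank ℝ (Vec k) :=
    one_le_pow₀ (by linarith [Real.two_le_pi])
  have h := abs_sum_integral_le (ι := Unit) (fun _ => (1:ℝ)) (fun _ => ν.map (labs A δ x)) (S := S)
    (by simpa using hint) (by simpa using hnorm.trans (le_mul_of_one_le_left hS h2pi)) hF fun _ => hFν
  simp only [Finset.univ_unique, Finset.sum_singleton, one_mul] at h
  have h' : ∫ y, cutK Φ Ry x y ∂ν.map (labs A δ x) ≤ S * wt Φ Ry x := by
    refine (le_abs_self _).trans (h.trans (le_of_eq ?_))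
    simp only [wt, abs_of_nonneg (cutK_nonneg h0 x _)]
  rw [← lintegral_map (f := fun y => ENNReal.ofReal (cutK Φ Ry x y)) hFm.ennreal_ofReal hl,
    ← ofReal_integral_eq_lintegral_ofReal hFν (ae_of_all _ fun y => cutK_nonneg h0 x y)]
  exact ENNReal.ofReal_le_ofReal h'

omit h0 h1 in
lemma measurable_psiK (B : Vec d ≃ₗ[ℝ] Vec d) (R : ℝ) :
    Measurable fun q : (Fin k → Vec d) × Vec d => psiK A δ Φ Ry B R q.1 q.2 := by
  have hc := measurable_cutK (Ry := Ry) hΦ
  have hl := measurable_labs (k := k) A δ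
  have m1 : Measurable ((fun q : (Fin k → Vec d) × Vec k => cutK Φ Ry q.1 q.2) ∘
      fun q : (Fin k → Vec d) × Vec d => (q.1, labs A δ q.1 q.2)) :=
    hc.comp (measurable_fst.prodMk hl)
  have ha : Measurable fun q : ((Fin k → Vec d) × Vec d) × Vec d => (q.1.1, q.1.2 - q.2) :=
    (measurable_fst.comp measurable_fst).prodMk ((measurable_snd.comp measurable_fst).sub measurable_snd)
  have m2 : Measurable (((fun q : (Fin k → Vec d) × Vec k => cutK Φ Ry q.1 q.2) ∘
      fun q : (Fin k → Vec d) × Vec d => (q.1, labs A δ q.1 q.2)) ∘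
      fun q : ((Fin k → Vec d) × Vec d) × Vec d => (q.1.1, q.1.2 - q.2)) := m1.comp ha
  have m3 := (((measurable_kerB B 1 R).comp
    (measurable_snd (α := (Fin k → Vec d) × Vec d))).mul m2).stronglyMeasurable.integral_prod_right'
      (ν := (volume : Measure (Vec d)))
  exact m1.sub m3.measurable

omit hΦ in
lemma abs_psiK_le (B : Vec d ≃ₗ[ℝ] Vec d) (R : ℝ) (x : Fin k → Vec d) (g : Vec d) :
    |psiK A δ Φ Ry B R x g| ≤ 1 + ∫ z : Vec d, |kerK 1 R z| := by
  have hb : ∀ y, |cutK Φ Ry x y| ≤ 1 := fun y => by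
    rw [abs_of_nonneg (cutK_nonneg h0 x y)]; exact cutK_le_one h1 x y
  refine (abs_sub _ _).trans (add_le_add (hb _) ?_)
  exact norm_labels_bound B R fun z => hb _

/-- Two tuples of rows against a base. -/
theorem pair_le {B : Vec d ≃ₗ[ℝ] Vec d}
    (hB : ∀ ξ, LinearMap.adjoint (B : Vec d →ₗ[ℝ] Vec d) ξ = B ξ) (R : ℝ) (ν : Measure (Vec d))
    [IsFiniteMeasure ν] (x x' : Fin k → Vec d) {b : Vec (k + k) → ℝ} {S : ℝ} (hS : 0 ≤ S)
    (hb : ∀ η, ‖charFun ν (comb (hrows A δ x) (fstV η) + comb (hrows A δ x') (sndV η))‖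
      * ((1 - mult 1 R (B (comb (hrows A δ x) (fstV η))))
        * (1 - mult 1 R (B (comb (hrows A δ x') (sndV η))))) ≤ b η)
    (hi : ∫⁻ η, ENNReal.ofReal (b η) ≤ ENNReal.ofReal S) :
    |∫ g, psiK A δ Φ Ry B R x g * psiK A δ Φ Ry B R x' g ∂ν| ≤ S * (wt Φ Ry x * wt Φ Ry x') := by
  set μ := parts B R
  have : ∀ i, IsFiniteMeasure (μ i) := isFiniteMeasure_parts B R
  set L : Vec d × Vec d × Vec d → Vec (k + k) := fun q =>
    joinV (labs A δ x (q.1 - q.2.1)) (labs A δ x' (q.1 - q.2.2))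
  have hl := measurable_labs_left A δ x
  have hl' := measurable_labs_left A δ x'
  have hL : Measurable L := measurable_joinV.comp
    ((hl.comp (measurable_fst.sub measurable_snd.fst)).prodMk
      (hl'.comp (measurable_fst.sub measurable_snd.snd)))
  set νp : Fin 3 × Fin 3 → Measure (Vec (k + k)) := fun p =>
    (ν.prod ((μ p.1).prod (μ p.2))).map L with hνp
  have : ∀ p, IsFiniteMeasure (νp p) := fun p => by simp only [hνp]; infer_instance
  set ap : Fin 3 × Fin 3 → ℝ := fun p => sgn p.1 * sgn p.2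
  -- transforms
  have hpart : ∀ ξ : Vec d, ∑ i, (sgn i : ℂ) * charFun (μ i) (-ξ) = ((1 - mult 1 R (B ξ) : ℝ) : ℂ) := by
    intro ξ
    have h := sum_parts_integral B R (f := fun z : Vec d => cexp ((⟪z, -ξ⟫ : ℝ) * I))
      (Continuous.stronglyMeasurable (by fun_prop)) (C := 1) fun z => by
        simp [Complex.norm_exp]
    simp only [Complex.real_smul, inner_zero_left, Complex.ofReal_zero, zero_mul, Complex.exp_zero]
      at h
    simp only [charFun_apply]
    refine h.trans ?_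
    rw [integral_kerB_exp B one_pos, map_neg, mult_neg, hB]
    push_cast
    rfl
  have hcf : ∀ η, ∑ p, (ap p : ℂ) * charFun (νp p) η
      = charFun ν (comb (hrows A δ x) (fstV η) + comb (hrows A δ x') (sndV η))
        * ((1 - mult 1 R (B (comb (hrows A δ x) (fstV η))) : ℝ)
          * (1 - mult 1 R (B (comb (hrows A δ x') (sndV η))) : ℝ)) := by
    intro η
    set ξ := comb (hrows A δ x) (fstV η)
    set ξ' := comb (hrows A δ x') (sndV η)
    have e : ∀ p, charFun (νp p) η
        = charFun ν (ξ + ξ') * (charFun (μ p.1) (-ξ) * charFun (μ p.2) (-ξ')) := by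
      intro p
      simp only [hνp]
      rw [charFun_apply, integral_map hL.aemeasurable (by fun_prop)]
      have e2 : ∀ q : Vec d × Vec d × Vec d, cexp ((⟪L q, η⟫ : ℝ) * I)
          = cexp ((⟪q.1, ξ + ξ'⟫ : ℝ) * I)
            * (cexp ((⟪q.2.1, -ξ⟫ : ℝ) * I) * cexp ((⟪q.2.2, -ξ'⟫ : ℝ) * I)) := by
        intro q
        rw [← Complex.exp_add, ← Complex.exp_add, ← add_mul, ← add_mul, ← Complex.ofReal_add,
          ← Complex.ofReal_add]
        congr 3
        simp only [L, inner_joinV, inner_labs, inner_sub_left, inner_add_right, inner_neg_right, ξ, ξ']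
        ring
      simp only [e2]
      rw [integral_prod_mul (f := fun g : Vec d => cexp ((⟪g, ξ + ξ'⟫ : ℝ) * I))
        (g := fun z : Vec d × Vec d => cexp ((⟪z.1, -ξ⟫ : ℝ) * I) * cexp ((⟪z.2, -ξ'⟫ : ℝ) * I)),
        integral_prod_mul (f := fun z : Vec d => cexp ((⟪z, -ξ⟫ : ℝ) * I))
        (g := fun z : Vec d => cexp ((⟪z, -ξ'⟫ : ℝ) * I))]
      simp only [charFun_apply]
    simp only [e, ap, Complex.ofReal_mul]
    rw [← hpart ξ, ← hpart ξ', Finset.sum_mul_sum, Fintype.sum_prod_type, Finset.mul_sum]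
    refine Finset.sum_congr rfl fun i _ => ?_
    rw [Finset.mul_sum]
    exact Finset.sum_congr rfl fun j _ => by ring
  have hcont : Continuous fun η => ∑ p, (ap p : ℂ) * charFun (νp p) η :=
    continuous_finsetSum _ fun p _ => continuous_const.mul continuous_charFun
  have hm0 : ∀ ξ : Vec d, 0 ≤ 1 - mult 1 R ξ := fun ξ => by linarith [mult_le_one 1 R ξ]
  obtain ⟨hint, hnorm⟩ := charFun_le_of_lintegral hcont hS (fun η => by
    rw [hcf, norm_mul, norm_mul, Complex.norm_real, Complex.norm_real, Real.norm_of_nonneg (hm0 _),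
      Real.norm_of_nonneg (hm0 _)]
    exact hb η) hi
  -- the test function
  set F : Vec (k + k) → ℝ := fun y => cutK Φ Ry x (fstV y) * cutK Φ Ry x' (sndV y)
  have hcut : ∀ x : Fin k → Vec d, Measurable (cutK Φ Ry x) := fun x => by
    have h : Measurable ((fun q : (Fin k → Vec d) × Vec k => cutK Φ Ry q.1 q.2) ∘ Prod.mk x) :=
      (measurable_cutK hΦ).comp measurable_prodMk_left
    exact h
  have hF0 : ∀ y, 0 ≤ F y := fun y => mul_nonneg (cutK_nonneg h0 _ _) (cutK_nonneg h0 _ _)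
  have hFm : Measurable F := ((hcut x).comp measurable_fstV).mul ((hcut x').comp measurable_sndV)
  have hFl : ∫⁻ y, ENNReal.ofReal (F y) = ENNReal.ofReal (wt Φ Ry x * wt Φ Ry x') := by
    simp only [F, ENNReal.ofReal_mul (cutK_nonneg h0 _ _)]
    rw [lintegral_halves (hcut x).ennreal_ofReal (hcut x').ennreal_ofReal,
      ← ofReal_integral_eq_lintegral_ofReal (integrable_cutK hΦ h0 h1 x)
        (ae_of_all _ fun y => cutK_nonneg h0 x y),
      ← ofReal_integral_eq_lintegral_ofReal (integrable_cutK hΦ h0 h1 x')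
        (ae_of_all _ fun y => cutK_nonneg h0 x' y), ENNReal.ofReal_mul (wt_nonneg h0 x)]
    rfl
  have hFi : Integrable F := ⟨hFm.aestronglyMeasurable, by
    rw [hasFiniteIntegral_iff_ofReal (ae_of_all _ hF0), hFl]
    exact ENNReal.ofReal_lt_top⟩
  have hFν : ∀ p, Integrable F (νp p) := fun p => Integrable.of_bound hFm.aestronglyMeasurable 1
    (ae_of_all _ fun y => by
      rw [Real.norm_of_nonneg (hF0 y)]
      exact mul_le_one₀ (cutK_le_one h1 _ _) (cutK_nonneg h0 _ _) (cutK_le_one h1 _ _))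
  have h2pi : (1:ℝ) ≤ (2 * π) ^ Module.finrank ℝ (Vec (k + k)) :=
    one_le_pow₀ (by linarith [Real.two_le_pi])
  have h := abs_sum_integral_le ap νp hint (hnorm.trans (le_mul_of_one_le_left hS h2pi)) hFi hFν
  have habs : ∫ y, |F y| = wt Φ Ry x * wt Φ Ry x' := by
    simp only [abs_of_nonneg (hF0 _)]
    rw [integral_eq_lintegral_of_nonneg_ae (ae_of_all _ hF0) hFm.aestronglyMeasurable, hFl,
      ENNReal.toReal_ofReal (mul_nonneg (wt_nonneg h0 x) (wt_nonneg h0 x'))]
  rw [habs] at h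
  refine le_trans (le_of_eq (congrArg _ ?_)) h
  -- the left side
  set T : Fin 3 → (Fin k → Vec d) → Vec d → ℝ := fun i x g =>
    ∫ z, cutK Φ Ry x (labs A δ x (g - z)) ∂μ i
  have hpsi : ∀ (x : Fin k → Vec d) g, psiK A δ Φ Ry B R x g = ∑ i, sgn i * T i x g := by
    intro x g
    have h := sum_parts_integral B R (f := fun z => cutK Φ Ry x (labs A δ x (g - z)))
      ((hcut x).comp ((measurable_labs_left A δ x).comp
        (measurable_const.sub measurable_id))).stronglyMeasurable (C := 1) fun z => by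
        rw [Real.norm_of_nonneg (cutK_nonneg h0 _ _)]; exact cutK_le_one h1 _ _
    simp only [smul_eq_mul, sub_zero] at h
    exact h.symm
  have hTm : ∀ i x, Measurable (T i x) := fun i x => by
    have hg : Measurable ((cutK Φ Ry x ∘ labs A δ x) ∘ fun q : Vec d × Vec d => q.1 - q.2) :=
      ((hcut x).comp (measurable_labs_left A δ x)).comp (measurable_fst.sub measurable_snd)
    exact (hg.stronglyMeasurable.integral_prod_right' (ν := μ i)).measurable
  have hTb : ∀ i x g, |T i x g| ≤ (μ i).real Set.univ := fun i x g => by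
    rw [← Real.norm_eq_abs]
    refine (norm_integral_le_of_norm_le_const (C := 1) (ae_of_all _ fun z => ?_)).trans
      (le_of_eq (one_mul _))
    rw [Real.norm_of_nonneg (cutK_nonneg h0 _ _)]; exact cutK_le_one h1 _ _
  have hTi : ∀ i j, Integrable (fun g => sgn i * T i x g * (sgn j * T j x' g)) ν := fun i j =>
    Integrable.of_bound (((hTm i x).const_mul _).mul ((hTm j x').const_mul _)).aestronglyMeasurable
      (|sgn i| * (μ i).real Set.univ * (|sgn j| * (μ j).real Set.univ)) (ae_of_all _ fun g => by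
        rw [Real.norm_eq_abs, abs_mul, abs_mul, abs_mul]
        gcongr
        · exact hTb i x g
        · exact hTb j x' g)
  have hprod : ∀ p : Fin 3 × Fin 3,
      ∫ y, F y ∂νp p = ∫ g, T p.1 x g * T p.2 x' g ∂ν := by
    intro p
    simp only [hνp]
    rw [integral_map hL.aemeasurable hFm.aestronglyMeasurable,
      integral_prod (fun q => F (L q)) (Integrable.of_bound (hFm.comp hL).aestronglyMeasurable 1
        (ae_of_all _ fun q => by
          rw [Real.norm_of_nonneg (hF0 _)]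
          exact mul_le_one₀ (cutK_le_one h1 _ _) (cutK_nonneg h0 _ _) (cutK_le_one h1 _ _)))]
    refine integral_congr_ae (ae_of_all _ fun g => ?_)
    simp only [T]
    rw [← integral_prod_mul]
    refine integral_congr_ae (ae_of_all _ fun z => ?_)
    simp only [F, L, fstV_joinV, sndV_joinV]
  simp only [hpsi, Finset.sum_mul_sum]
  rw [integral_finsetSum _ fun i _ => integrable_finsetSum _ fun j _ => hTi i j,
    Fintype.sum_prod_type]
  refine Finset.sum_congr rfl fun i _ => ?_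
  rw [integral_finsetSum _ fun j _ => hTi i j]
  refine Finset.sum_congr rfl fun j _ => ?_
  rw [hprod (i, j), ← integral_const_mul]
  exact integral_congr_ae (ae_of_all _ fun g => by simp only [ap]; ring)

/-- The heavy-pick bound on the rows that are bad for a given tuple. -/
theorem bad_le' {i : ℕ} (W : Fin i → Vec d) {Λ α : ℝ} (hΛ : 2 ≤ Λ) (hα : 0 ≤ α) (v : Vec d)
    {S : Set (Fin k → Vec d)} (hT : Terminal A δ Φ Ry Λ α W S) (x' : Fin k → Vec d) :
    ∫ x in S, (badSet A δ (precond W) Λ v).indicator (fun q => wt Φ Ry q.1) (x, x') ∂rowsLaw d k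
      ≤ α * (5 * Λ) ^ (k + 1) / pickVol W * mass Φ Ry S := by
  classical
  set B := precond W
  set E := Submodule.span ℝ (Set.range (Fin.snoc (hrows A δ x') v : Fin (k + 1) → Vec d))
  have hr : Module.finrank ℝ E ≤ k + 1 :=
    le_of_le_of_eq (finrank_range_le_card (R := ℝ) (Fin.snoc (hrows A δ x') v : Fin (k + 1) → Vec d))
      (Fintype.card_fin _)
  set r := Module.finrank ℝ E
  set u : Fin r → Vec d := fun q => ((stdOrthonormalBasis ℝ E) q : Vec d)
  have hu : Orthonormal ℝ u := (stdOrthonormalBasis ℝ E).orthonormal.comp_linearIsometry E.subtypeₗᵢ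
  have hlift : ∀ y ∈ E, lift u (coord u y) = y := by
    intro y hy
    have h := congrArg Subtype.val ((stdOrthonormalBasis ℝ E).sum_repr' ⟨y, hy⟩)
    simp only [Submodule.coe_sum, Submodule.coe_smul, Submodule.coe_inner] at h
    exact h
  set P := rowsLaw d k
  have hwt := measurable_wt (Ry := Ry) hΦ
  have hw0 := fun x => wt_nonneg (Ry := Ry) h0 x
  set bad : Set (Fin k → Vec d) := (fun x => (x, x')) ⁻¹' badSet A δ B Λ v
  have hbad : MeasurableSet bad := (measurableSet_badSet A δ B Λ v).preimage measurable_prodMk_right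
  have hind : ∀ x, (badSet A δ B Λ v).indicator (fun q => wt Φ Ry q.1) (x, x')
      = bad.indicator (wt Φ Ry) x := fun x => rfl
  simp only [hind]
  have hint : Integrable (bad.indicator (wt Φ Ry)) (P.restrict S) :=
    (integrable_wt hΦ h0 h1 S).indicator hbad
  set bound := α * (5 * Λ) ^ (k + 1) / pickVol W * mass Φ Ry S
  have hpv := pickVol_pos W
  have hm0 : 0 ≤ mass Φ Ry S := mass_nonneg h0 S
  have hbound : 0 ≤ bound := by simp only [bound]; positivity
  rcases Nat.eq_zero_or_pos r with hr0 | hr0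
  · -- the span is trivial
    have : ∀ x, bad.indicator (wt Φ Ry) x = 0 := by
      intro x
      refine Set.indicator_of_notMem (fun hx => ?_) _
      obtain ⟨ζ, ζ', c, hlt⟩ := (show (x, x') ∈ badSet A δ B Λ v from hx)
      have hz : comb (hrows A δ x') ζ' - c • v ∈ E := by
        refine Submodule.sub_mem _ (Submodule.sum_mem _ fun l _ => Submodule.smul_mem _ _
          (Submodule.subset_span ⟨Fin.castSucc l, by simp⟩)) (Submodule.smul_mem _ _
            (Submodule.subset_span ⟨Fin.last k, by simp⟩))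
      rw [Submodule.finrank_eq_zero.1 hr0, Submodule.mem_bot] at hz
      simp only [hz, map_zero, norm_zero] at hlt
      exact absurd hlt (not_lt.2 (by positivity))
    simp only [this, integral_zero]
    exact hbound
  -- reduce to a bound on nonnegative integrals
  rw [integral_eq_lintegral_of_nonneg_ae
    (ae_of_all _ fun x => Set.indicator_nonneg (fun x _ => hw0 x) x) hint.aestronglyMeasurable]
  refine ENNReal.toReal_le_of_le_ofReal hbound ?_
  have hlu : Measurable (lift u) := measurable_lift u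
  set Bl : Vec r → ℝ := fun ω => ‖B (lift u ω)‖
  have hBl : Measurable Bl := ((measurable_equiv B).comp hlu).norm
  set G : Set (Vec r) := {ω | 0 < Bl ω ∧ Bl ω ≤ 2 * Λ}
  have hG : MeasurableSet G :=
    (measurableSet_lt measurable_const hBl).inter (measurableSet_le hBl measurable_const)
  set ws : Vec r → Vec d := fun ω => (Λ / Bl ω) • lift u ω
  have hws : Measurable ws := (measurable_const.div hBl).smul hlu
  set near : Set ((Fin k → Vec d) × Vec r) := {q | q.2 ∈ G ∧ q.1 ∈ nearSet A δ (ws q.2)}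
  have hnear : MeasurableSet near := by
    refine (hG.preimage measurable_snd).inter ?_
    have h1' : Measurable ((fun p : Vec d × (Fin k → Vec d) => spanDist p.1 p.2) ∘
        fun q : (Fin k → Vec d) × Vec r => (ws q.2, hrows A δ q.1)) :=
      measurable_spanDist.comp ((hws.comp measurable_snd).prodMk
        ((measurable_hrows A δ).comp measurable_fst))
    exact h1' measurableSet_Iic
  set vol1 : ℝ≥0∞ := ENNReal.ofReal ((2 * (1 / √r)) ^ r)
  have hrR : (0:ℝ) < √r := Real.sqrt_pos.2 (by exact_mod_cast hr0)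
  -- geometry
  have hgeo : ∀ x, bad.indicator (fun _ => vol1) x
      ≤ ∫⁻ ω : Vec r, near.indicator 1 (x, ω) := by
    intro x
    by_cases hx : x ∈ bad
    swap
    · simp [hx]
    rw [Set.indicator_of_mem hx]
    obtain ⟨ζ, ζ', c, hlt⟩ := (show (x, x') ∈ badSet A δ B Λ v from hx)
    set ξ := comb (hrows A δ x) ζ
    set z := comb (hrows A δ x') ζ' - c • v with hzdef
    have hzE : z ∈ E :=
      Submodule.sub_mem _ (Submodule.sum_mem _ fun l _ => Submodule.smul_mem _ _
        (Submodule.subset_span ⟨Fin.castSucc l, by simp⟩)) (Submodule.smul_mem _ _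
          (Submodule.subset_span ⟨Fin.last k, by simp⟩))
    have hlt' : Λ * ‖ξ + z‖ < ‖B z‖ := hlt
    have hBz : 0 < ‖B z‖ := lt_of_le_of_lt (by positivity) hlt'
    set s := Λ / ‖B z‖
    have hs : 0 < s := by positivity
    set w0 := -(s • z)
    have hw0E : w0 ∈ E := Submodule.neg_mem _ (Submodule.smul_mem _ _ hzE)
    have hBw0 : ‖B w0‖ = Λ := by
      simp only [w0, map_neg, norm_neg, map_smul, norm_smul, Real.norm_of_nonneg hs.le, s]
      field_simp
    have hw0ξ : ‖w0 - s • ξ‖ ≤ 1 := by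
      rw [show w0 - s • ξ = -(s • (ξ + z)) by simp only [w0, smul_add]; abel, norm_neg, norm_smul,
        Real.norm_of_nonneg hs.le]
      simp only [s]
      rw [div_mul_eq_mul_div, div_le_one hBz]
      exact hlt'.le
    calc vol1 ≤ volume {ω : Vec r | ‖ω - coord u w0‖ ≤ 1 / √r * √r} :=
          volume_closedBall_ge (by positivity) _
      _ = ∫⁻ ω, {ω : Vec r | ‖ω - coord u w0‖ ≤ 1}.indicator 1 ω := by
          rw [lintegral_indicator_one (measurableSet_le (by fun_prop) measurable_const),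
            div_mul_cancel₀ _ hrR.ne']
      _ ≤ _ := by
          refine lintegral_mono fun ω => ?_
          by_cases hω : ω ∈ {ω : Vec r | ‖ω - coord u w0‖ ≤ 1}
          swap
          · simp [hω]
          rw [Set.indicator_of_mem hω]
          set y := lift u ω
          have hy : ‖y - w0‖ ≤ 1 := by
            rw [← hlift w0 hw0E]
            simp only [y, ← map_sub, norm_lift hu]
            exact hω
          have hBy : |‖B y‖ - Λ| ≤ 1 := by
            rw [← hBw0]
            refine (abs_norm_sub_norm_le _ _).trans ?_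
            rw [← map_sub]
            exact (norm_precond_le W _).trans hy
          obtain ⟨hy1, hy2⟩ := abs_le.1 hBy
          have hyG : ω ∈ G := ⟨show 0 < ‖B y‖ by linarith, show ‖B y‖ ≤ 2 * Λ by linarith⟩
          have hmem : (x, ω) ∈ near := by
            refine ⟨hyG, (spanDist_le_comb (ws ω) (hrows A δ x) ((Λ / ‖B y‖ * s) • ζ)).trans
              (ENNReal.ofReal_le_ofReal ?_)⟩
            have ht : Λ / ‖B y‖ ≤ 2 := by rw [div_le_iff₀ (by linarith)]; linarith
            have ht0 : 0 ≤ Λ / ‖B y‖ := by positivity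
            rw [comb_smul, mul_smul, show ws ω = (Λ / ‖B y‖) • y from rfl, ← smul_sub, norm_smul,
              Real.norm_of_nonneg ht0]
            have h2 : ‖y - s • ξ‖ ≤ 2 := by
              rw [show y - s • ξ = (y - w0) + (w0 - s • ξ) by abel]
              refine (norm_add_le _ _).trans ?_
              linarith
            calc Λ / ‖B y‖ * ‖y - s • ξ‖ ≤ 2 * 2 := mul_le_mul ht h2 (norm_nonneg _) (by norm_num)
              _ = 4 := by norm_num
          rw [Set.indicator_of_mem hmem]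
          simp
  -- volume of the target set
  have hvolG : volume G ≤ ENNReal.ofReal (Real.exp ((r:ℝ) / 2)
      * (√(2 * π) * (2 * Λ / √r)) ^ r / pickVol W) := by
    set cc := 2 * Λ / √r
    have hcc : 0 < cc := by positivity
    rw [← lintegral_indicator_one hG, lintegral_comp_smul (measurable_one.indicator hG) hcc]
    have hprod : ∏ j, pickScale W j = pickVol W := by
      rw [pickVol_eq, show (precond W : Vec d →ₗ[ℝ] Vec d) = diag (pickBasis W) (pickScale W) from rfl,
        det_diag, abs_of_pos (Finset.prod_pos fun j _ => pickScale_pos W j)]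
    have hX := lintegral_exp_diag_le (pickBasis W) (pickScale_pos W) (pickScale_le_one W) u
    have hstd : ∫⁻ ω : Vec r, ENNReal.ofReal (Real.exp (-‖comb u ω‖ ^ 2 / 2))
        = ENNReal.ofReal (√(2 * π) ^ r) := by
      have e : ∀ ω : Vec r, ‖comb u ω‖ = ‖ω‖ := fun ω => norm_lift hu ω
      simp only [e]
      rw [← ofReal_integral_eq_lintegral_ofReal integrable_gauss
        (ae_of_all _ fun ω => (Real.exp_pos _).le), gauss_integral, gaussConst_vec]
    rw [hstd, hprod] at hX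
    calc ENNReal.ofReal (cc ^ r) * ∫⁻ ω : Vec r, G.indicator 1 (cc • ω)
        ≤ ENNReal.ofReal (cc ^ r) * ∫⁻ ω : Vec r, ENNReal.ofReal (Real.exp ((r:ℝ) / 2))
            * ENNReal.ofReal (Real.exp (-‖diag (pickBasis W) (pickScale W) (comb u ω)‖ ^ 2 / 2)) := by
          refine mul_le_mul_right (lintegral_mono fun ω => ?_) _
          by_cases hω : cc • ω ∈ G
          swap
          · simp [hω]
          rw [Set.indicator_of_mem hω, Pi.one_apply, ← ENNReal.ofReal_mul (Real.exp_pos _).le,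
            ← Real.exp_add, ← ENNReal.ofReal_one]
          refine ENNReal.ofReal_le_ofReal (Real.one_le_exp ?_)
          have h2 : Bl (cc • ω) ≤ 2 * Λ := hω.2
          simp only [Bl, map_smul, norm_smul, Real.norm_of_nonneg hcc.le] at h2
          have h3 : ‖B (lift u ω)‖ ≤ √r := by
            rw [← mul_le_mul_iff_of_pos_left hcc]
            refine h2.trans (le_of_eq ?_)
            simp only [cc]
            field_simp
          have h4 := pow_le_pow_left₀ (norm_nonneg _) h3 2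
          rw [Real.sq_sqrt (Nat.cast_nonneg r)] at h4
          have h5 : diag (pickBasis W) (pickScale W) (comb u ω) = B (lift u ω) := rfl
          rw [h5]
          linarith
      _ ≤ _ := by
          rw [lintegral_const_mul' _ _ ENNReal.ofReal_ne_top]
          refine (mul_le_mul_right (mul_le_mul_right hX _) _).trans (le_of_eq ?_)
          rw [← ENNReal.ofReal_mul (by positivity), ← ENNReal.ofReal_mul (by positivity),
            ← ENNReal.ofReal_mul (by positivity)]
          congr 1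
          rw [mul_pow]
          field_simp
  -- per target vector
  have hper : ∀ ω, ∫⁻ x, ENNReal.ofReal (wt Φ Ry x) * near.indicator 1 (x, ω) ∂P.restrict S
      ≤ G.indicator (fun _ => ENNReal.ofReal (α * mass Φ Ry S)) ω := by
    intro ω
    by_cases hω : ω ∈ G
    swap
    · simp [near, hω]
    rw [Set.indicator_of_mem hω]
    have hN := measurableSet_nearSet (k := k) A δ (ws ω)
    have e : ∀ x, ENNReal.ofReal (wt Φ Ry x) * near.indicator 1 (x, ω)
        = (nearSet A δ (ws ω)).indicator (fun x => ENNReal.ofReal (wt Φ Ry x)) x := by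
      intro x
      by_cases hx : x ∈ nearSet A δ (ws ω)
      · rw [Set.indicator_of_mem (show (x, ω) ∈ near from ⟨hω, hx⟩), Set.indicator_of_mem hx,
          Pi.one_apply, mul_one]
      · rw [Set.indicator_of_notMem (show (x, ω) ∉ near from fun h => hx h.2),
          Set.indicator_of_notMem hx, mul_zero]
    simp only [e]
    rw [lintegral_indicator hN, Measure.restrict_restrict hN, Set.inter_comm,
      ← ofReal_integral_eq_lintegral_ofReal (integrable_wt hΦ h0 h1 _) (ae_of_all _ hw0)]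
    refine ENNReal.ofReal_le_ofReal (hT (ws ω) ?_)
    simp only [ws, map_smul, norm_smul]
    rw [Real.norm_of_nonneg (by have := hω.1; positivity)]
    have : Bl ω ≠ 0 := hω.1.ne'
    simp only [Bl] at this ⊢
    field_simp
    simp only [B]
  have hmain : vol1 * ∫⁻ x, ENNReal.ofReal (bad.indicator (wt Φ Ry) x) ∂P.restrict S
      ≤ ENNReal.ofReal (α * mass Φ Ry S) * volume G := by
    have hm1 : Measurable fun x => ENNReal.ofReal (bad.indicator (wt Φ Ry) x) :=
      (hwt.indicator hbad).ennreal_ofReal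
    rw [← lintegral_const_mul _ hm1]
    calc ∫⁻ x, vol1 * ENNReal.ofReal (bad.indicator (wt Φ Ry) x) ∂P.restrict S
        ≤ ∫⁻ x, ∫⁻ ω : Vec r, ENNReal.ofReal (wt Φ Ry x) * near.indicator 1 (x, ω) ∂volume
            ∂P.restrict S := by
          refine lintegral_mono fun x => ?_
          rw [lintegral_const_mul' _ _ ENNReal.ofReal_ne_top]
          by_cases hx : x ∈ bad
          · rw [Set.indicator_of_mem hx, mul_comm]
            have := hgeo x
            rw [Set.indicator_of_mem hx] at this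
            exact mul_le_mul_right this _
          · simp [Set.indicator_of_notMem hx]
      _ = ∫⁻ ω : Vec r, ∫⁻ x, ENNReal.ofReal (wt Φ Ry x) * near.indicator 1 (x, ω) ∂P.restrict S := by
          rw [lintegral_lintegral_swap]
          exact (((hwt.comp measurable_fst).ennreal_ofReal).mul
            (measurable_one.indicator hnear)).aemeasurable
      _ ≤ ∫⁻ ω : Vec r, G.indicator (fun _ => ENNReal.ofReal (α * mass Φ Ry S)) ω := lintegral_mono hper
      _ = _ := by rw [lintegral_indicator_const hG]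
  have hv1 : vol1 ≠ 0 := (ENNReal.ofReal_pos.2 (by positivity)).ne'
  rw [← ENNReal.mul_le_mul_iff_right hv1 ENNReal.ofReal_ne_top]
  refine hmain.trans ((mul_le_mul_right hvolG _).trans ?_)
  simp only [vol1]
  rw [← ENNReal.ofReal_mul (by positivity), ← ENNReal.ofReal_mul (by positivity)]
  refine ENNReal.ofReal_le_ofReal ?_
  have h5 : Real.exp ((r:ℝ) / 2) * (√(2 * π) * (2 * Λ / √r)) ^ r
      ≤ (2 * (1 / √r)) ^ r * (5 * Λ) ^ (k + 1) := by
    have e1 : Real.exp ((r:ℝ) / 2) = Real.exp (1/2) ^ r := by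
      rw [← Real.exp_nat_mul]; congr 1; ring
    rw [e1, ← mul_pow]
    calc (Real.exp (1/2) * (√(2 * π) * (2 * Λ / √r))) ^ r
        ≤ (2 * (1 / √r) * (5 * Λ)) ^ r := by
          refine pow_le_pow_left₀ (by positivity) ?_ r
          have h51 : Real.exp (1/2) * √(2 * π) ≤ 5 := by
            have h6 : Real.exp (1/2) ≤ 5/3 := by
              rw [Real.exp_half, Real.sqrt_le_iff]
              constructor <;> linarith [Real.exp_one_lt_d9]
            have h7 : √(2 * π) ≤ 3 := by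
              rw [Real.sqrt_le_iff]; constructor <;> linarith [Real.pi_le_four]
            calc Real.exp (1/2) * √(2 * π) ≤ 5/3 * 3 := mul_le_mul h6 h7 (by positivity) (by norm_num)
              _ = 5 := by norm_num
          calc Real.exp (1/2) * (√(2 * π) * (2 * Λ / √r))
              = (Real.exp (1/2) * √(2 * π)) * (2 * (1 / √r) * Λ) := by ring
            _ ≤ 5 * (2 * (1 / √r) * Λ) := mul_le_mul_of_nonneg_right h51 (by positivity)
            _ = _ := by ring
      _ = (2 * (1 / √r)) ^ r * (5 * Λ) ^ r := mul_pow _ _ _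
      _ ≤ _ := mul_le_mul_of_nonneg_left (pow_le_pow_right₀ (by linarith) hr) (by positivity)
  simp only [bound]
  calc α * mass Φ Ry S * (Real.exp ((r:ℝ) / 2) * (√(2 * π) * (2 * Λ / √r)) ^ r / pickVol W)
      ≤ α * mass Φ Ry S * ((2 * (1 / √r)) ^ r * (5 * Λ) ^ (k + 1) / pickVol W) :=
        mul_le_mul_of_nonneg_left (div_le_div_of_nonneg_right h5 hpv.le) (by positivity)
    _ = _ := by ring

end

/-! ### Decay seen through coordinates -/

/-- Decay integrated along a family of rows seen through top coordinates. -/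
lemma lintegral_decay_le {d n N : ℕ} {e : Fin (N + 1) → Vec d} (he : Orthonormal ℝ e) {v : Vec d}
    (hv : ∀ r, ⟪v, e r⟫ = 0) (Z : Fin n → Vec d) {p : ℕ} (hp : n + 1 ≤ 2 * p) {K : ℝ} (hK : 0 < K)
    (hKd : K ≤ d) (hpd : p ≤ d) (hnd : n ≤ d) {J : ℝ}
    (hJ : jac (fun l => coord e (Z l)) ≤ ENNReal.ofReal J) :
    ∫⁻ η : Vec n, ENNReal.ofReal ((2 / (1 + ‖perp v (comb Z η)‖ ^ 2 / K)) ^ p)
      ≤ ENNReal.ofReal (Real.exp (5 * d) * J) := by
  have hd : (0:ℝ) < d := lt_of_lt_of_le hK hKd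
  refine (lintegral_mono fun η => ENNReal.ofReal_le_ofReal ?_).trans
    ((lintegral_poly_scaled_le (fun l => coord e (Z l)) hp hK hd).trans
      ((mul_le_mul_right hJ _).trans ?_))
  · refine pow_le_pow_left₀ (by positivity) ?_ p
    refine div_le_div_of_nonneg_left (by norm_num) (by positivity) ?_
    have h := pow_le_pow_left₀ (norm_nonneg _) (norm_coord_le_perp he hv (comb Z η)) 2
    rw [map_comb] at h
    have := div_le_div_of_nonneg_right h hK.le
    linarith
  · rw [← ENNReal.ofReal_mul (by positivity)]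
    rcases le_or_gt J 0 with hJ0 | hJ0
    · rw [ENNReal.ofReal_of_nonpos (mul_nonpos_of_nonneg_of_nonpos (by positivity) hJ0)]
      exact zero_le
    refine ENNReal.ofReal_le_ofReal (mul_le_mul_of_nonneg_right ?_ hJ0.le)
    have hd1 : (1:ℝ) ≤ d := by exact_mod_cast (Nat.cast_pos.1 hd : 0 < d)
    have h2 : √(π * K / d) ≤ 2 := by
      rw [Real.sqrt_le_iff]
      refine ⟨by norm_num, ?_⟩
      rw [div_le_iff₀ hd]
      nlinarith [Real.pi_le_four, Real.pi_pos]
    have e16 : (16:ℝ) ≤ Real.exp 3 := by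
      rw [show (3:ℝ) = ((3:ℕ):ℝ) * 1 by norm_num, Real.exp_nat_mul]
      exact le_trans (by norm_num) (pow_le_pow_left₀ (by norm_num)
        (show (2.7:ℝ) ≤ Real.exp 1 by linarith [Real.exp_one_gt_d9]) 3)
    have e2 : (2:ℝ) ≤ Real.exp (d:ℝ) := by linarith [Real.add_one_le_exp (d:ℝ)]
    calc 2 * Real.exp d * 8 ^ p * √(π * K / d) ^ n
        ≤ Real.exp d * Real.exp d * 8 ^ d * 2 ^ d := by
          refine mul_le_mul (mul_le_mul (mul_le_mul_of_nonneg_right e2 (Real.exp_pos _).le)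
            (pow_le_pow_right₀ (by norm_num) hpd) (by positivity) (by positivity))
            ((pow_le_pow_left₀ (Real.sqrt_nonneg _) h2 n).trans (pow_le_pow_right₀ one_le_two hnd))
            (by positivity) (by positivity)
      _ = Real.exp (2 * d) * 16 ^ d := by
          rw [← Real.exp_add, mul_assoc, ← mul_pow]; norm_num; ring_nf
      _ ≤ Real.exp (2 * d) * Real.exp 3 ^ d := by gcongr
      _ = _ := by rw [← Real.exp_nat_mul, ← Real.exp_add]; ring_nf

/-- The inverse volume of the coordinates of two tuples of rows is rarely large. -/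
lemma pair_jac_tail {d k N r : ℕ} {A : Vec d ≃ₗ[ℝ] Vec d} {δ : ℝ} (hδ : 0 < δ)
    {e : Fin (N + 1) → Vec d} (he : Orthonormal ℝ e)
    (hA : ∀ g q, ⟪A g, A (e q)⟫ = δ ^ 2 * ⟪g, e q⟫) (hr : 1 ≤ r) (hn : k + k + 2 * r ≤ N + 1)
    {J : ℝ} (hJ : 0 < J) :
    ((rowsLaw d k).prod (rowsLaw d k)).real
        {q | ENNReal.ofReal J < jac (fun l => coord e (Fin.append (hrows A δ q.1) (hrows A δ q.2) l))}
      ≤ ((9 / √(2 * r)) ^ (k + k) / J) ^ r := by
  set f : Fin (N + 1) → Vec d := fun q => δ⁻¹ • A (e q)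
  have hf : Orthonormal ℝ f := orthonormal_hat hδ he hA
  set T : (Fin k → Vec d) → Fin k → Vec (N + 1) := fun x l => coord f (x l)
  have hT : MeasurePreserving T (rowsLaw d k) (rowsLaw (N + 1) k) :=
    measurePreserving_pi _ _ fun _ => ⟨measurable_coord f, map_coord hf⟩
  have he' : ∀ q : (Fin k → Vec d) × (Fin k → Vec d),
      (fun l => coord e (Fin.append (hrows A δ q.1) (hrows A δ q.2) l))
        = Fin.append (T q.1) (T q.2) := by
    intro q
    funext l
    cases l using Fin.addCases with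
    | left j => simp only [Fin.append_left, hrows, coord_hat, T, f]
    | right j => simp only [Fin.append_right, hrows, coord_hat, T, f]
  have happ : Measurable fun q : (Fin k → Vec (N + 1)) × (Fin k → Vec (N + 1)) =>
      Fin.append q.1 q.2 := by
    refine measurable_pi_lambda _ fun l => ?_
    cases l using Fin.addCases with
    | left j => simp only [Fin.append_left]; exact (measurable_pi_apply j).comp measurable_fst
    | right j => simp only [Fin.append_right]; exact (measurable_pi_apply j).comp measurable_snd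
  simp only [he']
  have hjm : Measurable fun q : (Fin k → Vec (N + 1)) × (Fin k → Vec (N + 1)) =>
      jac (Fin.append q.1 q.2) ^ r := (measurable_jac.comp happ).pow_const r
  have hmom : ∫⁻ q, jac (Fin.append (T q.1) (T q.2)) ^ r ∂(rowsLaw d k).prod (rowsLaw d k)
      ≤ ENNReal.ofReal ((9 / √(2 * r)) ^ r) ^ (k + k) := by
    have hcomp := (hT.prod hT).lintegral_comp hjm
    simp only [Prod.map] at hcomp
    rw [hcomp, lintegral_prod _ hjm.aemeasurable,
      ← Vale.Agent.P309.lintegral_pi_append (stdGaussian (Vec (N + 1)))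
        (f := fun z : Fin (k + k) → Vec (N + 1) => jac z ^ r) (measurable_jac.pow_const r)]
    exact lintegral_jac hr hn
  set P := (rowsLaw d k).prod (rowsLaw d k)
  have hmT : Measurable fun q : (Fin k → Vec d) × (Fin k → Vec d) =>
      jac (Fin.append (T q.1) (T q.2)) ^ r := hjm.comp (hT.prod hT).measurable
  have h1 := mul_meas_ge_le_lintegral₀ (μ := P) hmT.aemeasurable (ENNReal.ofReal J ^ r)
  have h2 : ENNReal.ofReal J ^ r * P {q | ENNReal.ofReal J < jac (Fin.append (T q.1) (T q.2))}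
      ≤ ENNReal.ofReal ((9 / √(2 * r)) ^ r) ^ (k + k) :=
    ((mul_le_mul_right (measure_mono (fun q hq => pow_le_pow_left₀ zero_le
      (le_of_lt (show ENNReal.ofReal J < jac (Fin.append (T q.1) (T q.2)) from hq)) r)) _).trans h1).trans hmom
  rw [← ENNReal.ofReal_pow hJ.le, ← ENNReal.ofReal_pow (by positivity)] at h2
  have h3 := ENNReal.toReal_mono ENNReal.ofReal_ne_top h2
  rw [ENNReal.toReal_mul, ENNReal.toReal_ofReal (by positivity), ENNReal.toReal_ofReal (by positivity),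
    ← measureReal_def] at h3
  rw [div_pow, le_div_iff₀ (by positivity), ← pow_mul, mul_comm (k + k) r, pow_mul, mul_comm]
  exact h3

/-! ### The high part as an average over rows -/

section
variable {A : Vec d ≃ₗ[ℝ] Vec d} {δ : ℝ} {Φ : (Fin k → Vec d) → Vec k → ℝ} {Ry : ℝ}

lemma measurable_cutLabs (hΦ : Measurable (Function.uncurry Φ)) :
    Measurable fun q : (Fin k → Vec d) × Vec d => cutK Φ Ry q.1 (labs A δ q.1 q.2) := by
  have h : Measurable ((fun q : (Fin k → Vec d) × Vec k => cutK Φ Ry q.1 q.2) ∘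
      fun q : (Fin k → Vec d) × Vec d => (q.1, labs A δ q.1 q.2)) :=
    (measurable_cutK hΦ).comp (measurable_fst.prodMk (measurable_labs A δ))
  exact h

lemma measurable_nodeFn (hΦ : Measurable (Function.uncurry Φ)) (S : Set (Fin k → Vec d)) :
    Measurable (nodeFn A δ Φ Ry S) := by
  have h : Measurable ((fun q : (Fin k → Vec d) × Vec d => cutK Φ Ry q.1 (labs A δ q.1 q.2)) ∘
      fun q : Vec d × (Fin k → Vec d) => (q.2, q.1)) :=
    (measurable_cutLabs (Ry := Ry) hΦ).comp (measurable_snd.prodMk measurable_fst)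
  exact (h.stronglyMeasurable.integral_prod_right' (ν := (rowsLaw d k).restrict S)).measurable

lemma nodeFn_sub_smooth_eq (hΦ : Measurable (Function.uncurry Φ)) (h0 : ∀ x y, 0 ≤ Φ x y)
    (h1 : ∀ x y, Φ x y ≤ 1) {i : ℕ} (W : Fin i → Vec d) (R : ℝ) (S : Set (Fin k → Vec d))
    (g : Vec d) :
    nodeFn A δ Φ Ry S g - smooth W R (nodeFn A δ Φ Ry S) g
      = ∫ x in S, psiK A δ Φ Ry (precond W) R x g ∂rowsLaw d k := by
  set P := (rowsLaw d k).restrict S
  set B := precond W
  have hm := measurable_cutLabs (A := A) (δ := δ) (Ry := Ry) hΦ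
  have hi1 : Integrable (fun x => cutK Φ Ry x (labs A δ x g)) P := by
    refine Integrable.of_bound ?_ 1 (ae_of_all _ fun x => ?_)
    · have h : Measurable ((fun q : (Fin k → Vec d) × Vec d => cutK Φ Ry q.1 (labs A δ q.1 q.2)) ∘
          fun x : Fin k → Vec d => (x, g)) := hm.comp measurable_prodMk_right
      exact h.aestronglyMeasurable
    · rw [Real.norm_of_nonneg (cutK_nonneg h0 _ _)]; exact cutK_le_one h1 _ _
  have hk := integrable_kerB B one_pos R
  have hjoint : Integrable (Function.uncurry fun (x : Fin k → Vec d) (z : Vec d) =>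
      kerB B 1 R z * cutK Φ Ry x (labs A δ x (g - z))) (P.prod volume) := by
    refine (hk.1.comp_snd P).mul_bdd (c := 1) ?_ (ae_of_all _ fun q => ?_)
    · have h : Measurable ((fun q : (Fin k → Vec d) × Vec d => cutK Φ Ry q.1 (labs A δ q.1 q.2)) ∘
          fun q : (Fin k → Vec d) × Vec d => (q.1, g - q.2)) :=
        hm.comp (measurable_fst.prodMk (measurable_const.sub measurable_snd))
      exact h.aestronglyMeasurable
    · rw [Real.norm_of_nonneg (cutK_nonneg h0 _ _)]; exact cutK_le_one h1 _ _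
  have hsm : smooth W R (nodeFn A δ Φ Ry S) g
      = ∫ x, (∫ z, kerB B 1 R z * cutK Φ Ry x (labs A δ x (g - z))) ∂P := by
    rw [integral_integral_swap hjoint, smooth,
      ← integral_sub_left_eq_self (fun z => kerB B 1 R (g - z) * nodeFn A δ Φ Ry S z) volume g]
    refine integral_congr_ae (ae_of_all _ fun z => ?_)
    simp only [sub_sub_cancel, nodeFn, P, ← integral_const_mul, B]
  have hi2 : Integrable (fun x => ∫ z, kerB B 1 R z * cutK Φ Ry x (labs A δ x (g - z))) P :=
    hjoint.integral_prod_left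
  rw [hsm, nodeFn, ← integral_sub hi1 hi2]
  rfl

/-- From pairwise bounds to the mean absolute value of the high part. -/
lemma high_le_of_pairs (hΦ : Measurable (Function.uncurry Φ)) (h0 : ∀ x y, 0 ≤ Φ x y)
    (h1 : ∀ x y, Φ x y ≤ 1) {i : ℕ} (W : Fin i → Vec d) (R : ℝ) (S : Set (Fin k → Vec d))
    (ν : Measure (Vec d)) [IsFiniteMeasure ν] {M a : ℝ} (hM : 0 ≤ M) (hν : ν Set.univ ≤ ENNReal.ofReal M)
    (ha : 0 < a) {G : (Fin k → Vec d) × (Fin k → Vec d) → ℝ}
    (hG : Integrable G (((rowsLaw d k).restrict S).prod ((rowsLaw d k).restrict S)))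
    (hpair : ∀ q : (Fin k → Vec d) × (Fin k → Vec d),
      |∫ g, psiK A δ Φ Ry (precond W) R q.1 g * psiK A δ Φ Ry (precond W) R q.2 g ∂ν| ≤ G q)
    (hGa : ∫ q, G q ∂((rowsLaw d k).restrict S).prod ((rowsLaw d k).restrict S) ≤ M * a ^ 2) :
    ∫⁻ g, ENNReal.ofReal |nodeFn A δ Φ Ry S g - smooth W R (nodeFn A δ Φ Ry S) g| ∂ν
      ≤ ENNReal.ofReal (M * a) := by
  set P := (rowsLaw d k).restrict S
  set ψ := psiK A δ Φ Ry (precond W) R
  set κ := 1 + ∫ z : Vec d, |kerK 1 R z|
  have hψm : Measurable fun q : (Fin k → Vec d) × Vec d => ψ q.1 q.2 := measurable_psiK hΦ (precond W) R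
  have hψb : ∀ x g, |ψ x g| ≤ κ := fun x g => abs_psiK_le h0 h1 (precond W) R x g
  have hκ : 0 ≤ κ := by simp only [κ]; positivity
  set h := fun g => ∫ x, ψ x g ∂P
  have hh : ∀ g, nodeFn A δ Φ Ry S g - smooth W R (nodeFn A δ Φ Ry S) g = h g :=
    fun g => nodeFn_sub_smooth_eq hΦ h0 h1 W R S g
  simp only [hh]
  have hhm : Measurable h := by
    have h' : Measurable ((fun q : (Fin k → Vec d) × Vec d => ψ q.1 q.2) ∘
        fun q : Vec d × (Fin k → Vec d) => (q.2, q.1)) := hψm.comp (measurable_snd.prodMk measurable_fst)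
    exact (h'.stronglyMeasurable.integral_prod_right' (ν := P)).measurable
  have hhb : ∀ g, |h g| ≤ κ * P.real Set.univ := fun g => by
    rw [← Real.norm_eq_abs]
    exact norm_integral_le_of_norm_le_const (ae_of_all _ fun x => by
      rw [Real.norm_eq_abs]; exact hψb x g)
  have hhi : Integrable h ν := Integrable.of_bound hhm.aestronglyMeasurable (κ * P.real Set.univ)
    (ae_of_all _ fun g => by rw [Real.norm_eq_abs]; exact hhb g)
  have hh2i : Integrable (fun g => h g ^ 2) ν :=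
    Integrable.of_bound (hhm.pow_const 2).aestronglyMeasurable ((κ * P.real Set.univ) ^ 2)
      (ae_of_all _ fun g => by
        rw [Real.norm_eq_abs, abs_pow]; exact pow_le_pow_left₀ (abs_nonneg _) (hhb g) 2)
  set Ψ : Vec d → (Fin k → Vec d) × (Fin k → Vec d) → ℝ := fun g q => ψ q.1 g * ψ q.2 g
  have hΨm : Measurable (Function.uncurry Ψ) := by
    have e1 : Measurable ((fun q : (Fin k → Vec d) × Vec d => ψ q.1 q.2) ∘
        fun q : Vec d × ((Fin k → Vec d) × (Fin k → Vec d)) => (q.2.1, q.1)) :=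
      hψm.comp ((measurable_fst.comp measurable_snd).prodMk measurable_fst)
    have e2 : Measurable ((fun q : (Fin k → Vec d) × Vec d => ψ q.1 q.2) ∘
        fun q : Vec d × ((Fin k → Vec d) × (Fin k → Vec d)) => (q.2.2, q.1)) :=
      hψm.comp ((measurable_snd.comp measurable_snd).prodMk measurable_fst)
    exact e1.mul e2
  have hΨi : Integrable (Function.uncurry Ψ) (ν.prod (P.prod P)) :=
    Integrable.of_bound hΨm.aestronglyMeasurable (κ * κ) (ae_of_all _ fun q => by
      rw [Real.norm_eq_abs]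
      simp only [Function.uncurry, Ψ, abs_mul]
      exact mul_le_mul (hψb _ _) (hψb _ _) (abs_nonneg _) hκ)
  have hsq : ∫ g, h g ^ 2 ∂ν ≤ M * a ^ 2 := by
    have e : ∀ g, h g ^ 2 = ∫ q, Ψ g q ∂P.prod P := fun g => by
      simp only [Ψ]
      rw [integral_prod_mul (f := fun x => ψ x g) (g := fun x => ψ x g), sq]
    simp only [e]
    rw [integral_integral_swap hΨi]
    refine le_trans (integral_mono ?_ hG fun q => (le_abs_self _).trans (hpair q)) hGa
    exact hΨi.integral_prod_right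
  have hνM : ν.real Set.univ ≤ M :=
    ENNReal.toReal_le_of_le_ofReal hM hν
  have habs : ∫ g, |h g| ∂ν ≤ M * a := by
    have hpt : ∀ g, |h g| ≤ (2 * a)⁻¹ * h g ^ 2 + a / 2 := fun g => by
      have := sq_nonneg (|h g| - a)
      rw [← sq_abs (h g)]
      field_simp
      nlinarith
    refine (integral_mono hhi.abs ((hh2i.const_mul _).add (integrable_const _)) hpt).trans ?_
    rw [integral_add' (hh2i.const_mul _) (integrable_const _), integral_const_mul, integral_const,
      smul_eq_mul]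
    have e1 : (2 * a)⁻¹ * ∫ g, h g ^ 2 ∂ν ≤ (2 * a)⁻¹ * (M * a ^ 2) :=
      mul_le_mul_of_nonneg_left hsq (by positivity)
    have e2 : (2 * a)⁻¹ * (M * a ^ 2) = M * a / 2 := by field_simp
    have e3 : ν.real Set.univ * (a / 2) ≤ M * (a / 2) := mul_le_mul_of_nonneg_right hνM (by positivity)
    linarith
  rw [← ofReal_integral_eq_lintegral_ofReal hhi.abs (ae_of_all _ fun g => abs_nonneg _)]
  exact ENNReal.ofReal_le_ofReal habs

end

/-! ### The three bounds -/

lemma kappa_le {X : ℝ} {d : ℕ} (hd : 1 ≤ d) :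
    1 + ∫ z : Vec d, |kerK 1 (RW X d) z| ≤ Real.exp ((2 * X ^ 4 + 2) * d) := by
  have hd' : (1:ℝ) ≤ d := by exact_mod_cast hd
  have hR : 0 ≤ RW X d := by unfold RW; positivity
  refine (add_le_add le_rfl (integral_abs_kerK_le' one_pos hR)).trans ?_
  have e : (1 * RW X d / √(d:ℝ)) ^ d = Real.exp (2 * X ^ 4 * d) := by
    rw [show (2 * X ^ 4 * d : ℝ) = (d:ℕ) * (2 * X ^ 4) by ring, Real.exp_nat_mul]
    congr 1
    unfold RW
    field_simp
  rw [e, ← Real.exp_add]
  have hE : 1 ≤ Real.exp ((d:ℝ) / 2 + 2 * X ^ 4 * d) := Real.one_le_exp (by positivity)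
  have h2 : (2:ℝ) ≤ Real.exp (d:ℝ) := by linarith [Real.add_one_le_exp (d:ℝ)]
  calc 1 + Real.exp ((d:ℝ) / 2 + 2 * X ^ 4 * d)
      ≤ 2 * Real.exp ((d:ℝ) / 2 + 2 * X ^ 4 * d) := by linarith
    _ ≤ Real.exp (d:ℝ) * Real.exp ((d:ℝ) / 2 + 2 * X ^ 4 * d) :=
        mul_le_mul_of_nonneg_right h2 (Real.exp_pos _).le
    _ ≤ _ := by rw [← Real.exp_add]; exact Real.exp_le_exp.2 (by nlinarith)

/-- Low frequencies are removed by the smoothing. -/
lemma low_freq_le {X D : ℝ} {p₂ : ℕ} (hD : 0 < D) (hX4 : 1000 ≤ X ^ 4) (hp2 : (p₂:ℝ) ≤ D / 16)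
    {s u : ℝ} (hs : 0 ≤ s) (hu0 : 0 ≤ u) (hu : u ≤ Real.exp (-(D * Real.exp (4 * X ^ 4)) / 32)) :
    (2 / (1 + s)) ^ p₂ * u ≤ Real.exp (-(X ^ 4 * D / 64)) := by
  refine (mul_le_mul (pow_le_pow_left₀ (by positivity)
    (div_le_self zero_le_two (by linarith)) p₂) hu hu0 (by positivity)).trans ?_
  have h2e : (2:ℝ) ≤ Real.exp 1 := by linarith [Real.exp_one_gt_d9]
  refine (mul_le_mul_of_nonneg_right (pow_le_pow_left₀ zero_le_two h2e p₂)
    (Real.exp_pos _).le).trans ?_
  rw [← Real.exp_nat_mul, ← Real.exp_add]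
  refine Real.exp_le_exp.2 ?_
  have h4 : 4 * X ^ 4 + 1 ≤ Real.exp (4 * X ^ 4) := Real.add_one_le_exp _
  have h5 := mul_le_mul_of_nonneg_left h4 hD.le
  have h6 : D * 1000 ≤ D * X ^ 4 := mul_le_mul_of_nonneg_left hX4 hD.le
  linarith

/-- High frequencies of transversal pairs are removed by the decay. -/
lemma high_freq_le {X D K R Λ a P : ℝ} {p₂ : ℕ} (hD : 0 < D) (hX4 : 1000 ≤ X ^ 4)
    (hp2 : D / 64 ≤ (p₂:ℝ)) (hR : 0 < R) (hR2 : R ^ 2 = D * Real.exp (4 * X ^ 4))
    (hΛ : Λ = Real.exp (X ^ 4)) (hK : 0 < K) (hKD : K ≤ D) (ha : R / 2 ≤ a) (haP : a ≤ (Λ + 1) * P) :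
    (2 / (1 + P ^ 2 / K)) ^ p₂ ≤ Real.exp (-(X ^ 4 * D / 64)) := by
  have hΛ1 : 1 ≤ Λ := by rw [hΛ]; exact Real.one_le_exp (by linarith)
  have hΛp : (0:ℝ) < Λ + 1 := by linarith
  have h3 : R / (2 * (Λ + 1)) ≤ P := by
    rw [div_le_iff₀ (by linarith)]
    linarith [ha.trans haP]
  set s := P ^ 2 / K
  have h4 : Real.exp (2 * X ^ 4) / 16 ≤ s := by
    have h41 := pow_le_pow_left₀ (by positivity) h3 2
    calc Real.exp (2 * X ^ 4) / 16 = R ^ 2 / (16 * Λ ^ 2 * D) := by
          rw [hR2, hΛ, ← Real.exp_nat_mul, show (4:ℝ) * X ^ 4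
            = 2 * X ^ 4 + (2:ℕ) * X ^ 4 by push_cast; ring, Real.exp_add]
          field_simp
      _ ≤ R ^ 2 / ((2 * (Λ + 1)) ^ 2 * D) := by
          refine div_le_div_of_nonneg_left (sq_nonneg _) (by positivity) ?_
          refine mul_le_mul_of_nonneg_right ?_ hD.le
          nlinarith
      _ = (R / (2 * (Λ + 1))) ^ 2 / D := by rw [div_pow]; field_simp
      _ ≤ (R / (2 * (Λ + 1))) ^ 2 / K := div_le_div_of_nonneg_left (sq_nonneg _) hK hKD
      _ ≤ s := div_le_div_of_nonneg_right h41 hK.le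
  have h16 : (0:ℝ) < Real.exp (2 * X ^ 4) / 16 := by positivity
  have h5 : 2 / (1 + s) ≤ Real.exp (4 - 2 * X ^ 4) := by
    calc 2 / (1 + s) ≤ 2 / (Real.exp (2 * X ^ 4) / 16) :=
          div_le_div_of_nonneg_left (by norm_num) h16 (by linarith)
      _ = 32 * (Real.exp (2 * X ^ 4))⁻¹ := by field_simp; ring
      _ ≤ Real.exp 4 * (Real.exp (2 * X ^ 4))⁻¹ := by
          refine mul_le_mul_of_nonneg_right ?_ (by positivity)
          rw [show (4:ℝ) = ((4:ℕ):ℝ) * 1 by norm_num, Real.exp_nat_mul]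
          exact le_trans (by norm_num) (pow_le_pow_left₀ (by norm_num)
            (show (2.7:ℝ) ≤ Real.exp 1 by linarith [Real.exp_one_gt_d9]) 4)
      _ = _ := by rw [← Real.exp_neg, ← Real.exp_add]; ring_nf
  have hs0 : 0 ≤ s := by positivity
  refine (pow_le_pow_left₀ (by positivity) h5 p₂).trans ?_
  rw [← Real.exp_nat_mul]
  refine Real.exp_le_exp.2 ?_
  have h6 : D / 64 * (2 * X ^ 4 - 4) ≤ (p₂:ℝ) * (2 * X ^ 4 - 4) :=
    mul_le_mul_of_nonneg_right hp2 (by linarith)
  have h7 : D * 1000 ≤ D * X ^ 4 := mul_le_mul_of_nonneg_left hX4 hD.le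
  linarith

/-- Part of the decay pays for the smoothing, the rest remains. -/
lemma split_decay {c M s u t : ℝ} {p₁ p₂ p : ℕ} (hp : p₁ + p₂ = p) (hM : 0 ≤ M) (hs : 0 ≤ s)
    (hc : c ≤ M * (2 / (1 + s)) ^ p) (hcM : c ≤ M) (hu0 : 0 ≤ u) (hu1 : u ≤ 1)
    (ht : 1 ≤ t ∨ (2 / (1 + s)) ^ p₂ * u ≤ t) :
    c * u ≤ M * t * (2 / (1 + s)) ^ p₁ := by
  have hb : 0 ≤ (2 / (1 + s)) ^ p₁ := by positivity
  rcases ht with ht | ht
  · have h1 : c * u ≤ M * (2 / (1 + s)) ^ p₁ := by
      rcases le_or_gt 1 s with hs1 | hs1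
      · have h21 : 2 / (1 + s) ≤ 1 := (div_le_one (by positivity)).2 (by linarith)
        refine (mul_le_mul_of_nonneg_right hc hu0).trans ?_
        refine (mul_le_of_le_one_right (by positivity) hu1).trans ?_
        exact mul_le_mul_of_nonneg_left (pow_le_pow_of_le_one (by positivity) h21 (by omega)) hM
      · have h21 : 1 ≤ 2 / (1 + s) := by rw [le_div_iff₀ (by positivity)]; linarith
        refine (mul_le_mul_of_nonneg_right hcM hu0).trans ?_
        refine (mul_le_of_le_one_right hM hu1).trans ?_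
        exact le_mul_of_one_le_right hM (one_le_pow₀ h21)
    refine h1.trans ?_
    rw [mul_assoc]
    exact mul_le_mul_of_nonneg_left (le_mul_of_one_le_left hb ht) hM
  · refine (mul_le_mul_of_nonneg_right hc hu0).trans ?_
    rw [← hp, pow_add]
    calc M * ((2 / (1 + s)) ^ p₁ * (2 / (1 + s)) ^ p₂) * u
        = M * (2 / (1 + s)) ^ p₁ * ((2 / (1 + s)) ^ p₂ * u) := by ring
      _ ≤ M * (2 / (1 + s)) ^ p₁ * t := mul_le_mul_of_nonneg_left ht (by positivity)
      _ = _ := by ring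

/-- The pairwise bound for rows of moderate joint volume. -/
lemma high_pair_good {d k N i : ℕ} {X : ℝ} (hX : 300 ≤ X) (hd : 256 ≤ d) (hk : k = d / 64)
    {A : Vec d ≃ₗ[ℝ] Vec d} {δ : ℝ} (σ₀ : Measure (Vec d)) [IsFiniteMeasure (gw σ₀)] {v : Vec d}
    {M : ℝ} (hM : 0 ≤ M) (hdec : Decay σ₀ v M (d / 16)) {Φ : (Fin k → Vec d) → Vec k → ℝ} {Ry : ℝ}
    (hΦ : Measurable (Function.uncurry Φ)) (h0 : ∀ x y, 0 ≤ Φ x y) (h1 : ∀ x y, Φ x y ≤ 1)
    (W : Fin i → Vec d) {e : Fin (N + 1) → Vec d} (he : Orthonormal ℝ e) (hev : ∀ r, ⟪v, e r⟫ = 0)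
    (x x' : Fin k → Vec d) {J : ℝ} (hJ0 : 0 ≤ J)
    (hJ : jac (fun l => coord e (Fin.append (hrows A δ x) (hrows A δ x') l)) ≤ ENNReal.ofReal J) :
    |∫ g, psiK A δ Φ Ry (precond W) (RW X d) x g * psiK A δ Φ Ry (precond W) (RW X d) x' g ∂gw σ₀|
      ≤ M * (Real.exp (5 * (d:ℝ)) * J) * (Real.exp (-(X ^ 4 * d / 64)) * (wt Φ Ry x * wt Φ Ry x')
          + (badSet A δ (precond W) (Lam X) v).indicator
              (fun q => wt Φ Ry q.1 * wt Φ Ry q.2) (x, x')) := by
  classical
  set D : ℝ := (d:ℝ) with hD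
  have hD0 : 0 < D := by simp only [D]; exact_mod_cast (by omega : 0 < d)
  have hX4 : (1000:ℝ) ≤ X ^ 4 := le_trans (by norm_num) (pow_le_pow_left₀ (by norm_num) hX 4)
  set p := d / 16
  set p₁ := d / 32
  set p₂ := p - p₁
  set K : ℝ := 1 + 8 * (p:ℝ)
  have hK0 : 0 < K := by positivity
  have hKd : K ≤ D := by
    have h8 : ((8 * p + 1 : ℕ):ℝ) ≤ (d:ℝ) := by exact_mod_cast (by omega : 8 * p + 1 ≤ d)
    push_cast at h8
    simp only [K, D]
    linarith
  have hp12 : p₁ + p₂ = p := by omega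
  have hp2r : D / 64 ≤ (p₂:ℝ) := by
    have h64 : ((d:ℕ):ℝ) ≤ ((64 * p₂ : ℕ):ℝ) := by exact_mod_cast (by omega : d ≤ 64 * p₂)
    push_cast at h64
    simp only [D]
    linarith
  have hp2d : (p₂:ℝ) ≤ D / 16 := by
    have h16 : ((16 * p₂ : ℕ):ℝ) ≤ (d:ℝ) := by exact_mod_cast (by omega : 16 * p₂ ≤ d)
    push_cast at h16
    simp only [D]
    linarith
  set R := RW X d with hRdef
  have hR0 : 0 < R := by simp only [hRdef, RW]; positivity
  have hR2 : R ^ 2 = D * Real.exp (4 * X ^ 4) := by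
    simp only [hRdef, RW, mul_pow, Real.sq_sqrt (Nat.cast_nonneg d), ← Real.exp_nat_mul, D]
    ring_nf
  have hR32 : 32 * D ≤ (1 * R) ^ 2 := by
    rw [one_mul, hR2, mul_comm (32:ℝ)]
    refine mul_le_mul_of_nonneg_left ?_ hD0.le
    linarith [Real.add_one_le_exp (4 * X ^ 4)]
  set B := precond W
  set Λ := Lam X with hΛ
  have hΛ0 : 0 ≤ Λ := by simp only [hΛ, Lam]; exact (Real.exp_pos _).le
  set ε := Real.exp (-(X ^ 4 * D / 64))
  set bad := badSet (k := k) A δ B Λ v
  set t : ℝ := if (x, x') ∈ bad then 1 + ε else ε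
  have ht0 : 0 ≤ t := by simp only [t]; split <;> positivity
  have htarget : M * (Real.exp (5 * D) * J) * (ε * (wt Φ Ry x * wt Φ Ry x')
        + bad.indicator (fun q => wt Φ Ry q.1 * wt Φ Ry q.2) (x, x'))
      = M * (Real.exp (5 * D) * J) * t * (wt Φ Ry x * wt Φ Ry x') := by
    by_cases hb : (x, x') ∈ bad
    · simp only [t, if_pos hb, Set.indicator_of_mem hb]; ring
    · simp only [t, if_neg hb, Set.indicator_of_notMem hb]; ring
  rw [htarget]
  set Z := Fin.append (hrows A δ x) (hrows A δ x')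
  refine pair_le hΦ h0 h1 (adjoint_precond W) R (gw σ₀) x x' (by positivity)
    (b := fun η => M * t * (2 / (1 + ‖perp v (comb Z η)‖ ^ 2 / K)) ^ p₁) (fun η => ?_) ?_
  · set ξ := comb (hrows A δ x) (fstV η)
    set ξ' := comb (hrows A δ x') (sndV η)
    have hZ : comb Z η = ξ + ξ' := comb_append _ _ η
    simp only [hZ]
    have hu0 : 0 ≤ 1 - mult 1 R (B ξ) := by linarith [mult_le_one 1 R (B ξ)]
    have hu0' : 0 ≤ 1 - mult 1 R (B ξ') := by linarith [mult_le_one 1 R (B ξ')]
    have hle : (1 - mult 1 R (B ξ)) * (1 - mult 1 R (B ξ')) ≤ 1 - mult 1 R (B ξ) :=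
      mul_le_of_le_one_right hu0 (by linarith [mult_nonneg 1 R (B ξ')])
    refine split_decay hp12 hM (by positivity) (hdec.2 (ξ + ξ'))
      ((norm_charFun_le _).trans (ENNReal.toReal_le_of_le_ofReal hM hdec.1)) (mul_nonneg hu0 hu0')
      (hle.trans (by linarith [mult_nonneg 1 R (B ξ)])) ?_
    by_cases hb : (x, x') ∈ bad
    · left
      simp only [t, if_pos hb]
      linarith [Real.exp_pos (-(X ^ 4 * D / 64))]
    · right
      simp only [t, if_neg hb]
      rcases le_or_gt ‖B ξ‖ (R / 2) with hB | hB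
      · refine low_freq_le hD0 hX4 hp2d (by positivity) (mul_nonneg hu0 hu0') (hle.trans ?_)
        refine (one_sub_mult_le one_pos hR0.le hR32 hB).trans (le_of_eq ?_)
        rw [one_mul, hR2]
      · refine (mul_le_of_le_one_right (by positivity)
          (hle.trans (by linarith [mult_nonneg 1 R (B ξ)]))).trans ?_
        exact high_freq_le hD0 hX4 hp2r hR0 hR2 (by simp only [hΛ, Lam]) hK0 hKd hB.le
          (norm_le_of_not_bad hΛ0 hb (fstV η) (sndV η))
  · simp only [ENNReal.ofReal_mul (show 0 ≤ M * t by positivity)]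
    rw [lintegral_const_mul' _ _ ENNReal.ofReal_ne_top]
    refine (mul_le_mul_right (lintegral_decay_le he hev Z (by omega) hK0 hKd (by omega) (by omega) hJ) _).trans
      (le_of_eq ?_)
    rw [← ENNReal.ofReal_mul (by positivity)]
    congr 1
    ring

/-- The rows of large joint volume are negligible. -/
lemma num_big {C₀ X D κ V r : ℝ} {n : ℕ} (hC₀ : 1 ≤ C₀) (hD : 0 < D) (hdX : 2 * X ^ 4 + 2 ≤ D)
    (hn : r = n) (hr : D / 16 ≤ r) (hκ0 : 0 ≤ κ) (hκ : κ ≤ Real.exp ((2 * X ^ 4 + 2) * D))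
    (hV0 : 0 ≤ V) (hV : V ≤ Real.exp (-((CJ C₀ - 1) * D)) ^ n) :
    κ ^ 2 * V ≤ Real.exp (-(20 * (C₀ + 1) * D ^ 2)) ^ 2 := by
  refine (mul_le_mul (pow_le_pow_left₀ hκ0 hκ 2) hV hV0 (by positivity)).trans ?_
  rw [← Real.exp_nat_mul, ← Real.exp_nat_mul, ← Real.exp_nat_mul, ← Real.exp_add]
  refine Real.exp_le_exp.2 ?_
  have hcj : 999 * (C₀ + 1) ≤ CJ C₀ - 1 := by simp only [CJ]; linarith
  have e1 : (D / 16) * (999 * (C₀ + 1) * D) ≤ r * ((CJ C₀ - 1) * D) := by
    refine mul_le_mul hr (mul_le_mul_of_nonneg_right hcj hD.le) (by positivity) (by linarith)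
  have e2 : (2 * X ^ 4 + 2) * D ≤ D * D := mul_le_mul_of_nonneg_right hdX hD.le
  have e3 : D * D ≤ (C₀ + 1) * (D * D) := le_mul_of_one_le_left (by positivity) (by linarith)
  have e4 : 0 ≤ (C₀ + 1) * (D * D) := by positivity
  subst hn
  push_cast
  linarith

/-- The base of the volume tail. -/
lemma num_base {C₀ : ℝ} {d k r : ℕ} (hd : 256 ≤ d) (hk : k = d / 64) (hr : r = d / 8) :
    (9 / √(2 * (r:ℝ))) ^ (k + k) / (Real.exp (CJ C₀ * d) / (d:ℝ) ^ k)
      ≤ Real.exp (-((CJ C₀ - 1) * d)) := by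
  set D : ℝ := (d:ℝ)
  have hD : 0 < D := by simp only [D]; exact_mod_cast (by omega : 0 < d)
  have hr' : D / 16 ≤ (r:ℝ) := by
    have h16 : ((d:ℕ):ℝ) ≤ ((16 * r : ℕ):ℝ) := by exact_mod_cast (by omega : d ≤ 16 * r)
    push_cast at h16
    simp only [D]
    linarith
  have hrpos : (0:ℝ) < r := by linarith
  have e7 : (81:ℝ) / (2 * r) * D ≤ Real.exp 7 := by
    have : (81:ℝ) / (2 * r) * D ≤ 648 := by
      rw [div_mul_eq_mul_div, div_le_iff₀ (by linarith)]; linarith
    refine this.trans ?_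
    rw [show (7:ℝ) = ((7:ℕ):ℝ) * 1 by norm_num, Real.exp_nat_mul]
    exact le_trans (by norm_num) (pow_le_pow_left₀ (by norm_num)
      (show (2.7:ℝ) ≤ Real.exp 1 by linarith [Real.exp_one_gt_d9]) 7)
  have hk7 : 7 * (k:ℝ) ≤ D := by
    have h7 : ((7 * k : ℕ):ℝ) ≤ (d:ℝ) := by exact_mod_cast (by omega : 7 * k ≤ d)
    push_cast at h7
    exact h7
  calc (9 / √(2 * (r:ℝ))) ^ (k + k) / (Real.exp (CJ C₀ * D) / D ^ k)
      = (81 / (2 * r) * D) ^ k / Real.exp (CJ C₀ * D) := by
        rw [← two_mul k, pow_mul, div_pow, Real.sq_sqrt (by positivity), mul_pow]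
        field_simp
        norm_num
    _ ≤ Real.exp D / Real.exp (CJ C₀ * D) := by
        refine div_le_div_of_nonneg_right ?_ (Real.exp_pos _).le
        refine (pow_le_pow_left₀ (by positivity) e7 k).trans ?_
        rw [← Real.exp_nat_mul]
        exact Real.exp_le_exp.2 (by linarith)
    _ = _ := by rw [← Real.exp_sub]; ring_nf

/-- The bad pairs of a terminal node are negligible. -/
lemma num_heavy {C₀ X : ℝ} {d k : ℕ} {V : ℝ} (hX4 : 1000 ≤ X ^ 4) (hk : 1 ≤ k) (hV0 : 0 < V)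
    (hvol : Real.exp (-(2 * gP C₀ * d)) ≤ V) :
    heavy X d k * (5 * Lam X) ^ (k + 1) / V ≤ Real.exp (-(3 * X ^ 3 * d) + 2 * gP C₀ * d) := by
  rw [div_le_iff₀ hV0]
  refine le_trans ?_ (mul_le_mul_of_nonneg_left hvol (Real.exp_pos _).le)
  have h5L : 5 * Lam X ≤ Real.exp (X ^ 4 + 2) := by
    simp only [Lam]
    rw [Real.exp_add, mul_comm]
    refine mul_le_mul_of_nonneg_left ?_ (Real.exp_pos _).le
    rw [show (2:ℝ) = ((2:ℕ):ℝ) * 1 by norm_num, Real.exp_nat_mul]
    exact le_trans (by norm_num) (pow_le_pow_left₀ (by norm_num)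
      (show (2.7:ℝ) ≤ Real.exp 1 by linarith [Real.exp_one_gt_d9]) 2)
  refine (mul_le_mul_of_nonneg_left (pow_le_pow_left₀ (by simp only [Lam]; positivity) h5L _)
    (Real.exp_pos _).le).trans ?_
  rw [← Real.exp_nat_mul, ← Real.exp_add, ← Real.exp_add]
  refine Real.exp_le_exp.2 ?_
  have hk1 : (1:ℝ) ≤ k := by exact_mod_cast hk
  have e1 := mul_le_mul_of_nonneg_right hk1 (show (0:ℝ) ≤ X ^ 4 by positivity)
  have e2 := mul_le_mul_of_nonneg_left hX4 (show (0:ℝ) ≤ k by positivity)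
  push_cast
  linarith

/-- The main terms are at most the square of the target. -/
lemma num_main {C₀ X D sd m I M : ℝ} {k : ℕ} (hC₀ : 1 ≤ C₀) (hD : 1 ≤ D) (hX : 300 ≤ X)
    (hXc : 2 * gP C₀ + 5 + CJ C₀ ≤ X) (hsd : sd ^ 2 = D ^ k) (hM : 0 ≤ M) (hm : 0 ≤ m)
    (hI : I ≤ Real.exp (-(3 * X ^ 3 * D) + 2 * gP C₀ * D) * m * m) :
    M * (Real.exp (5 * D) * (Real.exp (CJ C₀ * D) / D ^ k))
        * (Real.exp (-(X ^ 4 * D / 64)) * (m * m) + I)
      ≤ M * (Real.exp (-(X ^ 3 * D / 2)) / sd * m) ^ 2 := by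
  have hD0 : 0 < D := by linarith
  have hX3 : (300:ℝ) ^ 3 ≤ X ^ 3 := pow_le_pow_left₀ (by norm_num) hX 3
  have hX3X : X ≤ X ^ 3 := le_self_pow₀ (by linarith) (by norm_num)
  have hX43 : 300 * X ^ 3 ≤ X ^ 4 := by
    rw [pow_succ X 3, mul_comm 300]; exact mul_le_mul_of_nonneg_left hX (by positivity)
  set ε := Real.exp (-(X ^ 4 * D / 64))
  have hsum : Real.exp (5 * D) * Real.exp (CJ C₀ * D)
      * (ε + Real.exp (-(3 * X ^ 3 * D) + 2 * gP C₀ * D)) ≤ Real.exp (-(X ^ 3 * D)) := by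
    have hc' : (5 + CJ C₀ + 2 * gP C₀) * D ≤ X ^ 3 * D :=
      mul_le_mul_of_nonneg_right (by linarith) hD0.le
    have hg0 : 0 ≤ gP C₀ * D := mul_nonneg (by simp only [gP]; linarith) hD0.le
    have h43 : 300 * X ^ 3 * D ≤ X ^ 4 * D := mul_le_mul_of_nonneg_right hX43 hD0.le
    have hbig3 : (300:ℝ) ^ 3 * D ≤ X ^ 3 * D := mul_le_mul_of_nonneg_right hX3 hD0.le
    have e1 : Real.exp (5 * D) * Real.exp (CJ C₀ * D) * ε ≤ Real.exp (-(2 * X ^ 3 * D)) := by
      simp only [ε]; rw [← Real.exp_add, ← Real.exp_add]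
      exact Real.exp_le_exp.2 (by linarith)
    have e2 : Real.exp (5 * D) * Real.exp (CJ C₀ * D)
        * Real.exp (-(3 * X ^ 3 * D) + 2 * gP C₀ * D) ≤ Real.exp (-(2 * X ^ 3 * D)) := by
      rw [← Real.exp_add, ← Real.exp_add]
      exact Real.exp_le_exp.2 (by linarith)
    have e3 : 2 * Real.exp (-(2 * X ^ 3 * D)) ≤ Real.exp (-(X ^ 3 * D)) := by
      have h2 : (2:ℝ) ≤ Real.exp (X ^ 3 * D) := by
        linarith [Real.add_one_le_exp (X ^ 3 * D)]
      refine (mul_le_mul_of_nonneg_right h2 (Real.exp_pos _).le).trans ?_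
      rw [← Real.exp_add]
      exact Real.exp_le_exp.2 (by linarith)
    rw [mul_add]
    linarith
  have e : (Real.exp (-(X ^ 3 * D / 2)) / sd * m) ^ 2 = Real.exp (-(X ^ 3 * D)) / D ^ k * (m * m) := by
    rw [mul_pow, div_pow, ← Real.exp_nat_mul, hsd]
    ring_nf
  rw [e, mul_assoc M]
  refine mul_le_mul_of_nonneg_left ?_ hM
  calc Real.exp (5 * D) * (Real.exp (CJ C₀ * D) / D ^ k) * (ε * (m * m) + I)
      ≤ Real.exp (5 * D) * (Real.exp (CJ C₀ * D) / D ^ k)
        * (ε * (m * m) + Real.exp (-(3 * X ^ 3 * D) + 2 * gP C₀ * D) * m * m) := by gcongr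
    _ = Real.exp (5 * D) * Real.exp (CJ C₀ * D)
        * (ε + Real.exp (-(3 * X ^ 3 * D) + 2 * gP C₀ * D)) / D ^ k * (m * m) := by ring
    _ ≤ _ := by gcongr

/-- The heavy-pick bound summed over both tuples. -/
lemma bad_pairs_le {A : Vec d ≃ₗ[ℝ] Vec d} {δ : ℝ} {Φ : (Fin k → Vec d) → Vec k → ℝ} {Ry : ℝ}
    (hΦ : Measurable (Function.uncurry Φ)) (h0 : ∀ x y, 0 ≤ Φ x y) (h1 : ∀ x y, Φ x y ≤ 1)
    {i : ℕ} (W : Fin i → Vec d) {Λ α : ℝ} (hΛ : 2 ≤ Λ) (hα : 0 ≤ α) (v : Vec d)
    {S : Set (Fin k → Vec d)} (hT : Terminal A δ Φ Ry Λ α W S) :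
    ∫ q, (badSet A δ (precond W) Λ v).indicator (fun q => wt Φ Ry q.1 * wt Φ Ry q.2) q
        ∂((rowsLaw d k).restrict S).prod ((rowsLaw d k).restrict S)
      ≤ α * (5 * Λ) ^ (k + 1) / pickVol W * mass Φ Ry S * mass Φ Ry S := by
  classical
  set Q := (rowsLaw d k).restrict S
  set bad := badSet (k := k) A δ (precond W) Λ v
  have hbadm : MeasurableSet bad := measurableSet_badSet A δ (precond W) Λ v
  have hwi : Integrable (fun q : (Fin k → Vec d) × (Fin k → Vec d) => wt Φ Ry q.1 * wt Φ Ry q.2)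
      (Q.prod Q) := (integrable_wt hΦ h0 h1 S).mul_prod (integrable_wt hΦ h0 h1 S)
  rw [integral_prod_symm _ (hwi.indicator hbadm)]
  have e : ∀ x', ∫ x, bad.indicator (fun q => wt Φ Ry q.1 * wt Φ Ry q.2) (x, x') ∂Q
      ≤ α * (5 * Λ) ^ (k + 1) / pickVol W * mass Φ Ry S * wt Φ Ry x' := by
    intro x'
    have e2 : ∀ x, bad.indicator (fun q => wt Φ Ry q.1 * wt Φ Ry q.2) (x, x')
        = bad.indicator (fun q => wt Φ Ry q.1) (x, x') * wt Φ Ry x' := by
      intro x
      by_cases hb : (x, x') ∈ bad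
      · simp only [Set.indicator_of_mem hb]
      · simp only [Set.indicator_of_notMem hb, zero_mul]
    simp only [e2]
    rw [integral_mul_const]
    exact mul_le_mul_of_nonneg_right (bad_le' hΦ h0 h1 W hΛ hα v hT x') (wt_nonneg h0 x')
  refine (integral_mono (hwi.indicator hbadm).integral_prod_right
    ((integrable_wt hΦ h0 h1 S).const_mul _) e).trans (le_of_eq ?_)
  rw [integral_const_mul]
  rfl

/-- A1: high part of a terminal node. -/
theorem high_le {C₀ : ℝ} (hC₀ : 1 ≤ C₀) :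
    ∀ᶠ X : ℝ in atTop, ∀ᶠ d : ℕ in atTop, ∀ k : ℕ, k = d / 64 →
    ∀ (P : Piece d) (σ₀ : Measure (Vec d)) [IsFiniteMeasure (gw σ₀)] (v : Vec d) (M : ℝ), 0 ≤ M →
      Decay σ₀ v M (d / 16) →
    ∀ (i : ℕ) (W : Fin i → Vec d), i ≤ d / 64 → Real.exp (-(2 * gP C₀ * d)) ≤ pickVol W →
    ∀ (Φ : (Fin k → Vec d) → Vec k → ℝ), Measurable (Function.uncurry Φ) →
      (∀ x y, 0 ≤ Φ x y) → (∀ x y, Φ x y ≤ 1) →
    ∀ S : Set (Fin k → Vec d), MeasurableSet S →
      Terminal P.A P.δ Φ (Rwin X d) (Lam X) (heavy X d k) W S →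
      ∫⁻ g, ENNReal.ofReal |nodeFn P.A P.δ Φ (Rwin X d) S g
          - smooth W (RW X d) (nodeFn P.A P.δ Φ (Rwin X d) S) g| ∂gw σ₀
        ≤ ENNReal.ofReal (M * (Real.exp (-(X ^ 3 * d / 2)) / √d ^ k * mass Φ (Rwin X d) S
            + Real.exp (-(20 * (C₀ + 1) * d ^ 2)))) := by
  filter_upwards [eventually_ge_atTop (max 300 (2 * gP C₀ + 5 + CJ C₀))] with X hX
  have hX300 : 300 ≤ X := le_trans (le_max_left _ _) hX
  have hXc : 2 * gP C₀ + 5 + CJ C₀ ≤ X := le_trans (le_max_right _ _) hX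
  filter_upwards [eventually_ge_atTop (max 256 ⌈2 * X ^ 4 + 2⌉₊)] with d hd k hk P σ₀ _ v M hM hdec i W hi
    hvol Φ hΦ h0 h1 S _ hT
  classical
  have hd256 : 256 ≤ d := le_trans (le_max_left _ _) hd
  have hdX : 2 * X ^ 4 + 2 ≤ (d:ℝ) :=
    le_trans (Nat.le_ceil _) (by exact_mod_cast le_trans (le_max_right _ _) hd)
  have hD1 : (1:ℝ) ≤ d := by exact_mod_cast (by omega : 1 ≤ d)
  have hD0 : (0:ℝ) < d := by linarith
  have hX4 : (1000:ℝ) ≤ X ^ 4 := le_trans (by norm_num) (pow_le_pow_left₀ (by norm_num) hX300 4)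
  -- coordinates
  obtain ⟨N, hN⟩ : ∃ N, d / 2 = N + 1 := ⟨d / 2 - 1, by omega⟩
  obtain ⟨e, he, heA, heW⟩ := P.exists_top (N := N + 1) (i := i + 1)
    (by omega) (Fin.cons v W : Fin (i + 1) → Vec d)
  have hev : ∀ r, ⟪v, e r⟫ = 0 := fun r => by simpa using heW r 0
  have hΛ2 : 2 ≤ Lam X := by simp only [Lam]; linarith [Real.add_one_le_exp (X ^ 4)]
  set B := precond W
  set R := RW X d
  set κ := 1 + ∫ z : Vec d, |kerK 1 R z| with hκdef
  have hκ0 : 0 ≤ κ := by simp only [hκdef]; positivity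
  set ε := Real.exp (-(X ^ 4 * (d:ℝ) / 64)) with hεdef
  set J := Real.exp (CJ C₀ * d) / (d:ℝ) ^ k with hJdef
  have hJ0 : 0 < J := by positivity
  set c := M * (Real.exp (5 * (d:ℝ)) * J) with hcdef
  have hc0 : 0 ≤ c := by positivity
  set Q := (rowsLaw d k).restrict S with hQdef
  set bigJ : Set ((Fin k → Vec d) × (Fin k → Vec d)) :=
    {q | ENNReal.ofReal J < jac (fun l => coord e (Fin.append (hrows P.A P.δ q.1) (hrows P.A P.δ q.2) l))}
  set bad := badSet (k := k) P.A P.δ B (Lam X) v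
  set w := fun q : (Fin k → Vec d) × (Fin k → Vec d) => wt Φ (Rwin X d) q.1 * wt Φ (Rwin X d) q.2
  have hw0 : ∀ q, 0 ≤ w q := fun q => mul_nonneg (wt_nonneg h0 _) (wt_nonneg h0 _)
  have hbigm : MeasurableSet bigJ := by
    refine measurableSet_lt measurable_const (measurable_jac.comp ?_)
    refine measurable_pi_lambda _ fun l => (measurable_coord e).comp ?_
    have hh := fun m : Fin k => ((measurable_pi_apply (X := fun _ : Fin k => Vec d) m).comp
      (measurable_hrows (k := k) P.A P.δ))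
    cases l using Fin.addCases with
    | left j => simp only [Fin.append_left]; exact (hh j).comp measurable_fst
    | right j => simp only [Fin.append_right]; exact (hh j).comp measurable_snd
  have hbadm : MeasurableSet bad := measurableSet_badSet P.A P.δ B (Lam X) v
  have hwi : Integrable w (Q.prod Q) :=
    (integrable_wt hΦ h0 h1 S).mul_prod (integrable_wt hΦ h0 h1 S)
  set G : (Fin k → Vec d) × (Fin k → Vec d) → ℝ := fun q =>
    M * κ ^ 2 * bigJ.indicator 1 q + c * (ε * w q + bad.indicator w q) with hGdef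
  have hG1 : Integrable (fun q : (Fin k → Vec d) × (Fin k → Vec d) =>
      M * κ ^ 2 * bigJ.indicator (1 : (Fin k → Vec d) × (Fin k → Vec d) → ℝ) q) (Q.prod Q) :=
    ((integrable_const (1:ℝ)).indicator hbigm).const_mul _
  have hG2 : Integrable (fun q => c * (ε * w q + bad.indicator w q)) (Q.prod Q) :=
    ((hwi.const_mul ε).add (hwi.indicator hbadm)).const_mul c
  have hGi : Integrable G (Q.prod Q) := hG1.add hG2
  have hpair : ∀ q : (Fin k → Vec d) × (Fin k → Vec d),
      |∫ g, psiK P.A P.δ Φ (Rwin X d) B R q.1 g * psiK P.A P.δ Φ (Rwin X d) B R q.2 g ∂gw σ₀| ≤ G q := by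
    intro q
    by_cases hq : q ∈ bigJ
    · have hb := norm_integral_le_of_norm_le_const (μ := gw σ₀) (C := κ ^ 2)
        (f := fun g => psiK P.A P.δ Φ (Rwin X d) B R q.1 g * psiK P.A P.δ Φ (Rwin X d) B R q.2 g)
        (ae_of_all _ fun g => by
          rw [norm_mul, Real.norm_eq_abs, Real.norm_eq_abs, sq]
          exact mul_le_mul (abs_psiK_le h0 h1 B R _ g) (abs_psiK_le h0 h1 B R _ g) (abs_nonneg _) hκ0)
      have hνM : (gw σ₀).real Set.univ ≤ M := ENNReal.toReal_le_of_le_ofReal hM hdec.1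
      have e1 : 0 ≤ c * (ε * w q + bad.indicator w q) :=
        mul_nonneg hc0 (add_nonneg (mul_nonneg (Real.exp_pos _).le (hw0 q))
          (Set.indicator_nonneg (fun q _ => hw0 q) q))
      simp only [hGdef, Set.indicator_of_mem hq, Pi.one_apply, mul_one]
      rw [← Real.norm_eq_abs]
      linarith [hb, mul_le_mul_of_nonneg_left hνM (sq_nonneg κ)]
    · obtain ⟨x, x'⟩ := q
      simp only [hGdef, Set.indicator_of_notMem hq, mul_zero, zero_add]
      exact high_pair_good hX300 hd256 hk σ₀ hM hdec hΦ h0 h1 W he hev x x' hJ0.le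
        (not_lt.1 (show ¬ ENNReal.ofReal J < jac _ from hq))
  set m := mass Φ (Rwin X d) S with hmdef
  have hm0 : 0 ≤ m := mass_nonneg h0 S
  set a := Real.exp (-(X ^ 3 * (d:ℝ) / 2)) / √(d:ℝ) ^ k * m with hadef
  set b := Real.exp (-(20 * (C₀ + 1) * (d:ℝ) ^ 2)) with hbdef
  have ha0 : 0 ≤ a := by positivity
  have hb0 : 0 < b := Real.exp_pos _
  refine high_le_of_pairs hΦ h0 h1 W R S (gw σ₀) hM hdec.1 (a := a + b) (by linarith) hGi hpair ?_
  have hbad' : ∫ q, bad.indicator w q ∂Q.prod Q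
      ≤ Real.exp (-(3 * X ^ 3 * (d:ℝ)) + 2 * gP C₀ * d) * m * m := by
    refine (bad_pairs_le hΦ h0 h1 W hΛ2 (Real.exp_pos _).le v hT).trans ?_
    exact mul_le_mul_of_nonneg_right (mul_le_mul_of_nonneg_right
      (num_heavy (C₀ := C₀) (X := X) (d := d) (k := k) hX4 (by omega) (pickVol_pos W) hvol) hm0) hm0
  have hbig : ∫ q, bigJ.indicator (1 : (Fin k → Vec d) × (Fin k → Vec d) → ℝ) q ∂Q.prod Q
      ≤ ((9 / √(2 * ((d / 8 : ℕ):ℝ))) ^ (k + k) / J) ^ (d / 8) := by
    rw [integral_indicator_one hbigm]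
    refine le_trans ?_ (pair_jac_tail (r := d / 8) P.δpos he heA (by omega) (by omega) hJ0)
    simp only [hQdef, Measure.prod_restrict]
    rw [measureReal_restrict_apply hbigm]
    exact measureReal_mono Set.inter_subset_left (measure_ne_top _ _)
  have hr : (d:ℝ) / 16 ≤ ((d / 8 : ℕ):ℝ) := by
    have h16 : ((d:ℕ):ℝ) ≤ ((16 * (d / 8) : ℕ):ℝ) := by exact_mod_cast (by omega : d ≤ 16 * (d / 8))
    push_cast at h16
    linarith
  have hV0 : 0 ≤ ∫ q, bigJ.indicator (1 : (Fin k → Vec d) × (Fin k → Vec d) → ℝ) q ∂Q.prod Q :=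
    integral_nonneg fun q => Set.indicator_nonneg (fun _ _ => zero_le_one) q
  have hT1 := num_big hC₀ hD0 hdX rfl hr hκ0 (kappa_le (by omega)) hV0
    (hbig.trans (pow_le_pow_left₀ (by positivity) (num_base hd256 hk rfl) _))
  have hww : ∫ q, w q ∂Q.prod Q = m * m := by
    rw [integral_prod_mul (f := wt Φ (Rwin X d)) (g := wt Φ (Rwin X d))]
    rfl
  have hT2 := num_main (k := k) (sd := √(d:ℝ) ^ k) hC₀ hD1 hX300 hXc
    (by rw [← pow_mul, mul_comm k 2, pow_mul, Real.sq_sqrt hD0.le]) hM hm0 hbad'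
  rw [integral_add hG1 hG2, integral_const_mul, integral_const_mul,
    integral_add (hwi.const_mul ε) (hwi.indicator hbadm), integral_const_mul, hww, mul_assoc M (κ ^ 2)]
  have hT1' := mul_le_mul_of_nonneg_left hT1 hM
  have hab : 0 ≤ M * (2 * a * b) := by positivity
  simp only [hcdef, hJdef, hadef, hbdef, hεdef] at hT1' hT2 hab ⊢
  linarith [hT1', hT2]

/-- A2: a node function is controlled by its mass. -/
theorem node_mass_le {C₀ : ℝ} (hC₀ : 1 ≤ C₀) :
    ∀ᶠ X : ℝ in atTop, ∀ᶠ d : ℕ in atTop, ∀ k : ℕ, k = d / 64 →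
    ∀ (P : Piece d) (σ₀ : Measure (Vec d)) [IsFiniteMeasure (gw σ₀)] (v : Vec d) (M : ℝ), 0 ≤ M →
      Decay σ₀ v M (d / 16) →
    ∀ (N : ℕ) (e : Fin (N + 1) → Vec d), Orthonormal ℝ e → (∀ r, ⟪v, e r⟫ = 0) →
      (∀ g r, ⟪P.A g, P.A (e r)⟫ = P.δ ^ 2 * ⟪g, e r⟫) →
    ∀ (Φ : (Fin k → Vec d) → Vec k → ℝ), Measurable (Function.uncurry Φ) →
      (∀ x y, 0 ≤ Φ x y) → (∀ x y, Φ x y ≤ 1) →
    ∀ S : Set (Fin k → Vec d), MeasurableSet S →
      (∀ x ∈ S, jac (fun l => coord e (hat P.A P.δ (x l))) ≤ ENNReal.ofReal (J1 C₀ d k)) →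
      ∫⁻ g, ENNReal.ofReal (nodeFn P.A P.δ Φ (Rwin X d) S g) ∂gw σ₀
        ≤ ENNReal.ofReal (M * (Real.exp ((CJ C₀ + X) * d) / √d ^ k * mass Φ (Rwin X d) S)) := by
  filter_upwards [eventually_ge_atTop (5:ℝ)] with X hX
  filter_upwards [eventually_ge_atTop 256] with d hd k hk P σ₀ _ v M hM hdec N e he hev _ Φ hΦ h0 h1 S hS
    hJ
  have hd' : (256:ℝ) ≤ d := by exact_mod_cast hd
  set p := d / 16 with hp
  set K : ℝ := 1 + 8 * (p:ℝ)
  have hK0 : 0 < K := by positivity
  have hKd : K ≤ d := by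
    have h8 : ((8 * p + 1 : ℕ):ℝ) ≤ (d:ℝ) := by exact_mod_cast (by omega : 8 * p + 1 ≤ d)
    push_cast at h8
    simp only [K]
    linarith
  set c := M * (Real.exp ((CJ C₀ + X) * d) / √(d:ℝ) ^ k)
  have hc : 0 ≤ c := by positivity
  set Q := (rowsLaw d k).restrict S
  have hcl := measurable_cutLabs (A := P.A) (δ := P.δ) (Ry := Rwin X d) hΦ
  have hF0 : ∀ g x, 0 ≤ cutK Φ (Rwin X d) x (labs P.A P.δ x g) := fun g x => cutK_nonneg h0 _ _
  have hm : Measurable (Function.uncurry fun (g : Vec d) (x : Fin k → Vec d) =>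
      ENNReal.ofReal (cutK Φ (Rwin X d) x (labs P.A P.δ x g))) := by
    have h : Measurable ((fun q : (Fin k → Vec d) × Vec d =>
        cutK Φ (Rwin X d) q.1 (labs P.A P.δ q.1 q.2)) ∘ fun q : Vec d × (Fin k → Vec d) => (q.2, q.1)) :=
      hcl.comp (measurable_snd.prodMk measurable_fst)
    exact h.ennreal_ofReal
  have e1 : ∀ g, ENNReal.ofReal (nodeFn P.A P.δ Φ (Rwin X d) S g)
      = ∫⁻ x, ENNReal.ofReal (cutK Φ (Rwin X d) x (labs P.A P.δ x g)) ∂Q := by
    intro g
    refine ofReal_integral_eq_lintegral_ofReal (Integrable.of_bound ?_ 1 (ae_of_all _ fun x => ?_))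
      (ae_of_all _ (hF0 g))
    · have h : Measurable ((fun q : (Fin k → Vec d) × Vec d =>
          cutK Φ (Rwin X d) q.1 (labs P.A P.δ q.1 q.2)) ∘ fun x : Fin k → Vec d => (x, g)) :=
        hcl.comp measurable_prodMk_right
      exact h.aestronglyMeasurable
    · rw [Real.norm_of_nonneg (hF0 g x)]; exact cutK_le_one h1 _ _
  simp only [e1]
  rw [lintegral_lintegral_swap hm.aemeasurable]
  refine (lintegral_mono_ae (g := fun x => ENNReal.ofReal (c * wt Φ (Rwin X d) x)) ?_).trans ?_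
  · filter_upwards [ae_restrict_mem hS] with x hx
    refine single_le hΦ h0 h1 (gw σ₀) x hc
      (b := fun ζ => M * (2 / (1 + ‖perp v (comb (hrows P.A P.δ x) ζ)‖ ^ 2 / K)) ^ p)
      (fun ζ => hdec.2 _) ?_
    simp only [ENNReal.ofReal_mul hM]
    rw [lintegral_const_mul' _ _ ENNReal.ofReal_ne_top]
    refine (mul_le_mul_right (lintegral_decay_le he hev (hrows P.A P.δ x) (by omega) hK0 hKd (by omega)
      (by omega) (hJ x hx)) _).trans ?_
    rw [← ENNReal.ofReal_mul hM]
    refine ENNReal.ofReal_le_ofReal (mul_le_mul_of_nonneg_left ?_ hM)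
    simp only [J1]
    rw [mul_div_assoc', ← Real.exp_add]
    refine div_le_div_of_nonneg_right (Real.exp_le_exp.2 ?_) (by positivity)
    nlinarith
  · rw [← ofReal_integral_eq_lintegral_ofReal ((integrable_wt hΦ h0 h1 S).const_mul c)
      (ae_of_all _ fun x => mul_nonneg hc (wt_nonneg h0 x)), integral_const_mul]
    refine ENNReal.ofReal_le_ofReal (le_of_eq ?_)
    simp only [c, mass]
    ring

/-- A3: smoothing against a base measure. -/
theorem smooth_le {d i m : ℕ} {σ₀ : Measure (Vec d)} {M : ℝ} [IsFiniteMeasure (gw σ₀)]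
    (hB : BumpW σ₀ M m) (hM : 0 ≤ M) (hi : i ≤ m) (W : Fin i → Vec d) (R : ℝ) {u : Vec d → ℝ}
    (hu : Measurable u) :
    ∫⁻ g, ENNReal.ofReal |smooth W R u g| ∂gw σ₀
      ≤ ENNReal.ofReal (M * (((2 * π) ^ d)⁻¹ * volume.real (Metric.closedBall (0 : Vec d) R)
          / pickVol W))
        * ∫⁻ x, ENNReal.ofReal (|u x| * Real.exp (-‖x‖ ^ 2 / 4)) := by
  set B := precond W
  set c := ((2 * π) ^ d)⁻¹ * volume.real (Metric.closedBall (0 : Vec d) R) / pickVol W
  have hpv := pickVol_pos W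
  have hc : 0 ≤ c := by positivity
  have hBm : Measurable B.symm := measurable_equiv B.symm
  have hk : ∀ g x, |kerB B 1 R (g - x)|
      ≤ c * Real.exp (-‖B.symm (g - x)‖ ^ 2 / 2) := by
    intro g x
    simp only [kerB, abs_mul, abs_inv, ← pickVol_eq W, B]
    rw [abs_of_pos hpv]
    refine (mul_le_mul_of_nonneg_left (abs_kerK_le 1 R _) (inv_nonneg.2 hpv.le)).trans (le_of_eq ?_)
    simp only [c, one_pow, mul_one]
    ring
  have h1 : ∀ g, ENNReal.ofReal |smooth W R u g| ≤ ∫⁻ x, ENNReal.ofReal (c * |u x|)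
      * ENNReal.ofReal (Real.exp (-‖B.symm (g - x)‖ ^ 2 / 2)) := by
    intro g
    rw [← Real.norm_eq_abs, ofReal_norm, smooth]
    refine (enorm_integral_le_lintegral_enorm _).trans (lintegral_mono fun x => ?_)
    rw [← ofReal_norm, ← ENNReal.ofReal_mul (by positivity)]
    refine ENNReal.ofReal_le_ofReal ?_
    rw [norm_mul, Real.norm_eq_abs, Real.norm_eq_abs]
    calc |kerB B 1 R (g - x)| * |u x| ≤ c * Real.exp (-‖B.symm (g - x)‖ ^ 2 / 2) * |u x| :=
          mul_le_mul_of_nonneg_right (hk g x) (abs_nonneg _)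
      _ = _ := by ring
  have hm : Measurable (Function.uncurry fun (g x : Vec d) => ENNReal.ofReal (c * |u x|)
      * ENNReal.ofReal (Real.exp (-‖B.symm (g - x)‖ ^ 2 / 2))) := by
    refine ((hu.comp measurable_snd).norm.const_mul c).ennreal_ofReal.mul ?_
    exact (Real.measurable_exp.comp
      (((hBm.comp (measurable_fst.sub measurable_snd)).norm.pow_const 2).neg.div_const 2)).ennreal_ofReal
  refine (lintegral_mono h1).trans ?_
  rw [lintegral_lintegral_swap hm.aemeasurable, ← lintegral_const_mul' _ _ ENNReal.ofReal_ne_top]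
  refine lintegral_mono fun x => ?_
  rw [lintegral_const_mul' _ _ ENNReal.ofReal_ne_top]
  refine (mul_le_mul_right (hB i hi W x) _).trans (le_of_eq ?_)
  rw [← ENNReal.ofReal_mul (by positivity), ← ENNReal.ofReal_mul (by positivity)]
  congr 1
  ring

end Vale.Agent.P309.Sharp
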