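import Vale.Agent.P309.Sharp.Setup

/-! Parameters of one phase. -/

namespace Vale.Agent.P309.Sharp

open MeasureTheory ProbabilityTheory Filter
open scoped RealInnerProductSpace Real ENNReal

variable {d k : ℕ}

/-- Budget for the product of the preconditioners. -/
noncomputable def gP (C₀ : ℝ) : ℝ := 4 * C₀ + 4

/-- Budget for the inverse volume of rows. -/
noncomputable def CJ (C₀ : ℝ) : ℝ := 1000 * (C₀ + 1)

/-- Operator norm window of the rows. -/
noncomputable def Rop (X : ℝ) (d : ℕ) : ℝ := X ^ 2 * √d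

/-- Radius of the signal window. -/
noncomputable def Rcut (X : ℝ) (d : ℕ) : ℝ := X ^ 4 * √d

/-- Radius of the label window. -/
noncomputable def Rwin (X : ℝ) (d : ℕ) : ℝ := X ^ 6 * d

/-- Strength of a pick. -/
noncomputable def Lam (X : ℝ) : ℝ := Real.exp (X ^ 4)

/-- Frequency window of the smoothing. -/
noncomputable def RW (X : ℝ) (d : ℕ) : ℝ := √d * Real.exp (2 * X ^ 4)

/-- Bound on the inverse volume of good rows. -/
noncomputable def J1 (C₀ : ℝ) (d k : ℕ) : ℝ := Real.exp (CJ C₀ * d) / √d ^ k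

/-- Threshold for a heavy pick. -/
noncomputable def heavy (X : ℝ) (d k : ℕ) : ℝ := Real.exp (-(3 * X ^ 3 * d + 3 * X ^ 4 * k))

/-- Number of picks after which a node is negligible. -/
noncomputable def depth (C₀ X : ℝ) (d : ℕ) : ℕ := ⌈gP C₀ * d / X ^ 4⌉₊ + 1

/-- Rows of moderate norm and volume. -/
def goodSet {N : ℕ} (A : Vec d ≃ₗ[ℝ] Vec d) (δ : ℝ) (e : Fin N → Vec d) (R J : ℝ) :
    Set (Fin k → Vec d) :=
  {x | ∀ ζ, ‖comb x ζ‖ ≤ R * ‖ζ‖}
    ∩ {x | jac (fun l => coord e (hat A δ (x l))) ≤ ENNReal.ofReal J}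

lemma measurableSet_goodSet {N : ℕ} (A : Vec d ≃ₗ[ℝ] Vec d) (δ : ℝ) (e : Fin N → Vec d) (R J : ℝ) :
    MeasurableSet (goodSet (k := k) A δ e R J) := by
  refine MeasurableSet.inter ?_ ?_
  · have : {x : Fin k → Vec d | ∀ ζ, ‖comb x ζ‖ ≤ R * ‖ζ‖}
        = ⋂ ζ : Vec k, {x | ‖comb x ζ‖ ≤ R * ‖ζ‖} := by ext x; simp
    rw [this]
    refine (isClosed_iInter fun ζ => ?_).measurableSet
    exact isClosed_le (by unfold comb; fun_prop) continuous_const
  · have h1 : Measurable fun x : Fin k → Vec d => fun l => coord e (hat A δ (x l)) :=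
      measurable_pi_lambda _ fun l => (measurable_coord e).comp
        ((hat A δ).continuous_of_finiteDimensional.measurable.comp (measurable_pi_apply l))
    exact (measurable_jac.comp h1) measurableSet_Iic

/-- Gaussian bumps in preconditioned coordinates are light. -/
def BumpW (σ₀ : Measure (Vec d)) (M : ℝ) (m : ℕ) : Prop :=
  ∀ i, i ≤ m → ∀ (W : Fin i → Vec d) (x : Vec d),
    ∫⁻ g, ENNReal.ofReal (Real.exp (-‖(precond W).symm (g - x)‖ ^ 2 / 2)) ∂gw σ₀
      ≤ ENNReal.ofReal (M * Real.exp (-‖x‖ ^ 2 / 4))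

end Vale.Agent.P309.Sharp
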