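import Vale.Agent.P309.Sharp.Volume
import Vale.Agent.P309.Sharp.Base

/-! Preconditioned row integrals, the operator norm of normal rows, and tails. -/

namespace Vale.Agent.P309.Sharp

open MeasureTheory ProbabilityTheory Filter Topology Complex
open scoped RealInnerProductSpace Real ENNReal

variable {d n k : ℕ}

lemma stdGaussian_tail (R : ℝ) :
    stdGaussian (Vec d) {g | R ^ 2 ≤ ‖g‖ ^ 2} ≤ ENNReal.ofReal (√2 ^ d * Real.exp (-R ^ 2 / 4)) := by
  have h := gw_tail_le (volume : Measure (Vec d)) (M := 1) R (by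
    rw [child_volume, gw_volume]; simp)
  rw [gw_volume, mul_one] at h
  exact h

lemma volume_ball_le {r M : ℝ} (hr : 0 < r) (hM : 0 < M) :
    volume {ζ : Vec n | ‖ζ‖ ≤ r} ≤ ENNReal.ofReal (Real.exp (M / 2) * (√(2 * π) * (r / √M)) ^ n) := by
  set c := r / √M with hc
  have hc0 : 0 < c := by positivity
  have hS : MeasurableSet {ζ : Vec n | ‖ζ‖ ≤ r} := measurableSet_le (by fun_prop) measurable_const
  rw [← lintegral_indicator_one hS,
    lintegral_comp_smul (measurable_one.indicator hS) hc0, mul_pow]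
  calc ENNReal.ofReal (c ^ n) * ∫⁻ ζ : Vec n, Set.indicator {ζ : Vec n | ‖ζ‖ ≤ r} 1 (c • ζ)
      ≤ ENNReal.ofReal (c ^ n) * ∫⁻ ζ : Vec n,
          ENNReal.ofReal (Real.exp (M / 2) * Real.exp (-‖ζ‖ ^ 2 / 2)) := by
        refine mul_le_mul_right (lintegral_mono fun ζ => ?_) _
        by_cases h : c • ζ ∈ {ζ : Vec n | ‖ζ‖ ≤ r}
        · rw [Set.indicator_of_mem h, Pi.one_apply, ← Real.exp_add, ← ENNReal.ofReal_one]
          refine ENNReal.ofReal_le_ofReal (Real.one_le_exp ?_)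
          have h1 : ‖c • ζ‖ ≤ r := h
          rw [norm_smul, Real.norm_of_nonneg hc0.le] at h1
          have h2 : ‖ζ‖ ≤ √M := by
            rw [← mul_le_mul_iff_of_pos_left hc0]
            refine h1.trans (le_of_eq ?_)
            simp only [c]
            field_simp
          have h3 := pow_le_pow_left₀ (norm_nonneg _) h2 2
          rw [Real.sq_sqrt hM.le] at h3
          linarith
        · simp [Set.indicator_of_notMem h]
    _ = _ := by
        rw [← ofReal_integral_eq_lintegral_ofReal (integrable_gauss.const_mul _)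
          (ae_of_all _ fun ζ => by positivity), integral_const_mul, gauss_integral, gaussConst_vec,
          ← ENNReal.ofReal_mul (by positivity)]
        congr 1
        ring

/-- Volume of coefficients with small combination, with a free tilt. -/
lemma volume_comb_le' {N : ℕ} (X : Fin n → Vec (N + 1)) (w : Vec (N + 1)) {r M : ℝ} (hr : 0 < r)
    (hM : 0 < M) :
    volume {ζ : Vec n | ‖comb X ζ - w‖ ≤ r}
      ≤ ENNReal.ofReal (Real.exp (2 * M) * (√(2 * π) * (r / √M)) ^ n) * jac X := by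
  by_cases hne : ∃ a : Vec n, ‖comb X a - w‖ ≤ r
  swap
  · push Not at hne
    have : {ζ : Vec n | ‖comb X ζ - w‖ ≤ r} = ∅ := Set.eq_empty_of_forall_notMem fun a ha =>
      absurd ha (not_le.2 (hne a))
    simp [this]
  obtain ⟨a, ha⟩ := hne
  have hcc := continuous_comb X
  have hS : MeasurableSet {ζ : Vec n | ‖comb X ζ - w‖ ≤ r} := measurableSet_le (by fun_prop) (by fun_prop)
  set c := r / √M
  have hc0 : 0 < c := by positivity
  have key := lintegral_exp_comb_scaled X hc0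
  rw [← lintegral_indicator_one hS]
  rw [← lintegral_sub_right_eq_self (fun ζ : Vec n =>
    ENNReal.ofReal (Real.exp (-‖comb X ζ‖ ^ 2 / (2 * c ^ 2)))) a] at key
  calc ∫⁻ ζ, Set.indicator {ζ : Vec n | ‖comb X ζ - w‖ ≤ r} 1 ζ
      ≤ ∫⁻ ζ : Vec n, ENNReal.ofReal (Real.exp (2 * M))
          * ENNReal.ofReal (Real.exp (-‖comb X (ζ - a)‖ ^ 2 / (2 * c ^ 2))) := by
        refine lintegral_mono fun ζ => ?_
        by_cases hζ : ζ ∈ {ζ : Vec n | ‖comb X ζ - w‖ ≤ r}
        · rw [Set.indicator_of_mem hζ, ← ENNReal.ofReal_mul (Real.exp_pos _).le, ← Real.exp_add,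
            Pi.one_apply, ← ENNReal.ofReal_one]
          refine ENNReal.ofReal_le_ofReal (Real.one_le_exp ?_)
          have h2 : ‖comb X (ζ - a)‖ ≤ 2 * r := by
            rw [comb_sub, show comb X ζ - comb X a = (comb X ζ - w) - (comb X a - w) by abel]
            refine (norm_sub_le _ _).trans ?_
            have : ‖comb X ζ - w‖ ≤ r := hζ
            linarith
          have h3 : ‖comb X (ζ - a)‖ ^ 2 / (2 * c ^ 2) ≤ 2 * M := by
            rw [div_le_iff₀ (by positivity)]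
            have : 2 * M * (2 * c ^ 2) = 4 * r ^ 2 := by
              simp only [c, div_pow, Real.sq_sqrt hM.le]
              field_simp
              ring
            rw [this]
            nlinarith [pow_le_pow_left₀ (norm_nonneg _) h2 2]
          rw [neg_div]
          linarith
        · simp [Set.indicator_of_notMem hζ]
    _ ≤ _ := by
        rw [lintegral_const_mul' _ _ ENNReal.ofReal_ne_top, ENNReal.ofReal_mul (Real.exp_pos _).le,
          mul_assoc]
        exact mul_le_mul_right key _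

/-- The regularised Gaussian row integral as a Gaussian expectation. -/
lemma gauss_rows_identity (X : Fin n → Vec d) {h : ℝ} (hh : 0 < h) :
    ∫⁻ ζ : Vec n, ENNReal.ofReal (Real.exp (-‖comb X ζ‖ ^ 2 / 2) * Real.exp (-(h ^ 2 / 2) * ‖ζ‖ ^ 2))
      = ∫⁻ g, ENNReal.ofReal ((2 * π) ^ n * (h ^ n)⁻¹
          * gaussKer (h⁻¹ • (WithLp.toLp 2 fun l => ⟪X l, g⟫ : Vec n))) ∂stdGaussian (Vec d) := by
  set L : Vec d → Vec n := fun g => WithLp.toLp 2 fun l => ⟪X l, g⟫
  have hL : Continuous L := by simp only [L]; fun_prop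
  have hLc : ∀ g ζ, ⟪g, comb X ζ⟫ = ⟪L g, ζ⟫ := by
    intro g ζ
    simp only [comb, inner_sum, inner_smul_right, L]
    rw [PiLp.inner_apply]
    refine Finset.sum_congr rfl fun l _ => ?_
    simp [real_inner_comm g]
  have hg : Integrable fun ζ : Vec n => Real.exp (-(h ^ 2 / 2) * ‖ζ‖ ^ 2) := by
    refine ((integrable_gauss (V := Vec n)).comp_smul hh.ne').congr (ae_of_all _ fun ξ => ?_)
    simp only [norm_smul, Real.norm_eq_abs, mul_pow, sq_abs]
    ring_nf
  have hc := continuous_comb X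
  have hi : Integrable fun ζ : Vec n =>
      Real.exp (-‖comb X ζ‖ ^ 2 / 2) * Real.exp (-(h ^ 2 / 2) * ‖ζ‖ ^ 2) := by
    refine hg.mono' (by fun_prop) (ae_of_all _ fun ζ => ?_)
    rw [Real.norm_of_nonneg (by positivity)]
    exact mul_le_of_le_one_left (Real.exp_pos _).le
      (Real.exp_le_one_iff.2 (by nlinarith [sq_nonneg ‖comb X ζ‖]))
  have hk : Continuous fun g => (2 * π) ^ n * (h ^ n)⁻¹ * gaussKer (h⁻¹ • L g) := by
    have := continuous_gaussKer (d := n)
    fun_prop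
  have hk0 : ∀ g, 0 ≤ (2 * π) ^ n * (h ^ n)⁻¹ * gaussKer (h⁻¹ • L g) := fun g =>
    mul_nonneg (by positivity) (gaussKer_nonneg _)
  have hki : Integrable (fun g => (2 * π) ^ n * (h ^ n)⁻¹ * gaussKer (h⁻¹ • L g)) (stdGaussian (Vec d)) := by
    refine Integrable.of_bound hk.aestronglyMeasurable ((2 * π) ^ n * (h ^ n)⁻¹ * (gaussConst (Vec n))⁻¹)
      (ae_of_all _ fun g => ?_)
    rw [Real.norm_of_nonneg (hk0 g)]
    exact mul_le_mul_of_nonneg_left (mul_le_of_le_one_right (inv_nonneg.2 gaussConst_pos.le)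
      (Real.exp_le_one_iff.2 (by nlinarith [norm_nonneg (h⁻¹ • L g)]))) (by positivity)
  rw [← ofReal_integral_eq_lintegral_ofReal hi (ae_of_all _ fun ζ => by positivity),
    ← ofReal_integral_eq_lintegral_ofReal hki (ae_of_all _ hk0)]
  congr 1
  refine Complex.ofReal_injective ?_
  rw [← integral_complex_ofReal, ← integral_complex_ofReal]
  have e1 : ∀ g, (((2 * π) ^ n * (h ^ n)⁻¹ * gaussKer (h⁻¹ • L g) : ℝ) : ℂ)
      = ∫ ζ : Vec n, cexp (-((h ^ 2 / 2 : ℝ) : ℂ) * (‖ζ‖:ℂ) ^ 2 + I * (⟪L g, ζ⟫ : ℝ)) :=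
    fun g => by rw [gaussKer_fourier hh, finrank_euclideanSpace_fin]
  simp only [e1]
  rw [integral_integral_swap]
  · refine integral_congr_ae (ae_of_all _ fun ζ => ?_)
    simp only [Complex.exp_add, ← hLc]
    rw [integral_const_mul]
    simp only [mul_comm I, ← charFun_apply]
    rw [charFun_stdGaussian, Complex.ofReal_mul, Complex.ofReal_exp, Complex.ofReal_exp, mul_comm]
    push_cast
    ring_nf
  · refine (hg.comp_snd (stdGaussian (Vec d))).mono' (by fun_prop) (ae_of_all _ fun p => ?_)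
    simp only [Function.uncurry, Complex.norm_exp]
    simp [← Complex.ofReal_pow]

/-- Contracting the rows by a diagonal map costs at most its inverse determinant. -/
theorem lintegral_exp_diag_le (b : OrthonormalBasis (Fin d) ℝ (Vec d)) {β : Fin d → ℝ}
    (hβ0 : ∀ i, 0 < β i) (hβ1 : ∀ i, β i ≤ 1) (X : Fin n → Vec d) :
    ∫⁻ ζ : Vec n, ENNReal.ofReal (Real.exp (-‖diag b β (comb X ζ)‖ ^ 2 / 2))
      ≤ ENNReal.ofReal (∏ i, β i)⁻¹ * ∫⁻ ζ : Vec n, ENNReal.ofReal (Real.exp (-‖comb X ζ‖ ^ 2 / 2)) := by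
  have hβ : ∀ i, β i ≠ 0 := fun i => (hβ0 i).ne'
  set Y : Fin n → Vec d := fun l => diag b β (X l)
  have hY : ∀ ζ, diag b β (comb X ζ) = comb Y ζ := fun ζ => by
    simp [comb, Y, map_sum]
  simp only [hY]
  have hb : ∀ h : ℝ, 0 < h →
      ∫⁻ ζ : Vec n, ENNReal.ofReal (Real.exp (-‖comb Y ζ‖ ^ 2 / 2) * Real.exp (-(h ^ 2 / 2) * ‖ζ‖ ^ 2))
        ≤ ENNReal.ofReal (∏ i, β i)⁻¹
          * ∫⁻ ζ : Vec n, ENNReal.ofReal (Real.exp (-‖comb X ζ‖ ^ 2 / 2)) := by
    intro h hh
    set F : Vec d → ℝ≥0∞ := fun g => ENNReal.ofReal ((2 * π) ^ n * (h ^ n)⁻¹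
      * gaussKer (h⁻¹ • (WithLp.toLp 2 fun l => ⟪X l, g⟫ : Vec n)))
    have hF : Measurable F := by
      have := continuous_gaussKer (d := n)
      simp only [F]
      fun_prop
    have hBm := (diag b β).continuous_of_finiteDimensional.measurable
    rw [gauss_rows_identity Y hh]
    have e : ∀ g, ENNReal.ofReal ((2 * π) ^ n * (h ^ n)⁻¹
        * gaussKer (h⁻¹ • (WithLp.toLp 2 fun l => ⟪Y l, g⟫ : Vec n))) = F (diag b β g) := fun g => by
      simp only [F, Y, diag_symm]
    simp only [e]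
    set C := diagEquiv b β hβ
    have hdet : |LinearMap.det (C : Vec d →ₗ[ℝ] Vec d)|⁻¹ = (∏ i, β i)⁻¹ := by
      rw [show (C : Vec d →ₗ[ℝ] Vec d) = diag b β from rfl, det_diag,
        abs_of_nonneg (Finset.prod_nonneg fun i _ => (hβ0 i).le)]
    calc ∫⁻ g, F (diag b β g) ∂stdGaussian (Vec d)
        = ∫⁻ x, ENNReal.ofReal (∏ i, β i)⁻¹ * (ENNReal.ofReal (gaussKer (C.symm x)) * F x) := by
          rw [lintegral_stdGaussian (F := fun g => F (diag b β g)) (hF.comp hBm), ← hdet]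
          have hm : Measurable fun g => ENNReal.ofReal (gaussKer g) * F (C g) :=
            measurable_gaussKer.ennreal_ofReal.mul (hF.comp (measurable_equiv C))
          rw [← lintegral_neg_eq_self (μ := (volume : Measure (Vec d)))
            (fun x => ENNReal.ofReal |LinearMap.det (C : Vec d →ₗ[ℝ] Vec d)|⁻¹
              * (ENNReal.ofReal (gaussKer (C.symm x)) * F x))]
          have h2 := lintegral_subst C 0 hm
          simp only [zero_sub, LinearEquiv.apply_symm_apply] at h2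
          exact h2.symm
      _ ≤ ∫⁻ x, ENNReal.ofReal (∏ i, β i)⁻¹ * (ENNReal.ofReal (gaussKer x) * F x) := by
          refine lintegral_mono fun x => mul_le_mul_right (mul_le_mul_left (ENNReal.ofReal_le_ofReal ?_) _) _
          unfold gaussKer
          refine mul_le_mul_of_nonneg_left (Real.exp_le_exp.2 ?_) (inv_nonneg.2 gaussConst_pos.le)
          have h1 := norm_diag_le (b := b) (f := β) (c := 1)
            (fun i => by rw [abs_of_pos (hβ0 i)]; exact hβ1 i) zero_le_one (C.symm x)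
          rw [one_mul, ← diagEquiv_apply hβ, LinearEquiv.apply_symm_apply] at h1
          have := pow_le_pow_left₀ (norm_nonneg _) h1 2
          linarith
      _ = ENNReal.ofReal (∏ i, β i)⁻¹ * ∫⁻ g, F g ∂stdGaussian (Vec d) := by
          rw [lintegral_const_mul' _ _ ENNReal.ofReal_ne_top, lintegral_stdGaussian hF]
      _ ≤ _ := by
          refine mul_le_mul_right ?_ _
          simp only [F]
          rw [← gauss_rows_identity X hh]
          refine lintegral_mono fun ζ => ENNReal.ofReal_le_ofReal ?_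
          exact mul_le_of_le_one_right (Real.exp_pos _).le (Real.exp_le_one_iff.2 (by
            nlinarith [norm_nonneg ζ, sq_nonneg h]))
  have hlim : ∀ ζ : Vec n, Tendsto (fun j : ℕ => ENNReal.ofReal (Real.exp (-‖comb Y ζ‖ ^ 2 / 2)
      * Real.exp (-((1 / (j + 1) : ℝ) ^ 2 / 2) * ‖ζ‖ ^ 2))) atTop
      (𝓝 (ENNReal.ofReal (Real.exp (-‖comb Y ζ‖ ^ 2 / 2)))) := by
    intro ζ
    have hc : Continuous fun x : ℝ => Real.exp (-‖comb Y ζ‖ ^ 2 / 2)
        * Real.exp (-(x ^ 2 / 2) * ‖ζ‖ ^ 2) := by fun_prop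
    have := ENNReal.tendsto_ofReal ((hc.tendsto 0).comp tendsto_one_div_add_atTop_nhds_zero_nat)
    simpa [Function.comp_def] using this
  calc ∫⁻ ζ : Vec n, ENNReal.ofReal (Real.exp (-‖comb Y ζ‖ ^ 2 / 2))
      = ∫⁻ ζ : Vec n, liminf (fun j : ℕ => ENNReal.ofReal (Real.exp (-‖comb Y ζ‖ ^ 2 / 2)
          * Real.exp (-((1 / (j + 1) : ℝ) ^ 2 / 2) * ‖ζ‖ ^ 2))) atTop :=
        lintegral_congr fun ζ => (hlim ζ).liminf_eq.symm
    _ ≤ liminf (fun j : ℕ => ∫⁻ ζ : Vec n, ENNReal.ofReal (Real.exp (-‖comb Y ζ‖ ^ 2 / 2)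
          * Real.exp (-((1 / (j + 1) : ℝ) ^ 2 / 2) * ‖ζ‖ ^ 2))) atTop := by
        refine lintegral_liminf_le fun j => ?_
        have := continuous_comb Y
        fun_prop
    _ ≤ _ := liminf_le_of_frequently_le (Frequently.of_forall fun j => hb _ (by positivity))
        (by isBoundedDefault)

/-- A unit combination of independent normal rows is normal. -/
lemma map_comb_unit {ζ : Vec k} (hζ : ‖ζ‖ = 1) :
    (Measure.pi fun _ : Fin k => stdGaussian (Vec d)).map (fun X => comb X ζ) = stdGaussian (Vec d) := by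
  refine Measure.ext_of_charFun (funext fun ξ => ?_)
  have hm : Measurable fun X : Fin k → Vec d => comb X ζ := by unfold comb; fun_prop
  rw [charFun_apply, integral_map hm.aemeasurable (by fun_prop), charFun_stdGaussian]
  have e : ∀ X : Fin k → Vec d, cexp ((⟪comb X ζ, ξ⟫ : ℝ) * I)
      = ∏ l, cexp ((⟪X l, ζ l • ξ⟫ : ℝ) * I) := fun X => by
    rw [← Complex.exp_sum, ← Finset.sum_mul, ← Complex.ofReal_sum]
    simp [comb, sum_inner, real_inner_smul_left, inner_smul_right]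
  simp only [e]
  rw [integral_fintype_prod_eq_prod (f := fun l (x : Vec d) => cexp ((⟪x, ζ l • ξ⟫ : ℝ) * I))]
  simp only [← charFun_apply, charFun_stdGaussian]
  rw [← Complex.exp_sum]
  congr 1
  simp only [← Complex.ofReal_pow, norm_smul, mul_pow, Real.norm_eq_abs, sq_abs, neg_div]
  rw [Finset.sum_neg_distrib, ← Finset.sum_div, ← Complex.ofReal_sum, ← Finset.sum_mul,
    ← EuclideanSpace.real_norm_sq_eq, hζ, one_pow, one_mul]

/-- Rows of large operator norm are rare. -/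
theorem opNorm_tail (hk : 1 ≤ k) {c : ℝ} (hc : 0 < c) :
    (Measure.pi fun _ : Fin k => stdGaussian (Vec d)) {X | ∃ ζ, c * ‖ζ‖ < ‖comb X ζ‖}
      ≤ ENNReal.ofReal (5 ^ k * √2 ^ d * Real.exp (-(3 * c / 5) ^ 2 / 4)) := by
  set P := Measure.pi fun _ : Fin k => stdGaussian (Vec d)
  set S := {X : Fin k → Vec d | ∃ ζ, c * ‖ζ‖ < ‖comb X ζ‖}
  have hSo : IsOpen S := by
    have : S = ⋃ ζ, {X | c * ‖ζ‖ < ‖comb X ζ‖} := by ext X; simp [S]
    rw [this]
    exact isOpen_iUnion fun ζ => isOpen_lt continuous_const (by unfold comb; fun_prop)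
  have hS := hSo.measurableSet
  set U := Metric.closedBall (0 : Vec k) (5/4)
  set q : ℝ≥0∞ := ENNReal.ofReal (√2 ^ d * Real.exp (-(3 * c / 5) ^ 2 / 4))
  set E := fun ζ : Vec k => {X : Fin k → Vec d | ζ ≠ 0 ∧ 3 * c / 5 * ‖ζ‖ ≤ ‖comb X ζ‖}
  have hEm : MeasurableSet {p : (Fin k → Vec d) × Vec k | p.2 ≠ 0 ∧ 3 * c / 5 * ‖p.2‖ ≤ ‖comb p.1 p.2‖} :=
    (measurableSet_singleton (0 : Vec k)).compl.preimage measurable_snd |>.inter
      (measurableSet_le (f := fun p : (Fin k → Vec d) × Vec k => 3 * c / 5 * ‖p.2‖)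
        (g := fun p : (Fin k → Vec d) × Vec k => ‖comb p.1 p.2‖) (by fun_prop)
        (Continuous.measurable (by unfold comb; fun_prop)))
  set v : ℝ≥0∞ := volume (Metric.closedBall (0 : Vec k) (1/4))
  have hpt : ∀ X, S.indicator (fun _ => v) X
      ≤ ∫⁻ ζ in U, {p : (Fin k → Vec d) × Vec k | p.2 ≠ 0 ∧ 3 * c / 5 * ‖p.2‖ ≤ ‖comb p.1 p.2‖}.indicator
          1 (X, ζ) := by
    intro X
    by_cases hX : X ∈ S
    swap
    · simp [hX]
    rw [Set.indicator_of_mem hX]
    obtain ⟨ζ₁, hζ₁⟩ := hX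
    have hζ₁0 : ζ₁ ≠ 0 := by
      rintro rfl
      simp [comb] at hζ₁
    have : Nontrivial (Vec k) := ⟨⟨ζ₁, 0, hζ₁0⟩⟩
    obtain ⟨ζ₀, hζ₀, hmax⟩ := (isCompact_sphere (0 : Vec k) 1).exists_isMaxOn
      (NormedSpace.sphere_nonempty.2 zero_le_one) ((continuous_comb X).norm).continuousOn
    have hn0 : ‖ζ₀‖ = 1 := by simpa using hζ₀
    set M := ‖comb X ζ₀‖
    have hM : ∀ ζ, ‖comb X ζ‖ ≤ M * ‖ζ‖ := fun ζ => by
      rcases eq_or_ne ζ 0 with rfl | hz
      · simp [comb]
      have hmem : ‖ζ‖⁻¹ • ζ ∈ Metric.sphere (0 : Vec k) 1 := by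
        simp [norm_smul, norm_ne_zero_iff.2 hz]
      have : ‖comb X (‖ζ‖⁻¹ • ζ)‖ ≤ M := hmax hmem
      rw [comb_smul, norm_smul, norm_inv, norm_norm, inv_mul_le_iff₀ (norm_pos_iff.2 hz)] at this
      linarith
    have hcM : c < M := lt_of_mul_lt_mul_right (hζ₁.trans_le (hM ζ₁)) (norm_nonneg _)
    rw [show v = volume (Metric.closedBall ζ₀ (1/4)) by
      simp only [v, Measure.addHaar_closedBall_center]]
    rw [← lintegral_indicator_one measurableSet_closedBall, ← lintegral_indicator measurableSet_closedBall]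
    refine lintegral_mono fun ζ => ?_
    by_cases hζ : ζ ∈ Metric.closedBall ζ₀ (1/4)
    swap
    · rw [Set.indicator_of_notMem hζ]
      exact zero_le
    have hd' : ‖ζ - ζ₀‖ ≤ 1/4 := by simpa [dist_eq_norm] using hζ
    have hn : ‖ζ‖ ≤ 5/4 := by
      have := norm_le_norm_add_norm_sub' ζ ζ₀
      linarith
    have hn2 : 3/4 ≤ ‖ζ‖ := by
      have := norm_le_norm_add_norm_sub ζ ζ₀
      linarith
    have h1 : 3 * c / 4 ≤ ‖comb X ζ‖ := by
      have h2 := hM (ζ - ζ₀)
      rw [comb_sub] at h2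
      have h3 := norm_le_norm_add_norm_sub (comb X ζ) (comb X ζ₀)
      nlinarith [mul_le_mul_of_nonneg_left hd' (show 0 ≤ M by linarith)]
    rw [Set.indicator_of_mem hζ, Set.indicator_of_mem (show ζ ∈ U by simpa [U] using hn),
      Set.indicator_of_mem (show (X, ζ) ∈ {p : (Fin k → Vec d) × Vec k |
          p.2 ≠ 0 ∧ 3 * c / 5 * ‖p.2‖ ≤ ‖comb p.1 p.2‖} from
        ⟨fun h : ζ = 0 => by rw [h, norm_zero] at hn2; linarith,
          show 3 * c / 5 * ‖ζ‖ ≤ ‖comb X ζ‖ by nlinarith⟩)]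
    exact le_rfl
  have hind : Measurable fun p : (Fin k → Vec d) × Vec k =>
      {p : (Fin k → Vec d) × Vec k | p.2 ≠ 0 ∧ 3 * c / 5 * ‖p.2‖ ≤ ‖comb p.1 p.2‖}.indicator
        (fun _ => (1 : ℝ≥0∞)) p := measurable_const.indicator hEm
  have hmain : P S * v ≤ volume U * q := by
    rw [mul_comm, ← lintegral_indicator_const hS]
    refine (lintegral_mono hpt).trans ?_
    rw [lintegral_lintegral_swap hind.aemeasurable, mul_comm (volume U), ← setLIntegral_const U q]
    refine lintegral_mono fun ζ => ?_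
    by_cases hz : ζ = 0
    · refine le_of_eq_of_le ?_ zero_le
      refine (lintegral_congr fun X => ?_).trans lintegral_zero
      simp [hz]
    have hn : 0 < ‖ζ‖ := norm_pos_iff.2 hz
    have hu : ‖‖ζ‖⁻¹ • ζ‖ = 1 := by rw [norm_smul, norm_inv, norm_norm, inv_mul_cancel₀ hn.ne']
    have hset : MeasurableSet {g : Vec d | (3 * c / 5) ^ 2 ≤ ‖g‖ ^ 2} :=
      measurableSet_le measurable_const (by fun_prop)
    have hm : Measurable fun X : Fin k → Vec d => comb X (‖ζ‖⁻¹ • ζ) := by unfold comb; fun_prop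
    refine le_trans (le_of_eq ?_) (stdGaussian_tail (d := d) (3 * c / 5))
    rw [← map_comb_unit hu, Measure.map_apply hm hset, ← lintegral_indicator_one (hm hset)]
    refine lintegral_congr fun X => ?_
    have hiff : X ∈ (fun X => comb X (‖ζ‖⁻¹ • ζ)) ⁻¹' {g : Vec d | (3 * c / 5) ^ 2 ≤ ‖g‖ ^ 2}
        ↔ 3 * c / 5 * ‖ζ‖ ≤ ‖comb X ζ‖ := by
      simp only [Set.mem_preimage, Set.mem_ofPred_eq, comb_smul, norm_smul, norm_inv, norm_norm]
      rw [sq_le_sq₀ (by positivity) (by positivity), inv_mul_eq_div, le_div_iff₀ hn]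
    by_cases h : 3 * c / 5 * ‖ζ‖ ≤ ‖comb X ζ‖
    · rw [Set.indicator_of_mem (hiff.2 h), Set.indicator_of_mem (show (X, ζ) ∈ {p : (Fin k → Vec d) × Vec k |
          p.2 ≠ 0 ∧ 3 * c / 5 * ‖p.2‖ ≤ ‖comb p.1 p.2‖} from ⟨hz, h⟩), Pi.one_apply, Pi.one_apply]
    · rw [Set.indicator_of_notMem (fun h' => h (hiff.1 h')),
        Set.indicator_of_notMem (show (X, ζ) ∉ {p : (Fin k → Vec d) × Vec k |
          p.2 ≠ 0 ∧ 3 * c / 5 * ‖p.2‖ ≤ ‖comb p.1 p.2‖} from fun h' => h h'.2)]
  have hv : volume U = ENNReal.ofReal (5 ^ k) * v := by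
    have : Nonempty (Fin k) := ⟨⟨0, hk⟩⟩
    simp only [U, v]
    rw [show Metric.closedBall (0 : Vec k) (5/4) = Metric.closedBall (0 : Vec k) (5 * (1/4)) by norm_num,
      Measure.addHaar_closedBall_mul _ _ (by norm_num) (by norm_num), finrank_euclideanSpace_fin]
  rw [hv, mul_comm (ENNReal.ofReal _) v, mul_assoc, mul_comm (P S) v] at hmain
  rw [ENNReal.mul_le_mul_iff_right (Metric.measure_closedBall_pos volume _ (by norm_num)).ne'
    (measure_closedBall_lt_top (μ := volume)).ne] at hmain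
  refine hmain.trans (le_of_eq ?_)
  simp only [q]
  rw [← ENNReal.ofReal_mul (by positivity)]
  congr 1
  ring

/-- Tail of a moment. -/
lemma lintegral_tail_moment {α : Type*} [MeasurableSpace α] (μ : Measure α) {f : α → ℝ≥0∞}
    (hf : Measurable f) {J : ℝ≥0∞} (hJ0 : J ≠ 0) (hJt : J ≠ ⊤) (r : ℕ) :
    ∫⁻ x, {x | J < f x}.indicator f x ∂μ ≤ (J ^ r)⁻¹ * ∫⁻ x, f x ^ (r + 1) ∂μ := by
  rw [← lintegral_const_mul _ (hf.pow_const _)]
  refine lintegral_mono fun x => ?_
  by_cases hx : x ∈ {x | J < f x}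
  · rw [Set.indicator_of_mem hx, pow_succ, ← mul_assoc, ENNReal.inv_pow, ← mul_pow]
    refine le_mul_of_one_le_left zero_le (one_le_pow₀ ?_)
    rw [← ENNReal.inv_mul_cancel hJ0 hJt]
    exact mul_le_mul_right (le_of_lt hx) _
  · simp [Set.indicator_of_notMem hx]

end Vale.Agent.P309.Sharp
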