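import Vale.Agent.P309.Sharp.Near
import Vale.Agent.P309.Sharp.Kernel

/-! Pieces, node functions and the decay property used in one phase. -/

namespace Vale.Agent.P309.Sharp

open MeasureTheory ProbabilityTheory
open scoped RealInnerProductSpace Real ENNReal

variable {d k : ℕ}

/-- A Gaussian piece `u = μ + A g` whose covariance is maximal on three quarters of the directions. -/
structure Piece (d : ℕ) where
  /-- centre -/
  μ : Vec d
  /-- linear part -/
  A : Vec d ≃ₗ[ℝ] Vec d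
  /-- top singular value -/
  δ : ℝ
  /-- eigenbasis of `AᵀA` -/
  b : OrthonormalBasis (Fin d) ℝ (Vec d)
  /-- eigenvalues of `AᵀA` -/
  lam : Fin d → ℝ
  δpos : 0 < δ
  form : ∀ g h, ⟪A g, A h⟫ = ∑ i, lam i * ⟪b i, g⟫ * ⟪b i, h⟫
  lam_nonneg : ∀ i, 0 ≤ lam i
  lam_le : ∀ i, lam i ≤ δ ^ 2
  card_top : 3 * d ≤ 4 * (Finset.univ.filter fun i => lam i = δ ^ 2).card

lemma Piece.norm_le (P : Piece d) (g : Vec d) : ‖P.A g‖ ≤ P.δ * ‖g‖ := by
  rw [← sq_le_sq₀ (norm_nonneg _) (by have := P.δpos; positivity), ← real_inner_self_eq_norm_sq,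
    P.form, mul_pow, ← P.b.sum_sq_inner_right g, Finset.mul_sum]
  refine Finset.sum_le_sum fun i _ => ?_
  rw [mul_assoc, ← sq]
  exact mul_le_mul_of_nonneg_right (P.lam_le i) (sq_nonneg _)

lemma Piece.iso (P : Piece d) {i : Fin d} (hi : P.lam i = P.δ ^ 2) (g : Vec d) :
    ⟪P.A g, P.A (P.b i)⟫ = P.δ ^ 2 * ⟪g, P.b i⟫ := by
  classical
  rw [P.form, Finset.sum_eq_single i]
  · rw [hi, real_inner_self_eq_norm_sq, P.b.orthonormal.norm_eq_one, real_inner_comm g]
    ring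
  · intro j _ hj
    rw [P.b.orthonormal.inner_eq_zero hj, mul_zero]
  · simp

/-- An orthonormal family of top directions orthogonal to given vectors. -/
lemma Piece.exists_top (P : Piece d) {N i : ℕ} (hN : 4 * (N + i) ≤ 3 * d) (W : Fin i → Vec d) :
    ∃ e : Fin N → Vec d, Orthonormal ℝ e ∧ (∀ g r, ⟪P.A g, P.A (e r)⟫ = P.δ ^ 2 * ⟪g, e r⟫) ∧
      ∀ r j, ⟪W j, e r⟫ = 0 := by
  classical
  set T := Finset.univ.filter fun i => P.lam i = P.δ ^ 2
  set em := T.equivFin.symm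
  set e₀ : Fin T.card → Vec d := fun r => P.b (em r : Fin d)
  have he₀ : Orthonormal ℝ e₀ :=
    P.b.orthonormal.comp _ (Subtype.coe_injective.comp em.injective)
  have hA : ∀ g r, ⟪P.A g, P.A (e₀ r)⟫ = P.δ ^ 2 * ⟪g, e₀ r⟫ := fun g r =>
    P.iso (Finset.mem_filter.1 (em r).2).2 g
  have h3 : 3 * d ≤ 4 * T.card := P.card_top
  obtain ⟨e, he, hspan, hW⟩ := exists_subfamily he₀ (N' := N) (by omega) W
  exact ⟨e, he, fun g r => iso_extend hA (hspan r) g, hW⟩

/-- The decay property of a base measure with direction `v`. -/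
def Decay (σ₀ : Measure (Vec d)) (v : Vec d) (M : ℝ) (p : ℕ) : Prop :=
  gw σ₀ Set.univ ≤ ENNReal.ofReal M ∧
    ∀ ξ, ‖charFun (gw σ₀) ξ‖ ≤ M * (2 / (1 + ‖perp v ξ‖ ^ 2 / (1 + 8 * p))) ^ p

lemma decay_of_le {σ₀ : Measure (Vec d)} [IsFiniteMeasure (gw σ₀)] {v : Vec d} {M : ℝ} {p : ℕ}
    (hM : 0 ≤ M) (h1 : gw σ₀ Set.univ ≤ ENNReal.ofReal M)
    (h2 : ∀ ξ, ‖charFun (gw σ₀) ξ‖ ≤ M * ((1 + 8 * p) / (1 + ‖perp v ξ‖ ^ 2)) ^ p) :
    Decay σ₀ v M p := by
  refine ⟨h1, fun ξ => ?_⟩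
  set R := ‖perp v ξ‖ ^ 2
  have hR : 0 ≤ R := sq_nonneg _
  set K : ℝ := 1 + 8 * p
  have hK : 1 ≤ K := by simp only [K]; linarith [(Nat.cast_nonneg p : (0:ℝ) ≤ p)]
  by_cases hc : R ≤ K
  · refine le_trans ?_ (le_mul_of_one_le_right hM (one_le_pow₀ ?_))
    · refine (norm_charFun_le _).trans ?_
      rw [measureReal_def]
      exact (ENNReal.toReal_mono ENNReal.ofReal_ne_top h1).trans (le_of_eq (ENNReal.toReal_ofReal hM))
    · rw [le_div_iff₀ (by positivity)]
      have : R / K ≤ 1 := (div_le_one (by linarith)).2 hc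
      linarith
  · refine (h2 ξ).trans (mul_le_mul_of_nonneg_left (pow_le_pow_left₀ (by positivity) ?_ p) hM)
    rw [not_le] at hc
    rw [div_le_div_iff₀ (by positivity) (by positivity)]
    have : K * (1 + R / K) = K + R := by field_simp
    rw [this]
    linarith

lemma decay_volume {p : ℕ} (hp : 1 ≤ p) (v : Vec d) : Decay (volume : Measure (Vec d)) v 1 p := by
  have : IsFiniteMeasure (gw (volume : Measure (Vec d))) := by rw [gw_volume]; infer_instance
  refine decay_of_le zero_le_one ?_ fun ξ => ?_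
  · rw [gw_volume]; simp
  · rw [gw_volume, one_mul]
    exact norm_charFun_stdGaussian_le hp v ξ

/-- The rows' law. -/
noncomputable abbrev rowsLaw (d k : ℕ) : Measure (Fin k → Vec d) :=
  Measure.pi fun _ => stdGaussian (Vec d)

/-- Rows in the variable of a piece. -/
noncomputable def hrows (A : Vec d ≃ₗ[ℝ] Vec d) (δ : ℝ) (x : Fin k → Vec d) : Fin k → Vec d :=
  fun l => hat A δ (x l)

/-- Normalised labels. -/
noncomputable def labs (A : Vec d ≃ₗ[ℝ] Vec d) (δ : ℝ) (x : Fin k → Vec d) (g : Vec d) : Vec k :=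
  WithLp.toLp 2 fun l => ⟪hat A δ (x l), g⟫

lemma measurable_labs (A : Vec d ≃ₗ[ℝ] Vec d) (δ : ℝ) :
    Measurable fun q : (Fin k → Vec d) × Vec d => labs A δ q.1 q.2 := by
  refine (WithLp.measurable_toLp 2 (Fin k → ℝ)).comp (measurable_pi_lambda _ fun l => ?_)
  have h1 : Measurable fun q : (Fin k → Vec d) × Vec d => hat A δ (q.1 l) :=
    (hat A δ).continuous_of_finiteDimensional.measurable.comp
      ((measurable_pi_apply l).comp measurable_fst)
  exact continuous_inner.measurable.comp (h1.prodMk measurable_snd)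

/-- A phase kernel for one target state, cut to the label window. -/
noncomputable def cutK (Φ : (Fin k → Vec d) → Vec k → ℝ) (Ry : ℝ) (x : Fin k → Vec d) (y : Vec k) : ℝ :=
  {y : Vec k | ‖y‖ ≤ Ry}.indicator (Φ x) y

/-- The window weight of rows. -/
noncomputable def wt (Φ : (Fin k → Vec d) → Vec k → ℝ) (Ry : ℝ) (x : Fin k → Vec d) : ℝ :=
  ∫ y, cutK Φ Ry x y

/-- The weight of a set of rows. -/
noncomputable def mass (Φ : (Fin k → Vec d) → Vec k → ℝ) (Ry : ℝ) (S : Set (Fin k → Vec d)) : ℝ :=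
  ∫ x in S, wt Φ Ry x ∂rowsLaw d k

/-- The function of a node. -/
noncomputable def nodeFn (A : Vec d ≃ₗ[ℝ] Vec d) (δ : ℝ) (Φ : (Fin k → Vec d) → Vec k → ℝ) (Ry : ℝ)
    (S : Set (Fin k → Vec d)) (g : Vec d) : ℝ :=
  ∫ x in S, cutK Φ Ry x (labs A δ x g) ∂rowsLaw d k

/-- Smoothing of a function by the kernel in preconditioned coordinates. -/
noncomputable def smooth {i : ℕ} (W : Fin i → Vec d) (R : ℝ) (F : Vec d → ℝ) (g : Vec d) : ℝ :=
  ∫ x, kerB (precond W) 1 R (g - x) * F x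

/-- The rows pass near a vector. -/
def nearSet (A : Vec d ≃ₗ[ℝ] Vec d) (δ : ℝ) (w : Vec d) : Set (Fin k → Vec d) :=
  {x | spanDist w (hrows A δ x) ≤ ENNReal.ofReal 4}

lemma measurableSet_nearSet (A : Vec d ≃ₗ[ℝ] Vec d) (δ : ℝ) (w : Vec d) :
    MeasurableSet (nearSet (k := k) A δ w) := by
  have h1 : Measurable (hrows (k := k) A δ) := measurable_pi_lambda _ fun l =>
    (hat A δ).continuous_of_finiteDimensional.measurable.comp (measurable_pi_apply l)
  have h0 : Measurable fun x : Fin k → Vec d => (w, hrows A δ x) := measurable_const.prodMk h1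
  have h2 : Measurable ((fun p : Vec d × (Fin k → Vec d) => spanDist p.1 p.2) ∘
      fun x : Fin k → Vec d => (w, hrows A δ x)) := Measurable.comp measurable_spanDist h0
  exact h2 measurableSet_Iic

/-- No further pick is heavy. -/
def Terminal (A : Vec d ≃ₗ[ℝ] Vec d) (δ : ℝ) (Φ : (Fin k → Vec d) → Vec k → ℝ) (Ry Λ α : ℝ)
    {i : ℕ} (W : Fin i → Vec d) (S : Set (Fin k → Vec d)) : Prop :=
  ∀ w, ‖precond W w‖ = Λ → mass Φ Ry (S ∩ nearSet A δ w) ≤ α * mass Φ Ry S

end Vale.Agent.P309.Sharp
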