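import Vale.Agent.P309.Sharp.Tools
import Mathlib.MeasureTheory.Integral.PeakFunction
import Mathlib.Analysis.SpecialFunctions.ImproperIntegrals

/-! Gaussian laws restricted to spheres, and the decay of their characteristic functions. -/

namespace Vale.Agent.P309.Sharp

open MeasureTheory ProbabilityTheory Filter Topology Complex
open scoped RealInnerProductSpace Real ENNReal

variable {d : ℕ}

/-- Density of `μ + A g` for a standard normal `g`. -/
noncomputable def dens (μ : Vec d) (A : Vec d ≃ₗ[ℝ] Vec d) (x : Vec d) : ℝ :=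
  |LinearMap.det (A : Vec d →ₗ[ℝ] Vec d)|⁻¹ * gaussKer (A.symm (x - μ))

lemma dens_nonneg (μ : Vec d) (A : Vec d ≃ₗ[ℝ] Vec d) (x : Vec d) : 0 ≤ dens μ A x :=
  mul_nonneg (by positivity) (gaussKer_nonneg _)

lemma continuous_dens (μ : Vec d) (A : Vec d ≃ₗ[ℝ] Vec d) : Continuous (dens μ A) := by
  unfold dens
  exact continuous_const.mul
    (continuous_gaussKer.comp (A.toContinuousLinearEquiv.symm.continuous.comp (by fun_prop)))

lemma measurable_equiv (A : Vec d ≃ₗ[ℝ] Vec d) : Measurable A :=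
  A.toContinuousLinearEquiv.continuous.measurable

lemma map_affine_stdGaussian (μ : Vec d) (A : Vec d ≃ₗ[ℝ] Vec d) :
    (stdGaussian (Vec d)).map (fun g => μ + A g)
      = volume.withDensity fun x => ENNReal.ofReal (dens μ A x) := by
  refine Measure.ext_of_lintegral _ fun F hF => ?_
  have hA : Measurable A := measurable_equiv A
  have hA' : Measurable A.symm := measurable_equiv A.symm
  have hmeas : Measurable fun g => μ + A g := measurable_const.add hA
  rw [lintegral_map hF hmeas,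
    lintegral_stdGaussian (F := fun g => F (μ + A g)) (hF.comp hmeas),
    lintegral_withDensity_eq_lintegral_mul _ (continuous_dens μ A).measurable.ennreal_ofReal hF]
  simp only [Pi.mul_apply]
  set D := LinearMap.det (A : Vec d →ₗ[ℝ] Vec d)
  have hD : D ≠ 0 := (LinearEquiv.isUnit_det' A).ne_zero
  have hm : Measurable fun x : Vec d => ENNReal.ofReal (gaussKer (A.symm x)) * F (μ + x) :=
    (measurable_gaussKer.comp hA').ennreal_ofReal.mul (hF.comp (measurable_const.add measurable_id))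
  have h1 : ∀ g, ENNReal.ofReal (gaussKer g) * F (μ + A g)
      = (fun x => ENNReal.ofReal (gaussKer (A.symm x)) * F (μ + x)) (A g) := fun g => by simp
  simp only [h1]
  rw [← lintegral_map hm hA]
  have hmap : (volume : Measure (Vec d)).map A = ENNReal.ofReal |D⁻¹| • volume :=
    Measure.map_linearMap_addHaar_eq_smul_addHaar volume (f := (A : Vec d →ₗ[ℝ] Vec d)) hD
  rw [hmap, lintegral_smul_measure, smul_eq_mul]
  conv_rhs => rw [← lintegral_add_left_eq_self _ μ]
  rw [← lintegral_const_mul _ hm]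
  refine lintegral_congr fun x => ?_
  rw [dens, add_sub_cancel_left, ← mul_assoc, ← ENNReal.ofReal_mul (abs_nonneg _), abs_inv]

/-- The law of `μ + A g` restricted to the sphere of squared radius `t`, unnormalised. -/
noncomputable def slice (μ : Vec d) (A : Vec d ≃ₗ[ℝ] Vec d) (t : ℝ) : Measure (Vec d) :=
  Measure.map (fun ω : Metric.sphere (0 : Vec d) 1 => √t • (ω : Vec d))
    ((surf d).withDensity fun ω =>
      ENNReal.ofReal (√t ^ (d - 2) / 2 * dens μ A (√t • (ω : Vec d))))

lemma lintegral_slice (μ : Vec d) (A : Vec d ≃ₗ[ℝ] Vec d) (t : ℝ) {F : Vec d → ℝ≥0∞}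
    (hF : Measurable F) :
    ∫⁻ x, F x ∂slice μ A t = ∫⁻ ω, ENNReal.ofReal (√t ^ (d - 2) / 2 * dens μ A (√t • (ω : Vec d)))
      * F (√t • (ω : Vec d)) ∂surf d := by
  have := continuous_dens μ A
  rw [slice, lintegral_map hF (by fun_prop),
    lintegral_withDensity_eq_lintegral_mul _ (Measurable.ennreal_ofReal (by fun_prop))
      (show Measurable fun ω : Metric.sphere (0 : Vec d) 1 => F (√t • (ω : Vec d)) from
        hF.comp (by fun_prop))]
  rfl

instance (μ : Vec d) (A : Vec d ≃ₗ[ℝ] Vec d) (t : ℝ) : IsFiniteMeasure (slice μ A t) := by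
  have hc : Continuous fun ω : Metric.sphere (0 : Vec d) 1 =>
      √t ^ (d - 2) / 2 * dens μ A (√t • (ω : Vec d)) := by
    have := continuous_dens μ A
    fun_prop
  have : IsFiniteMeasure ((surf d).withDensity fun ω =>
      ENNReal.ofReal (√t ^ (d - 2) / 2 * dens μ A (√t • (ω : Vec d)))) := by
    refine isFiniteMeasure_withDensity_ofReal ?_
    exact (hc.integrable_of_hasCompactSupport (HasCompactSupport.of_compactSpace _)).hasFiniteIntegral
  unfold slice
  infer_instance

/-- One coordinate block of the Gaussian quadratic exponential. -/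
lemma norm_quad_charFun {N : ℕ} (a : ℝ) (w : Vec N) :
    ‖∫ h, cexp (((a * ‖h‖ ^ 2 + ⟪w, h⟫ : ℝ) : ℂ) * I) ∂stdGaussian (Vec N)‖
      ≤ (1 + (2 * a) ^ 2) ^ (-(N:ℝ) / 4) * Real.exp (-‖w‖ ^ 2 / (2 * (1 + (2 * a) ^ 2))) := by
  rw [stdGaussian_eq_withDensity, integral_withDensity_eq_integral_toReal_smul
    (measurable_gaussKer.ennreal_ofReal) (ae_of_all _ fun _ => ENNReal.ofReal_lt_top)]
  simp only [ENNReal.toReal_ofReal (gaussKer_nonneg _), Complex.real_smul]
  set b : ℂ := 1/2 - (a:ℂ) * I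
  have hb : 0 < b.re := by simp [b]
  have h1 : ∀ h : Vec N, (gaussKer h : ℂ) * cexp (((a * ‖h‖ ^ 2 + ⟪w, h⟫ : ℝ) : ℂ) * I)
      = ((gaussConst (Vec N))⁻¹ : ℝ) * cexp (-b * (‖h‖:ℂ) ^ 2 + I * (⟪w, h⟫ : ℝ)) := by
    intro h
    rw [gaussKer, Complex.ofReal_mul, mul_assoc, Complex.ofReal_exp, ← Complex.exp_add]
    congr 2
    simp only [b]
    push_cast
    ring
  simp only [h1]
  rw [integral_const_mul, GaussianFourier.integral_cexp_neg_mul_sq_norm_add hb I w,
    finrank_euclideanSpace_fin, norm_mul, norm_mul, Complex.norm_real, Complex.norm_exp,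
    Real.norm_eq_abs, abs_of_pos (inv_pos.2 gaussConst_pos)]
  set u := 2 * a
  have hb0 : b ≠ 0 := fun h => by simp [h] at hb
  have hnb : ‖b‖ = √(1 + u ^ 2) / 2 := by
    rw [Complex.norm_def, eq_div_iff (by norm_num : (2:ℝ) ≠ 0)]
    have : normSq b = (1 + u ^ 2) / 4 := by
      simp [b, u, normSq_apply]; ring
    rw [this, Real.sqrt_div' _ (by norm_num), show (4:ℝ) = 2 ^ 2 by norm_num,
      Real.sqrt_sq (by norm_num)]
    ring
  have hre : (I ^ 2 * (‖w‖:ℂ) ^ 2 / (4 * b)).re = -‖w‖ ^ 2 / (2 * (1 + u ^ 2)) := by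
    rw [I_sq, ← Complex.ofReal_pow, Complex.div_re]
    simp [b, u, normSq_apply, pow_two]
    field_simp
    ring
  rw [hre, ← mul_assoc]
  refine mul_le_mul_of_nonneg_right (le_of_eq ?_) (Real.exp_pos _).le
  rw [Complex.norm_cpow_of_ne_zero (div_ne_zero (by exact_mod_cast Real.pi_ne_zero) hb0)]
  simp only [norm_div, Complex.norm_real, Real.norm_eq_abs,
    abs_of_pos Real.pi_pos, hnb, gaussConst, finrank_euclideanSpace_fin]
  have e : ((N:ℂ) / 2).re = (N:ℝ) / 2 := by simp
  have e' : ((N:ℂ) / 2).im = 0 := by simp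
  simp only [e, e', mul_zero, Real.exp_zero, div_one]
  rw [← Real.inv_rpow (by positivity), ← Real.mul_rpow (by positivity) (by positivity),
    Real.sqrt_eq_rpow, show -(N:ℝ) / 4 = -((1/2) * ((N:ℝ)/2)) by ring, Real.rpow_neg (by positivity),
    Real.rpow_mul (by positivity), ← Real.inv_rpow (by positivity)]
  congr 1
  field_simp

variable {N p : ℕ} {e : Fin N → Vec d} {A : Vec d ≃ₗ[ℝ] Vec d} {s Γ : ℝ}

/-- Bound on the characteristic function of `(|u|^2, u)` for `u = c + A g`. -/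
lemma norm_joint_charFun (he : Orthonormal ℝ e)
    (hA : ∀ g r, ⟪A g, A (e r)⟫ = s ^ 2 * ⟪g, e r⟫) (c Ψ : Vec d) (τ : ℝ) :
    ‖∫ g, cexp (((τ * ‖c + A g‖ ^ 2 + ⟪Ψ, c + A g⟫ : ℝ) : ℂ) * I) ∂stdGaussian (Vec d)‖
      ≤ (1 + (2 * (τ * s ^ 2)) ^ 2) ^ (-(N:ℝ) / 4)
        * Real.exp (-‖(2 * τ) • (WithLp.toLp 2 fun r => ⟪c, A (e r)⟫ : Vec N)
            + (WithLp.toLp 2 fun r => ⟪Ψ, A (e r)⟫ : Vec N)‖ ^ 2
              / (2 * (1 + (2 * (τ * s ^ 2)) ^ 2))) := by
  set w : Vec N := (2 * τ) • (WithLp.toLp 2 fun r => ⟪c, A (e r)⟫ : Vec N)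
    + (WithLp.toLp 2 fun r => ⟪Ψ, A (e r)⟫ : Vec N)
  set B := (1 + (2 * (τ * s ^ 2)) ^ 2) ^ (-(N:ℝ) / 4)
    * Real.exp (-‖w‖ ^ 2 / (2 * (1 + (2 * (τ * s ^ 2)) ^ 2)))
  have hAm : Measurable A := measurable_equiv A
  have hFm : Measurable fun g => cexp (((τ * ‖c + A g‖ ^ 2 + ⟪Ψ, c + A g⟫ : ℝ) : ℂ) * I) := by
    fun_prop
  have hm : Measurable fun q : Vec N × Vec d => lift e q.1 + rest e q.2 :=
    ((measurable_lift e).comp measurable_fst).add
      ((rest e).continuous_of_finiteDimensional.measurable.comp measurable_snd)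
  conv_lhs => rw [← stdGaussian_split he]
  rw [integral_map hm.aemeasurable hFm.aestronglyMeasurable]
  have hsplit : ∀ q : Vec N × Vec d,
      cexp (((τ * ‖c + A (lift e q.1 + rest e q.2)‖ ^ 2
        + ⟪Ψ, c + A (lift e q.1 + rest e q.2)⟫ : ℝ) : ℂ) * I)
      = cexp (((τ * ‖c + A (rest e q.2)‖ ^ 2 + ⟪Ψ, c + A (rest e q.2)⟫ : ℝ) : ℂ) * I)
        * cexp (((τ * s ^ 2 * ‖q.1‖ ^ 2 + ⟪w, q.1⟫ : ℝ) : ℂ) * I) := by
    rintro ⟨h, g⟩
    have hl : A (lift e h) = ∑ r, h r • A (e r) := by simp [lift, map_sum]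
    have hw : ∀ z : Vec d, ⟪z, A (lift e h)⟫ = ⟪(WithLp.toLp 2 fun r => ⟪z, A (e r)⟫ : Vec N), h⟫ := by
      intro z
      rw [hl, inner_sum, PiLp.inner_apply]
      refine Finset.sum_congr rfl fun r _ => ?_
      simp [inner_smul_right]
    have hg : ∀ g', ⟪A g', A (lift e h)⟫ = s ^ 2 * ⟪g', lift e h⟫ := by
      intro g'
      simp [hl, lift, inner_sum, inner_smul_right, hA, Finset.mul_sum, mul_left_comm]
    have h0 : ⟪A (rest e g), A (lift e h)⟫ = 0 := by
      rw [hg, inner_lift, coord_rest he, inner_zero_left, mul_zero]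
    have h2 : ‖A (lift e h)‖ ^ 2 = s ^ 2 * ‖h‖ ^ 2 := by
      rw [← real_inner_self_eq_norm_sq, hg, real_inner_self_eq_norm_sq, norm_lift he]
    rw [← Complex.exp_add, ← add_mul, ← Complex.ofReal_add]
    congr 3
    simp only
    rw [map_add, show c + (A (lift e h) + A (rest e g)) = (c + A (rest e g)) + A (lift e h) by abel,
      norm_add_sq_real, inner_add_right, inner_add_left c, h2, h0, hw c, hw Ψ]
    simp only [w, inner_add_left, real_inner_smul_left]
    ring
  simp only [hsplit]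
  rw [integral_prod_symm _ ?_]
  swap
  · have hm1 : Measurable fun g => cexp (((τ * ‖c + A (rest e g)‖ ^ 2
        + ⟪Ψ, c + A (rest e g)⟫ : ℝ) : ℂ) * I) :=
      hFm.comp (rest e).continuous_of_finiteDimensional.measurable
    have hm2 : Measurable fun h : Vec N => cexp (((τ * s ^ 2 * ‖h‖ ^ 2 + ⟪w, h⟫ : ℝ) : ℂ) * I) := by
      fun_prop
    exact Integrable.of_bound ((hm1.comp measurable_snd).mul (hm2.comp measurable_fst)).aestronglyMeasurable
      1 (ae_of_all _ fun q => by
        rw [norm_mul, Complex.norm_exp_ofReal_mul_I, Complex.norm_exp_ofReal_mul_I, one_mul])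
  simp only [integral_const_mul]
  refine le_trans (norm_integral_le_of_norm_le (g := fun _ => B) (integrable_const _)
    (ae_of_all _ fun g => ?_)) (by simp)
  rw [norm_mul, Complex.norm_exp_ofReal_mul_I, one_mul]
  exact norm_quad_charFun (τ * s ^ 2) w

/-- Pointwise polynomial decay of the bound. -/
lemma kernel_le (hp : 1 ≤ p) (hN : 8 * p ≤ N) (hΓ : 0 ≤ Γ) {u R W : ℝ} (hR : 0 ≤ R)
    (hW : R - |u| * Γ ≤ W) (hW0 : 0 ≤ W) :
    (1 + u ^ 2) ^ (-(N:ℝ) / 4) * Real.exp (-W ^ 2 / (2 * (1 + u ^ 2)))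
      ≤ ((1 + 4 * Γ ^ 2 + 8 * p) / (1 + R ^ 2)) ^ p * (1 + u ^ 2)⁻¹ := by
  set q := 1 + u ^ 2
  have hq1 : 1 ≤ q := by simp only [q]; nlinarith
  have hq : 0 < q := by linarith
  have hX : q ^ (-(N:ℝ) / 4) ≤ (q ^ p)⁻¹ * q⁻¹ := by
    rw [← mul_inv, ← pow_succ, ← Real.rpow_natCast, ← Real.rpow_neg hq.le]
    refine Real.rpow_le_rpow_of_exponent_le hq1 ?_
    have h8 : (8:ℝ) * p ≤ N := by exact_mod_cast hN
    have h1 : (1:ℝ) ≤ p := by exact_mod_cast hp
    push_cast
    linarith
  have key : Real.exp (-W ^ 2 / (2 * q)) * (q ^ p)⁻¹ ≤ ((1 + 4 * Γ ^ 2 + 8 * p) / (1 + R ^ 2)) ^ p := by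
    by_cases hc : R ≤ 2 * (|u| * Γ)
    · have h1 : 1 + R ^ 2 ≤ (1 + 4 * Γ ^ 2 + 8 * p) * q := by
        have := pow_le_pow_left₀ hR hc 2
        rw [mul_pow, mul_pow, sq_abs] at this
        simp only [q]
        nlinarith [sq_nonneg Γ, sq_nonneg u, (Nat.cast_nonneg p : (0:ℝ) ≤ p)]
      refine le_trans (mul_le_of_le_one_left (by positivity) (Real.exp_le_one_iff.2 ?_)) ?_
      · exact div_nonpos_of_nonpos_of_nonneg (by nlinarith) (by positivity)
      · rw [← inv_pow]
        refine pow_le_pow_left₀ (by positivity) ?_ p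
        rw [le_div_iff₀ (by positivity), ← div_eq_inv_mul, div_le_iff₀ hq]
        linarith
    · rw [not_le] at hc
      have hW' : R / 2 ≤ W := by linarith
      have hp' : (0:ℝ) < p := by exact_mod_cast hp
      set x := W ^ 2 / (2 * q)
      have hx : R ^ 2 / (8 * q) ≤ x := by
        have := pow_le_pow_left₀ (by linarith) hW' 2
        simp only [x]
        rw [div_le_div_iff₀ (by positivity) (by positivity)]
        nlinarith
      have h1 : Real.exp (-x) ≤ ((1 + x / p)⁻¹) ^ p := by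
        rw [Real.exp_neg, inv_pow]
        refine inv_anti₀ (by positivity) ?_
        calc (1 + x / p) ^ p ≤ Real.exp (x / p) ^ p :=
              pow_le_pow_left₀ (by positivity) (by linarith [Real.add_one_le_exp (x / p)]) p
          _ = Real.exp x := by rw [← Real.exp_nat_mul]; congr 1; field_simp
      rw [neg_div]
      refine le_trans (mul_le_mul_of_nonneg_right h1 (by positivity)) ?_
      rw [← inv_pow, ← mul_pow, ← mul_inv]
      refine pow_le_pow_left₀ (by positivity) ?_ p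
      rw [le_div_iff₀ (by positivity), ← div_eq_inv_mul, div_le_iff₀ (by positivity)]
      have hx' : R ^ 2 ≤ 8 * q * x := by
        rw [div_le_iff₀ (by positivity)] at hx
        linarith
      have hxp : 8 * p * q * (x / p) = 8 * q * x := by field_simp
      nlinarith [sq_nonneg Γ, mul_nonneg hq.le (show 0 ≤ x / p by positivity)]
  calc q ^ (-(N:ℝ) / 4) * Real.exp (-W ^ 2 / (2 * q))
      ≤ (q ^ p)⁻¹ * q⁻¹ * Real.exp (-W ^ 2 / (2 * q)) :=
        mul_le_mul_of_nonneg_right hX (Real.exp_pos _).le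
    _ = Real.exp (-W ^ 2 / (2 * q)) * (q ^ p)⁻¹ * q⁻¹ := by ring
    _ ≤ _ := mul_le_mul_of_nonneg_right key (by positivity)

/-- From the joint characteristic function to that of a slice. -/
theorem norm_charFun_slice_le_of (hd : 2 ≤ d) (hs : 0 < s) {c : Vec d} {t : ℝ} (ht : 0 < t)
    (Ψ : Vec d) {Q : ℝ}
    (hQ : ∀ τ : ℝ, ‖∫ g, cexp (((τ * ‖c + A g‖ ^ 2 + ⟪Ψ, c + A g⟫ : ℝ) : ℂ) * I)
      ∂stdGaussian (Vec d)‖ ≤ Q * (1 + ((2 * s ^ 2) * τ) ^ 2)⁻¹) :
    ‖charFun (slice c A t) Ψ‖ ≤ (4 * s ^ 2)⁻¹ * Q := by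
  set S : ℝ → ℂ := fun r => ∫ ω, ((√r ^ (d - 2) / 2 * dens c A (√r • (ω : Vec d)) : ℝ) : ℂ)
      * cexp ((⟪√r • (ω : Vec d), Ψ⟫ : ℝ) * I) ∂surf d
  have hdc := continuous_dens c A
  have hSc : Continuous S := by
    have := continuous_parametric_integral_of_continuous (μ := surf d)
      (f := fun (r : ℝ) (ω : Metric.sphere (0 : Vec d) 1) =>
        ((√r ^ (d - 2) / 2 * dens c A (√r • (ω : Vec d)) : ℝ) : ℂ)
          * cexp ((⟪√r • (ω : Vec d), Ψ⟫ : ℝ) * I)) (by simp only [Function.uncurry_def]; fun_prop)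
      isCompact_univ
    simpa only [setIntegral_univ] using this
  have hSt : charFun (slice c A t) Ψ = S t := by
    rw [charFun_apply, slice, integral_map (by fun_prop) (by fun_prop),
      integral_withDensity_eq_integral_toReal_smul (Measurable.ennreal_ofReal (by fun_prop))
        (ae_of_all _ fun _ => ENNReal.ofReal_lt_top)]
    refine integral_congr_ae (ae_of_all _ fun ω => ?_)
    simp only
    rw [ENNReal.toReal_ofReal (mul_nonneg (by positivity) (dens_nonneg _ _ _)), Complex.real_smul]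
  rw [hSt]
  -- mollified version
  set ker : ℝ → ℝ → ℝ := fun h r => h⁻¹ * gaussKer (h⁻¹ • (r - t))
  set G : ℝ → Vec d → ℂ := fun h x =>
    (ker h (‖x‖ ^ 2) : ℂ) * cexp ((⟪x, Ψ⟫ : ℝ) * I)
  have hGb : ∀ h : ℝ, 0 < h → ∀ x, ‖G h x‖ ≤ h⁻¹ * (gaussConst ℝ)⁻¹ := by
    intro h hh x
    simp only [G, ker, norm_mul, Complex.norm_exp_ofReal_mul_I, mul_one, Complex.norm_real,
      Real.norm_eq_abs, abs_inv, abs_of_pos hh, abs_of_nonneg (gaussKer_nonneg _)]
    refine mul_le_mul_of_nonneg_left (mul_le_of_le_one_right (inv_nonneg.2 gaussConst_pos.le)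
      (Real.exp_le_one_iff.2 ?_)) (by positivity)
    have := sq_nonneg ‖h⁻¹ • (‖x‖ ^ 2 - t)‖
    linarith
  have hmain : ∀ h : ℝ, 0 < h →
      ‖∫ g, G h (c + A g) ∂stdGaussian (Vec d)‖ ≤ (4 * s ^ 2)⁻¹ * Q := by
    intro h hh
    have hk : ∀ x : Vec d, ((2 * π : ℝ) : ℂ) * G h x = ∫ τ : ℝ,
        cexp (-((h ^ 2 / 2 : ℝ) : ℂ) * (τ:ℂ) ^ 2 - I * (t:ℂ) * (τ:ℂ))
          * cexp (((τ * ‖x‖ ^ 2 + ⟪Ψ, x⟫ : ℝ) : ℂ) * I) := by
      intro x
      have := gaussKer_fourier (V := ℝ) hh (‖x‖ ^ 2 - t)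
      simp only [Module.finrank_self, pow_one] at this
      simp only [G, ker]
      rw [← mul_assoc, ← Complex.ofReal_mul, ← mul_assoc (2 * π), ← this, ← integral_mul_const]
      refine integral_congr_ae (ae_of_all _ fun τ => ?_)
      simp only [RCLike.inner_apply, conj_trivial]
      rw [← Complex.exp_add, ← Complex.exp_add, ← Complex.ofReal_pow, Real.norm_eq_abs, sq_abs,
        real_inner_comm Ψ x]
      congr 1
      push_cast
      ring
    have hint : Integrable (Function.uncurry fun (g : Vec d) (τ : ℝ) =>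
        cexp (-((h ^ 2 / 2 : ℝ) : ℂ) * (τ:ℂ) ^ 2 - I * (t:ℂ) * (τ:ℂ))
          * cexp (((τ * ‖c + A g‖ ^ 2 + ⟪Ψ, c + A g⟫ : ℝ) : ℂ) * I))
        ((stdGaussian (Vec d)).prod volume) := by
      have hAm : Continuous A := A.toContinuousLinearEquiv.continuous
      refine ((integrable_exp_neg_mul_sq (show 0 < h ^ 2 / 2 by positivity)).comp_snd
        (stdGaussian (Vec d))).mono' (by fun_prop) (ae_of_all _ fun q => ?_)
      simp only [Function.uncurry, norm_mul, Complex.norm_exp]
      simp [← Complex.ofReal_pow]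
    have h2 : ((2 * π : ℝ) : ℂ) * ∫ g, G h (c + A g) ∂stdGaussian (Vec d) = ∫ τ : ℝ,
        cexp (-((h ^ 2 / 2 : ℝ) : ℂ) * (τ:ℂ) ^ 2 - I * (t:ℂ) * (τ:ℂ))
          * ∫ g, cexp (((τ * ‖c + A g‖ ^ 2 + ⟪Ψ, c + A g⟫ : ℝ) : ℂ) * I) ∂stdGaussian (Vec d) := by
      rw [← integral_const_mul]
      simp only [hk]
      rw [integral_integral_swap hint]
      simp only [integral_const_mul]
    have h3 := congrArg norm h2
    rw [norm_mul, Complex.norm_real, Real.norm_eq_abs, abs_of_pos (by positivity : (0:ℝ) < 2 * π)] at h3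
    have hI : Integrable fun τ : ℝ => Q * (1 + ((2 * s ^ 2) * τ) ^ 2)⁻¹ :=
      ((integrable_inv_one_add_sq).comp_mul_left' (by positivity)).const_mul _
    have h4 : ‖∫ τ : ℝ, cexp (-((h ^ 2 / 2 : ℝ) : ℂ) * (τ:ℂ) ^ 2 - I * (t:ℂ) * (τ:ℂ))
          * ∫ g, cexp (((τ * ‖c + A g‖ ^ 2 + ⟪Ψ, c + A g⟫ : ℝ) : ℂ) * I) ∂stdGaussian (Vec d)‖
        ≤ ∫ τ : ℝ, Q * (1 + ((2 * s ^ 2) * τ) ^ 2)⁻¹ := by
      refine norm_integral_le_of_norm_le hI (ae_of_all _ fun τ => ?_)
      rw [norm_mul, Complex.norm_exp]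
      refine le_trans (mul_le_of_le_one_left (norm_nonneg _) (Real.exp_le_one_iff.2 ?_)) ?_
      · simp [← Complex.ofReal_pow]
        positivity
      exact hQ τ
    have h9 : ∫ τ : ℝ, Q * (1 + ((2 * s ^ 2) * τ) ^ 2)⁻¹ = Q * ((2 * s ^ 2)⁻¹ * π) := by
      rw [integral_const_mul, Measure.integral_comp_mul_left (fun x : ℝ => (1 + x ^ 2)⁻¹),
        integral_univ_inv_one_add_sq, smul_eq_mul, abs_of_pos (by positivity)]
    refine le_of_mul_le_mul_left (a := 2 * π) ?_ (by positivity)
    rw [h3]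
    refine h4.trans (le_of_eq ?_)
    rw [h9]
    field_simp
    ring
  -- polar coordinates
  have hpolar : ∀ h : ℝ, 0 < h →
      Integrable (fun x => (dens c A x : ℂ) * G h x) ∧
      ∫ g, G h (c + A g) ∂stdGaussian (Vec d)
        = ∫ r in Set.Ioi (0:ℝ), ker h r • S r := by
    intro h hh
    have hGc : Continuous (G h) := by
      simp only [G, ker]
      have : Continuous (gaussKer (V := ℝ)) := by unfold gaussKer; fun_prop
      fun_prop
    have hAm : Measurable A := measurable_equiv A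
    have hgi : Integrable (fun g => G h (c + A g)) (stdGaussian (Vec d)) :=
      Integrable.of_bound ((hGc.comp (continuous_const.add
        A.toContinuousLinearEquiv.continuous)).aestronglyMeasurable) _ (ae_of_all _ fun g => hGb h hh _)
    have hm := map_affine_stdGaussian c A
    have hgi' : Integrable (G h) ((stdGaussian (Vec d)).map fun g => c + A g) :=
      (integrable_map_measure hGc.aestronglyMeasurable (measurable_const.add hAm).aemeasurable).2 hgi
    have e1 : ∫ g, G h (c + A g) ∂stdGaussian (Vec d) = ∫ x, (dens c A x : ℂ) * G h x := by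
      rw [← integral_map (f := G h) (φ := fun g => c + A g) (measurable_const.add hAm).aemeasurable
        hGc.aestronglyMeasurable, hm, integral_withDensity_eq_integral_toReal_smul
        hdc.measurable.ennreal_ofReal (ae_of_all _ fun _ => ENNReal.ofReal_lt_top)]
      refine integral_congr_ae (ae_of_all _ fun x => ?_)
      simp only [ENNReal.toReal_ofReal (dens_nonneg _ _ _), Complex.real_smul]
    have e2 : Integrable fun x => (dens c A x : ℂ) * G h x := by
      rw [hm, integrable_withDensity_iff_integrable_smul' hdc.measurable.ennreal_ofReal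
        (ae_of_all _ fun _ => ENNReal.ofReal_lt_top)] at hgi'
      refine hgi'.congr (ae_of_all _ fun x => ?_)
      simp only [ENNReal.toReal_ofReal (dens_nonneg _ _ _), Complex.real_smul]
    refine ⟨e2, e1.trans ?_⟩
    have e3 := e2
    rw [← map_polar hd] at e3 ⊢
    have hpm : Measurable fun q : ℝ × Metric.sphere (0 : Vec d) 1 => √q.1 • (q.2 : Vec d) := by
      fun_prop
    have hfc : Continuous fun x => (dens c A x : ℂ) * G h x := by fun_prop
    rw [integral_map hpm.aemeasurable hfc.aestronglyMeasurable,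
      integral_prod (fun q : ℝ × Metric.sphere (0 : Vec d) 1 =>
          (dens c A (√q.1 • (q.2 : Vec d)) : ℂ) * G h (√q.1 • (q.2 : Vec d)))
        ((integrable_map_measure hfc.aestronglyMeasurable hpm.aemeasurable).1 e3),
      radial, integral_withDensity_eq_integral_toReal_smul (Measurable.ennreal_ofReal (by fun_prop))
        (ae_of_all _ fun _ => ENNReal.ofReal_lt_top)]
    refine setIntegral_congr_fun measurableSet_Ioi fun r hr => ?_
    rw [Set.mem_Ioi] at hr
    simp only [G, S]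
    rw [ENNReal.toReal_ofReal (by positivity), ← integral_smul, ← integral_smul]
    refine integral_congr_ae (ae_of_all _ fun ω => ?_)
    simp only [Complex.real_smul, norm_smul, Real.norm_eq_abs, sq_abs, Real.sq_sqrt hr.le,
      norm_eq_of_mem_sphere, mul_one]
    push_cast
    ring
  -- integrability of the radial profile
  have hSi : IntegrableOn S (Set.Ioi 0) := by
    have hf : Integrable (fun x => (dens c A x : ℂ) * cexp ((⟪x, Ψ⟫ : ℝ) * I)) := by
      have h1 : Integrable (dens c A) := by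
        refine ⟨hdc.aestronglyMeasurable, ?_⟩
        rw [hasFiniteIntegral_iff_ofReal (ae_of_all _ (dens_nonneg c A))]
        calc ∫⁻ x, ENNReal.ofReal (dens c A x)
            = (volume.withDensity fun x => ENNReal.ofReal (dens c A x)) Set.univ := by simp
          _ < ⊤ := by
              rw [← map_affine_stdGaussian]
              exact measure_lt_top _ _
      refine h1.ofReal.mul_bdd (c := 1) (by fun_prop) (ae_of_all _ fun x => ?_)
      simp [Complex.norm_exp_ofReal_mul_I]
    have hpm : Measurable fun q : ℝ × Metric.sphere (0 : Vec d) 1 => √q.1 • (q.2 : Vec d) := by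
      fun_prop
    rw [← map_polar hd, integrable_map_measure (by fun_prop) hpm.aemeasurable] at hf
    have h2 := hf.integral_prod_left
    rw [radial, integrable_withDensity_iff_integrable_smul' (Measurable.ennreal_ofReal (by fun_prop))
      (ae_of_all _ fun _ => ENNReal.ofReal_lt_top)] at h2
    refine h2.congr ?_
    filter_upwards [self_mem_ae_restrict measurableSet_Ioi] with r (hr : 0 < r)
    simp only [S, Function.comp_apply]
    rw [ENNReal.toReal_ofReal (by positivity), ← integral_smul]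
    refine integral_congr_ae (ae_of_all _ fun ω => ?_)
    simp only [Complex.real_smul]
    push_cast
    ring
  -- the limit
  set T : Set ℝ := Set.Ioo (t / 2) (2 * t)
  have hlim : Tendsto (fun h => ∫ r in Set.Ioi (0:ℝ), ker h r • S r) (𝓝[>] 0) (𝓝 (S t)) := by
    have hmem : T ∈ 𝓝 t := Ioo_mem_nhds (by linarith) (by linarith)
    refine tendsto_setIntegral_peak_smul_of_integrableOn_of_tendsto measurableSet_Ioi
      (t := T) measurableSet_Ioo (fun r hr => Set.mem_Ioi.2 (lt_trans (by linarith) hr.1))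
      (mem_nhdsWithin_of_mem_nhds hmem) (by simp [T])
      (eventually_nhdsWithin_of_forall fun h (hh : 0 < h) r _ =>
        mul_nonneg (inv_nonneg.2 hh.le) (gaussKer_nonneg _)) ?_ ?_
      (Eventually.of_forall fun h => (Continuous.aestronglyMeasurable (by
        simp only [ker]; unfold gaussKer; fun_prop))) hSi
      (hSc.continuousAt.tendsto.mono_left nhdsWithin_le_nhds)
    · intro U hU htU
      obtain ⟨η, hη, hball⟩ := Metric.isOpen_iff.1 hU t htU
      rw [Metric.tendstoUniformlyOn_iff]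
      intro ε hε
      have hlim0 : Tendsto (fun h : ℝ => (gaussConst ℝ)⁻¹ * (2 / η ^ 2) * h) (𝓝[>] 0) (𝓝 0) := by
        refine Tendsto.mono_left ?_ nhdsWithin_le_nhds
        simpa using (tendsto_id (x := 𝓝 (0:ℝ))).const_mul ((gaussConst ℝ)⁻¹ * (2 / η ^ 2))
      filter_upwards [(tendsto_order.1 hlim0).2 ε hε, self_mem_nhdsWithin] with h hh1 (hh : 0 < h)
      intro r hr
      have hr' : η ≤ |r - t| := by
        by_contra hcon
        exact hr.2 (hball (by simpa [Real.dist_eq] using not_le.1 hcon))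
      simp only [Pi.zero_apply, dist_zero_left, ker, gaussKer, norm_mul, Real.norm_eq_abs, abs_inv,
        abs_of_pos hh, abs_of_pos (Real.exp_pos _), abs_of_pos (gaussConst_pos (V := ℝ))]
      refine lt_of_le_of_lt ?_ hh1
      have hx : η ^ 2 / (2 * h ^ 2) ≤ Real.exp (‖h⁻¹ • (r - t)‖ ^ 2 / 2) := by
        refine le_trans ?_ (Real.add_one_le_exp _)
        have h2 : η ^ 2 / (2 * h ^ 2) ≤ ‖h⁻¹ • (r - t)‖ ^ 2 / 2 := by
          rw [norm_smul, Real.norm_eq_abs, Real.norm_eq_abs, abs_inv, abs_of_pos hh, mul_pow,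
            inv_pow]
          have := pow_le_pow_left₀ hη.le hr' 2
          field_simp
          exact this
        linarith
      have h1 : Real.exp (-‖h⁻¹ • (r - t)‖ ^ 2 / 2) ≤ 2 * h ^ 2 / η ^ 2 := by
        rw [neg_div, Real.exp_neg]
        exact le_of_le_of_eq (inv_anti₀ (by positivity) hx) (inv_div _ _)
      refine (mul_le_mul_of_nonneg_left (mul_le_mul_of_nonneg_left h1
        (inv_nonneg.2 gaussConst_pos.le)) (inv_nonneg.2 hh.le)).trans (le_of_eq ?_)
      field_simp
    · have hk : ∀ h : ℝ, 0 < h → ∫ r in T, ker h r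
          = ∫ x, Set.indicator {x : ℝ | t + h * x ∈ T} gaussKer x := by
        intro h hh
        rw [← integral_indicator measurableSet_Ioo]
        have e := Measure.integral_comp_mul_left (fun x => T.indicator (ker h) (t + x)) h
        rw [integral_add_left_eq_self (fun x => T.indicator (ker h) x), smul_eq_mul, abs_inv,
          abs_of_pos hh] at e
        calc ∫ x, T.indicator (ker h) x = h * (h⁻¹ * ∫ x, T.indicator (ker h) x) := by
              field_simp
          _ = h * ∫ x, T.indicator (ker h) (t + h * x) := by rw [e]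
          _ = _ := by
              rw [← integral_const_mul]
              refine integral_congr_ae (ae_of_all _ fun x => ?_)
              by_cases hx : t + h * x ∈ T
              · simp only [Set.indicator_of_mem hx, Set.indicator_of_mem (s := {x | t + h * x ∈ T}) hx]
                simp only [ker, add_sub_cancel_left, smul_eq_mul]
                rw [← mul_assoc, ← mul_assoc, inv_mul_cancel₀ hh.ne', one_mul,
                  mul_inv_cancel₀ hh.ne', one_mul]
              · simp only [Set.indicator_of_notMem hx, mul_zero,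
                  Set.indicator_of_notMem (s := {x | t + h * x ∈ T}) hx]
      have hlim1 : Tendsto (fun h => ∫ x, Set.indicator {x : ℝ | t + h * x ∈ T} gaussKer x)
          (𝓝[>] 0) (𝓝 (∫ x, gaussKer (V := ℝ) x)) := by
        refine tendsto_integral_filter_of_dominated_convergence gaussKer
          (Eventually.of_forall fun h => integrable_gaussKer.aestronglyMeasurable.indicator
            (measurableSet_Ioo.preimage (by fun_prop)))
          (Eventually.of_forall fun h => ae_of_all _ fun x => ?_) integrable_gaussKer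
          (ae_of_all _ fun x => ?_)
        · rw [norm_indicator_eq_indicator_norm]
          exact (Set.indicator_le_self' (fun y _ => norm_nonneg _) x).trans
            (le_of_eq (Real.norm_of_nonneg (gaussKer_nonneg _)))
        · refine tendsto_const_nhds.congr' ?_
          have : Tendsto (fun h : ℝ => t + h * x) (𝓝[>] 0) (𝓝 t) := by
            refine Tendsto.mono_left ?_ nhdsWithin_le_nhds
            simpa using ((tendsto_id (x := 𝓝 (0:ℝ))).mul_const x).const_add t
          filter_upwards [this hmem] with h hh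
          exact (Set.indicator_of_mem (s := {x | t + h * x ∈ T}) hh _).symm
      rw [integral_gaussKer] at hlim1
      refine hlim1.congr' ?_
      filter_upwards [self_mem_nhdsWithin] with h hh
      exact (hk h hh).symm
  refine le_of_tendsto hlim.norm (eventually_nhdsWithin_of_forall fun h (hh : 0 < h) => ?_)
  rw [← (hpolar h hh).2]
  exact hmain h hh

/-- Decay of the characteristic function of a slice. -/
theorem norm_charFun_slice_le (hd : 2 ≤ d) (he : Orthonormal ℝ e)
    (hA : ∀ g r, ⟪A g, A (e r)⟫ = s ^ 2 * ⟪g, e r⟫) (hs : 0 < s) (hp : 1 ≤ p) (hN : 8 * p ≤ N)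
    (hΓ : 0 ≤ Γ) {c : Vec d} (hc : ∀ g, |⟪c, A g⟫| ≤ Γ * s ^ 2 * ‖g‖) {t : ℝ} (ht : 0 < t)
    (Ψ : Vec d) :
    ‖charFun (slice c A t) Ψ‖ ≤ (4 * s ^ 2)⁻¹
      * ((1 + 4 * Γ ^ 2 + 8 * p) / (1 + ‖(WithLp.toLp 2 fun r => ⟪Ψ, A (e r)⟫ : Vec N)‖ ^ 2)) ^ p := by
  refine norm_charFun_slice_le_of hd hs ht Ψ fun τ => ?_
  refine (norm_joint_charFun he hA c Ψ τ).trans (le_of_le_of_eq (kernel_le hp hN hΓ
    (R := ‖(WithLp.toLp 2 fun r => ⟪Ψ, A (e r)⟫ : Vec N)‖) (norm_nonneg _) ?_ (norm_nonneg _)) ?_)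
  swap
  · ring_nf
  have hcn : ‖(WithLp.toLp 2 fun r => ⟪c, A (e r)⟫ : Vec N)‖ ≤ Γ * s ^ 2 := by
    set C : Vec N := WithLp.toLp 2 fun r => ⟪c, A (e r)⟫
    have h5 := hc (lift e C)
    have h6 : ⟪c, A (lift e C)⟫ = ‖C‖ ^ 2 := by
      rw [EuclideanSpace.real_norm_sq_eq]
      simp [lift, map_sum, inner_sum, inner_smul_right, C, sq]
    rw [h6, norm_lift he, abs_of_nonneg (sq_nonneg _), sq] at h5
    rcases eq_or_lt_of_le (norm_nonneg C) with h0 | h0
    · rw [← h0]; positivity
    · exact le_of_mul_le_mul_right h5 h0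
  have h7 : ‖(2 * τ) • (WithLp.toLp 2 fun r => ⟪c, A (e r)⟫ : Vec N)‖
      ≤ |2 * (τ * s ^ 2)| * Γ := by
    rw [norm_smul, Real.norm_eq_abs]
    refine (mul_le_mul_of_nonneg_left hcn (abs_nonneg _)).trans (le_of_eq ?_)
    rw [← mul_assoc 2 τ, abs_mul (2 * τ), abs_of_nonneg (sq_nonneg s)]
    ring
  have h8 := norm_sub_norm_le (WithLp.toLp 2 fun r => ⟪Ψ, A (e r)⟫ : Vec N)
    (-((2 * τ) • (WithLp.toLp 2 fun r => ⟪c, A (e r)⟫ : Vec N)))
  rw [sub_neg_eq_add, norm_neg, add_comm (WithLp.toLp 2 fun r => ⟪Ψ, A (e r)⟫ : Vec N)] at h8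
  linarith

/-- Mass bound for a slice. -/
theorem slice_univ_le (hd : 2 ≤ d) (he : Orthonormal ℝ e)
    (hA : ∀ g r, ⟪A g, A (e r)⟫ = s ^ 2 * ⟪g, e r⟫) (hs : 0 < s) (hN : 8 ≤ N) (c : Vec d)
    {t : ℝ} (ht : 0 < t) : slice c A t Set.univ ≤ ENNReal.ofReal (4 * s ^ 2)⁻¹ := by
  have h := norm_charFun_slice_le_of (Q := 1) hd hs (c := c) ht 0 fun τ => by
    refine (norm_joint_charFun he hA c 0 τ).trans ?_
    rw [one_mul, show 2 * s ^ 2 * τ = 2 * (τ * s ^ 2) by ring]
    refine (mul_le_of_le_one_right (by positivity) (Real.exp_le_one_iff.2 ?_)).trans ?_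
    · exact div_nonpos_of_nonpos_of_nonneg (by nlinarith [norm_nonneg ((2 * τ) •
        (WithLp.toLp 2 fun r => ⟪c, A (e r)⟫ : Vec N)
          + (WithLp.toLp 2 fun r => ⟪(0 : Vec d), A (e r)⟫ : Vec N))]) (by positivity)
    · rw [← Real.rpow_neg_one]
      refine Real.rpow_le_rpow_of_exponent_le (by nlinarith) ?_
      have : (8:ℝ) ≤ N := by exact_mod_cast hN
      linarith
  rw [mul_one, charFun_zero, Complex.norm_real, Real.norm_of_nonneg measureReal_nonneg] at h
  exact (ENNReal.ofReal_toReal (measure_ne_top _ _)).symm.le.trans (ENNReal.ofReal_le_ofReal h)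

end Vale.Agent.P309.Sharp
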