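import Vale.Agent.P309.Sharp.StepNum
import Vale.Agent.P309.Sharp.Ends
import Vale.Agent.P309.Sharp.Pairs

/-! Good rows and leaves of one phase, and the high parts of all leaves together. -/

namespace Vale.Agent.P309.Sharp

open MeasureTheory ProbabilityTheory Filter
open scoped RealInnerProductSpace Real ENNReal

variable {d k : ℕ} {C₀ X : ℝ}

namespace Big

variable (h : Big C₀ X d)
include h

lemma pow_four_le : 100 * X ^ 4 ≤ (d:ℝ) :=
  (h.hundred_mul (a := 4)).trans ((h.pow_le (a := 5) (b := 24) (by norm_num)).trans h.d_large)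

lemma pow_three_le : X ^ 3 ≤ (d:ℝ) := (h.pow_le (a := 3) (b := 24) (by norm_num)).trans h.d_large

lemma X_le_pow_three : 10000 * X ≤ X ^ 3 := by
  rw [pow_succ]
  refine mul_le_mul_of_nonneg_right ?_ h.X_pos.le
  nlinarith [h.X_large]

lemma gP_ge : 8 ≤ gP C₀ := by unfold gP; linarith [h.one_le]

lemma depth_mul_le : (depth C₀ X d : ℝ) * X ^ 4 ≤ gP C₀ * d + 2 * X ^ 4 := by
  have hX4 : (0:ℝ) < X ^ 4 := pow_pos h.X_pos 4
  have hc := Nat.ceil_lt_add_one
    (show 0 ≤ gP C₀ * d / X ^ 4 by have := h.gP_ge; positivity)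
  have h' := mul_lt_mul_of_pos_right hc hX4
  rw [add_mul, div_mul_cancel₀ _ hX4.ne', one_mul] at h'
  simp only [depth]
  push_cast
  linarith

lemma depth_le_div : 64 * (depth C₀ X d : ℝ) ≤ d := by
  have hX4 : (0:ℝ) < X ^ 4 := pow_pos h.X_pos 4
  refine le_of_mul_le_mul_right ?_ hX4
  have h1 := mul_le_mul_of_nonneg_right h.gP_le (Nat.cast_nonneg d : (0:ℝ) ≤ d)
  have h2 := mul_le_mul_of_nonneg_right h.X_le_pow_three (Nat.cast_nonneg d : (0:ℝ) ≤ d)
  have h3 := mul_le_mul_of_nonneg_right (show 100 * X ^ 3 ≤ X ^ 4 from h.hundred_mul) (Nat.cast_nonneg d : (0:ℝ) ≤ d)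
  have h4 : (256:ℝ) ≤ d := by
    linarith [h.pow_four_le, h.pow_le (a := 1) (b := 4) (by norm_num), h.X_large, pow_one X]
  have h5 := mul_le_mul_of_nonneg_right h4 hX4.le
  linarith [h.depth_mul_le, mul_nonneg h.X_pos.le (Nat.cast_nonneg d : (0:ℝ) ≤ d)]

lemma pick_depth_le {i : ℕ} (hi : i < depth C₀ X d) :
    i ≤ d / 64 ∧ Real.exp (-(2 * gP C₀ * d)) ≤ ((√(1 + Lam X ^ 2)) ^ i)⁻¹ := by
  have hi' : (i:ℝ) + 1 ≤ depth C₀ X d := by exact_mod_cast hi
  have h64 := h.depth_le_div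
  refine ⟨?_, ?_⟩
  · rw [Nat.le_div_iff_mul_le (by norm_num)]
    exact_mod_cast (show ((i:ℝ) * 64) ≤ d by linarith)
  rw [Real.exp_neg]
  refine inv_anti₀ (by positivity) ((pow_le_pow_left₀ (Real.sqrt_nonneg _)
    (show √(1 + Lam X ^ 2) ≤ Real.exp (X ^ 4 + 1) from ?_) i).trans ?_)
  · rw [Real.sqrt_le_iff]
    refine ⟨(Real.exp_pos _).le, ?_⟩
    have e : Real.exp (X ^ 4 + 1) ^ 2 = Lam X ^ 2 * Real.exp 1 ^ 2 := by
      rw [Lam, ← mul_pow, ← Real.exp_add]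
    have h1 : 1 ≤ Lam X ^ 2 :=
      one_le_pow₀ (Real.one_le_exp (pow_nonneg h.X_pos.le 4))
    have h2 : (2:ℝ) ≤ Real.exp 1 ^ 2 := by nlinarith [Real.exp_one_gt_d9]
    rw [e]
    nlinarith [mul_le_mul_of_nonneg_left h2 (sq_nonneg (Lam X))]
  · rw [← Real.exp_nat_mul]
    refine Real.exp_le_exp.2 ?_
    have h1 := mul_le_mul_of_nonneg_right hi' (pow_nonneg h.X_pos.le 4)
    have h2 := mul_le_mul_of_nonneg_right h.gP_ge (Nat.cast_nonneg d : (0:ℝ) ≤ d)
    linarith [h.depth_mul_le, h.pow_four_le]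

lemma heavy_pos (k : ℕ) : 0 < heavy X d k := Real.exp_pos _

lemma heavy_le_one (k : ℕ) : heavy X d k ≤ 1 := by
  refine Real.exp_le_one_iff.2 ?_
  have := h.X_pos
  have : 0 ≤ 3 * X ^ 3 * (d:ℝ) + 3 * X ^ 4 * k := by positivity
  linarith

lemma prune_le (k : ℕ) :
    (1 - heavy X d k) ^ ⌈X ^ 3 * d / heavy X d k⌉₊ ≤ Real.exp (-(X ^ 3 * d)) := by
  have hp := h.heavy_pos k
  refine (pow_le_pow_left₀ (by linarith [h.heavy_le_one k]) (Real.one_sub_le_exp_neg _) _).trans ?_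
  rw [← Real.exp_nat_mul]
  refine Real.exp_le_exp.2 ?_
  have h1 := Nat.le_ceil (X ^ 3 * d / heavy X d k)
  rw [div_le_iff₀ hp] at h1
  linarith

lemma count_le (hk : k = d / 64) :
    ((⌈X ^ 3 * d / heavy X d k⌉₊ : ℝ) + 1) ^ depth C₀ X d
      ≤ Real.exp (2 / 5 * (C₀ + 1) * d ^ 2) := by
  have hp := h.heavy_pos k
  have hX := h.X_pos
  have hd := h.one_le_d
  have hn : (⌈X ^ 3 * d / heavy X d k⌉₊ : ℝ) + 1
      ≤ Real.exp (5 * X ^ 3 * d + 3 * X ^ 4 * k) := by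
    have h1 := (Nat.ceil_lt_add_one (show 0 ≤ X ^ 3 * d / heavy X d k by positivity)).le
    calc (⌈X ^ 3 * d / heavy X d k⌉₊ : ℝ) + 1 ≤ X ^ 3 * d / heavy X d k + 2 := by linarith
      _ ≤ (X ^ 3 * d + 2) / heavy X d k := by
          rw [add_div]
          have : (2:ℝ) ≤ 2 / heavy X d k := by
            rw [le_div_iff₀ hp]; linarith [h.heavy_le_one k]
          linarith
      _ ≤ Real.exp (X ^ 3 * d + 1) / heavy X d k := by
          refine div_le_div_of_nonneg_right ?_ hp.le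
          linarith [Real.add_one_le_exp (X ^ 3 * d + 1)]
      _ ≤ _ := by
          rw [heavy, ← Real.exp_sub]
          refine Real.exp_le_exp.2 ?_
          have h2 : (1:ℝ) ≤ X ^ 3 * d := by
            nlinarith [h.X_le_pow_three, h.X_large]
          linarith
  refine (pow_le_pow_left₀ (by positivity) hn _).trans ?_
  rw [← Real.exp_nat_mul]
  refine Real.exp_le_exp.2 ?_
  have hk' : 64 * (k:ℝ) ≤ d := by exact_mod_cast (show 64 * k ≤ d by omega)
  have h1 : 5 * X ^ 3 * d + 3 * X ^ 4 * k ≤ (1 / 20 + 3 / 64) * (X ^ 4 * d) := by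
    have a1 := mul_le_mul_of_nonneg_right (show 100 * X ^ 3 ≤ X ^ 4 from h.hundred_mul) (Nat.cast_nonneg d : (0:ℝ) ≤ d)
    have a2 := mul_le_mul_of_nonneg_left hk' (pow_nonneg hX.le 4)
    linarith
  refine (mul_le_mul_of_nonneg_left h1 (Nat.cast_nonneg _)).trans ?_
  have h2 := mul_le_mul_of_nonneg_right h.depth_mul_le (Nat.cast_nonneg d : (0:ℝ) ≤ d)
  have h3 := mul_le_mul_of_nonneg_right h.pow_four_le (Nat.cast_nonneg d : (0:ℝ) ≤ d)
  have hg : gP C₀ = 4 * (C₀ + 1) := by unfold gP; ring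
  rw [hg] at h2
  have h4 : (d:ℝ) * d ≤ (C₀ + 1) * (d * d) :=
    le_mul_of_one_le_left (by positivity) (by linarith [h.one_le])
  linarith [mul_self_nonneg (d:ℝ)]

lemma lost_num :
    Real.exp d * Real.exp ((CJ C₀ + X) * d) * Real.exp (X * d)
        * ((depth C₀ X d : ℝ) * Real.exp (-(X ^ 3 * d))
          + Real.exp (C₀ * d ^ 2) * Real.exp (2 / 5 * (C₀ + 1) * d ^ 2)
            * Real.exp (-(3 / 2 * (C₀ + 1) * d ^ 2)))
      ≤ Real.exp (-(X ^ 3 * d / 4)) := by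
  have hd := h.one_le_d
  have hm : (depth C₀ X d : ℝ) ≤ Real.exp d := by
    linarith [h.depth_le_div, Real.add_one_le_exp (d:ℝ),
      (Nat.cast_nonneg (depth C₀ X d) : (0:ℝ) ≤ depth C₀ X d)]
  have hX3 := mul_le_mul_of_nonneg_right h.X_le_pow_three (Nat.cast_nonneg d : (0:ℝ) ≤ d)
  have hCJ := mul_le_mul_of_nonneg_right h.CJ_le (Nat.cast_nonneg d : (0:ℝ) ≤ d)
  have hXd := mul_le_mul_of_nonneg_right h.X_large (Nat.cast_nonneg d : (0:ℝ) ≤ d)
  have h24 : 10 * (X ^ 3 * d) ≤ (C₀ + 1) * d ^ 2 / 2 := by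
    have a1 := mul_le_mul_of_nonneg_right h.pow_four_le (Nat.cast_nonneg d : (0:ℝ) ≤ d)
    have a2 := mul_le_mul_of_nonneg_right (show 100 * X ^ 3 ≤ X ^ 4 from h.hundred_mul) (Nat.cast_nonneg d : (0:ℝ) ≤ d)
    have a3 : (d:ℝ) * d ≤ (C₀ + 1) * (d * d) :=
      le_mul_of_one_le_left (by positivity) (by linarith [h.one_le])
    linarith [mul_nonneg (pow_nonneg h.X_pos.le 3) (Nat.cast_nonneg d : (0:ℝ) ≤ d),
      mul_self_nonneg (d:ℝ)]
  rw [mul_add]
  have e1 : Real.exp d * Real.exp ((CJ C₀ + X) * d) * Real.exp (X * d)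
      * ((depth C₀ X d : ℝ) * Real.exp (-(X ^ 3 * d))) ≤ Real.exp (-(X ^ 3 * d / 2)) := by
    refine (mul_le_mul_of_nonneg_left (mul_le_mul_of_nonneg_right hm (Real.exp_pos _).le)
      (by positivity)).trans ?_
    simp only [← Real.exp_add]
    exact Real.exp_le_exp.2 (by linarith)
  have e2 : Real.exp d * Real.exp ((CJ C₀ + X) * d) * Real.exp (X * d)
      * (Real.exp (C₀ * d ^ 2) * Real.exp (2 / 5 * (C₀ + 1) * d ^ 2)
        * Real.exp (-(3 / 2 * (C₀ + 1) * d ^ 2))) ≤ Real.exp (-(X ^ 3 * d / 2)) := by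
    simp only [← Real.exp_add]
    exact Real.exp_le_exp.2 (by linarith [sq_nonneg (d:ℝ)])
  have e3 : 2 * Real.exp (-(X ^ 3 * d / 2)) ≤ Real.exp (-(X ^ 3 * d / 4)) := by
    have h2 : (2:ℝ) ≤ Real.exp (X ^ 3 * d / 4) := by
      linarith [Real.add_one_le_exp (X ^ 3 * d / 4)]
    refine (mul_le_mul_of_nonneg_right h2 (Real.exp_pos _).le).trans (le_of_eq ?_)
    rw [← Real.exp_add]
    ring_nf
  linarith

lemma high_num {M : ℝ} (hM0 : 0 ≤ M) (hM : M ≤ Real.exp d) :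
    M * (Real.exp (-(X ^ 3 * d / 2)) * Real.exp (X * d)
        + Real.exp (2 * (C₀ + 1) * d ^ 2) * Real.exp (-(20 * (C₀ + 1) * d ^ 2)))
      + M * (coefK d (RW X d) * Real.exp (2 * gP C₀ * d))
        * (√(8 * π) ^ d * Real.exp (-(Rcut X d) ^ 2 / 8))
      ≤ Real.exp (-(X ^ 3 * d / 4)) := by
  have hd := h.one_le_d
  have hX := h.X_pos
  have hX3 := mul_le_mul_of_nonneg_right h.X_le_pow_three (Nat.cast_nonneg d : (0:ℝ) ≤ d)
  have hgP := mul_le_mul_of_nonneg_right h.gP_le (Nat.cast_nonneg d : (0:ℝ) ≤ d)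
  have hXd := mul_le_mul_of_nonneg_right h.X_large (Nat.cast_nonneg d : (0:ℝ) ≤ d)
  have hR : (Rcut X d) ^ 2 = X ^ 8 * d := by
    rw [Rcut, mul_pow, Real.sq_sqrt (Nat.cast_nonneg d)]
    ring
  have hX84 : 1000 * (X ^ 4 * d) ≤ X ^ 8 * d := by
    have a : (1000:ℝ) ≤ X ^ 4 :=
      le_trans (by linarith [h.X_large, h.X_le_pow_three]) (h.hundred_mul (a := 3))
    have := mul_le_mul_of_nonneg_right a (show 0 ≤ X ^ 4 * (d:ℝ) by positivity)
    linarith
  have hX34 := mul_le_mul_of_nonneg_right (show 100 * X ^ 3 ≤ X ^ 4 from h.hundred_mul) (Nat.cast_nonneg d : (0:ℝ) ≤ d)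
  have h24 : X ^ 3 * d ≤ (C₀ + 1) * d ^ 2 := by
    have a1 := mul_le_mul_of_nonneg_right h.pow_three_le (Nat.cast_nonneg d : (0:ℝ) ≤ d)
    have a3 : (d:ℝ) * d ≤ (C₀ + 1) * (d * d) :=
      le_mul_of_one_le_left (by positivity) (by linarith [h.one_le])
    linarith
  have e1 : M * (Real.exp (-(X ^ 3 * d / 2)) * Real.exp (X * d)) ≤ Real.exp (-(X ^ 3 * d / 3)) := by
    refine (mul_le_mul_of_nonneg_right hM (by positivity)).trans ?_
    simp only [← Real.exp_add]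
    exact Real.exp_le_exp.2 (by linarith)
  have e2 : M * (Real.exp (2 * (C₀ + 1) * d ^ 2) * Real.exp (-(20 * (C₀ + 1) * d ^ 2)))
      ≤ Real.exp (-(X ^ 3 * d / 3)) := by
    refine (mul_le_mul_of_nonneg_right hM (by positivity)).trans ?_
    simp only [← Real.exp_add]
    exact Real.exp_le_exp.2 (by linarith)
  have e3 : M * (coefK d (RW X d) * Real.exp (2 * gP C₀ * d))
        * (√(8 * π) ^ d * Real.exp (-(Rcut X d) ^ 2 / 8)) ≤ Real.exp (-(X ^ 3 * d / 3)) := by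
    have hc := coefK_nonneg d (RW X d)
    refine (mul_le_mul (mul_le_mul hM (mul_le_mul_of_nonneg_right h.coefK_RW_le (Real.exp_pos _).le)
      (by positivity) (Real.exp_pos _).le) (mul_le_mul_of_nonneg_right
        (h.sqrt_pi_pow_le (by norm_num) le_rfl) (Real.exp_pos _).le) (by positivity)
      (by positivity)).trans ?_
    simp only [← Real.exp_add, hR]
    exact Real.exp_le_exp.2 (by linarith [mul_nonneg (pow_nonneg hX.le 4) (Nat.cast_nonneg d : (0:ℝ) ≤ d)])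
  have e4 : 3 * Real.exp (-(X ^ 3 * d / 3)) ≤ Real.exp (-(X ^ 3 * d / 4)) := by
    have h2 : (3:ℝ) ≤ Real.exp (X ^ 3 * d / 12) := by
      linarith [Real.add_one_le_exp (X ^ 3 * d / 12)]
    refine (mul_le_mul_of_nonneg_right h2 (Real.exp_pos _).le).trans (le_of_eq ?_)
    rw [← Real.exp_add]
    ring_nf
  linarith

end Big

/-- D1: good rows and the leaves of one phase. -/
theorem exists_tree {C₀ : ℝ} (hC₀ : 1 ≤ C₀) :
    ∀ᶠ X : ℝ in atTop, ∀ᶠ d : ℕ in atTop, ∀ k : ℕ, k = d / 64 →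
    ∀ N : ℕ, (N:ℝ) ≤ Real.exp (C₀ * d ^ 2) → ∀ P : Piece d, 1 / P.δ ^ 2 ≤ Real.exp d →
    ∀ Φ : Fin N → (Fin k → Vec d) → Vec k → ℝ, (∀ v, Measurable (Function.uncurry (Φ v))) →
      (∀ v x y, 0 ≤ Φ v x y) → (∀ x y, ∑ v, Φ v x y ≤ 1) →
    ∃ (G : Set (Fin k → Vec d)) (c : Fin N → ℕ) (i : (v : Fin N) → Fin (c v) → ℕ)
      (W : (v : Fin N) → (t : Fin (c v)) → Fin (i v t) → Vec d)
      (S : (v : Fin N) → Fin (c v) → Set (Fin k → Vec d)),
      MeasurableSet G ∧ (∀ x ∈ G, ∀ ζ, ‖comb x ζ‖ ≤ Rop X d * ‖ζ‖) ∧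
      rowsLaw d k Gᶜ ≤ ENNReal.ofReal (Real.exp (-(X ^ 4 * d / 20))) ∧
      (∑ v, (c v : ℝ)) ≤ Real.exp (2 * (C₀ + 1) * d ^ 2) ∧
      (∀ v t, i v t ≤ d / 64) ∧ (∀ v t, Real.exp (-(2 * gP C₀ * d)) ≤ pickVol (W v t)) ∧
      (∀ v t, MeasurableSet (S v t)) ∧ (∀ v, Pairwise fun s t => Disjoint (S v s) (S v t)) ∧
      (∀ v t, Terminal P.A P.δ (Φ v) (Rwin X d) (Lam X) (heavy X d k) (W v t) (S v t)) ∧
      ∑ v, ∫⁻ g, ENNReal.ofReal (nodeFn P.A P.δ (Φ v) (Rwin X d) (G \ ⋃ t, S v t) g) ∂gw P.base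
        ≤ ENNReal.ofReal (Real.exp (-(X ^ 3 * d / 4))) := by
  filter_upwards [eventually_big hC₀, exists_good hC₀, window_le, node_mass_le hC₀]
    with X hb hgood hwin hnode
  filter_upwards [hb, hgood, hwin, hnode] with d h hgood hwin hnode k hk N hN P hδ Φ hΦ h0 h1
  obtain ⟨e, he, heA, hev, hGc, hnear⟩ := hgood k hk P
  have h01 := single_le_one h0 h1
  set G : Set (Fin k → Vec d) := goodSet P.A P.δ e (Rop X d) (J1 C₀ d k) with hGdef
  have hG : MeasurableSet G := measurableSet_goodSet _ _ _ _ _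
  set n := ⌈X ^ 3 * (d:ℝ) / heavy X d k⌉₊
  set m := depth C₀ X d
  set V := volume.real {y : Vec k | ‖y‖ ≤ Rwin X d}
  have hset : {y : Vec k | ‖y‖ ≤ Rwin X d} = Metric.closedBall (0 : Vec k) (Rwin X d) := by
    ext y; simp
  have hV : V ≤ Real.exp (X * d) * √d ^ k := by simp only [V, hset]; exact hwin k hk
  set D := Real.exp (-(3 / 2 * (C₀ + 1) * (d:ℝ) ^ 2))
  choose c i W S hc hi hW hS hSG hdis hT hlost using fun v : Fin N =>
    exists_leaves (Φ := Φ v) (Ry := Rwin X d) (Λ := Lam X) (α := heavy X d k) (hΦ v) (h0 v) (h01 v)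
      (Real.exp_pos _).le (h.heavy_pos k).le (h.heavy_le_one k) (h.prune_le k)
      (wt_le (hΦ v) (h0 v) (h01 v)) hG m hnear (Real.exp_pos _).le
  refine ⟨G, c, i, W, S, hG, fun x hx => hx.1, hGc, ?_, fun v t => (h.pick_depth_le (hi v t)).1,
    fun v t => (h.pick_depth_le (hi v t)).2.trans (hW v t).ge, hS, hdis, hT, ?_⟩
  · refine (Finset.sum_le_sum fun v _ => (hc v).trans (h.count_le hk)).trans ?_
    rw [Finset.sum_const, Finset.card_univ, Fintype.card_fin, nsmul_eq_mul]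
    refine (mul_le_mul_of_nonneg_right hN (Real.exp_pos _).le).trans ?_
    rw [← Real.exp_add]
    refine Real.exp_le_exp.2 ?_
    have : 0 ≤ (C₀ + 1) * (d:ℝ) ^ 2 := mul_nonneg (by linarith) (sq_nonneg _)
    linarith [sq_nonneg (d:ℝ)]
  have hd32 : 32 ≤ d := by have := h.d_ge_two; omega
  have hB := P.base_spec hd32
  have hM0 : 0 ≤ 1 / P.δ ^ 2 := hB.nonneg
  set E := Real.exp ((CJ C₀ + X) * d) / √(d:ℝ) ^ k
  have hE0 : 0 ≤ E := by positivity
  have hper : ∀ v, ∫⁻ g, ENNReal.ofReal (nodeFn P.A P.δ (Φ v) (Rwin X d) (G \ ⋃ t, S v t) g)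
      ∂gw P.base ≤ ENNReal.ofReal (1 / P.δ ^ 2 * (E * mass (Φ v) (Rwin X d) (G \ ⋃ t, S v t))) :=
    fun v => hnode k hk P P.base P.v _ hM0 hB.dec _ e he hev heA (Φ v) (hΦ v) (h0 v) (h01 v) _
      (hG.diff (MeasurableSet.iUnion (hS v))) fun x hx => hx.1.2
  refine (Finset.sum_le_sum fun v _ => hper v).trans ?_
  rw [← ENNReal.ofReal_sum_of_nonneg fun v _ =>
    mul_nonneg hM0 (mul_nonneg hE0 (mass_nonneg (h0 v) _))]
  refine ENNReal.ofReal_le_ofReal ?_
  rw [← Finset.mul_sum, ← Finset.mul_sum]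
  set η := Real.exp (-(X ^ 3 * (d:ℝ)))
  have hV0 : 0 ≤ V := measureReal_nonneg
  have hNn : (N:ℝ) * ((n:ℝ) + 1) ^ m
      ≤ Real.exp (C₀ * d ^ 2) * Real.exp (2 / 5 * (C₀ + 1) * d ^ 2) :=
    mul_le_mul hN (h.count_le hk) (by positivity) (Real.exp_pos _).le
  have hsum : ∑ v, mass (Φ v) (Rwin X d) (G \ ⋃ t, S v t)
      ≤ V * ((m:ℝ) * η + Real.exp (C₀ * d ^ 2) * Real.exp (2 / 5 * (C₀ + 1) * d ^ 2) * D) := by
    refine (Finset.sum_le_sum fun v _ => hlost v).trans ?_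
    rw [Finset.sum_add_distrib, ← Finset.mul_sum, Finset.sum_const, Finset.card_univ,
      Fintype.card_fin, nsmul_eq_mul]
    have hm := sum_mass_le (Ry := Rwin X d) hΦ h0 h1 (fun _ => G)
    rw [← hset] at hm
    have a1 := mul_le_mul_of_nonneg_left hm
      (mul_nonneg (Nat.cast_nonneg m) (Real.exp_pos (-(X ^ 3 * (d:ℝ)))).le)
    have a2 := mul_le_mul_of_nonneg_right hNn (mul_nonneg hV0 (Real.exp_pos _).le : 0 ≤ V * D)
    linarith
  calc 1 / P.δ ^ 2 * (E * ∑ v, mass (Φ v) (Rwin X d) (G \ ⋃ t, S v t))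
      ≤ Real.exp d * (E * (Real.exp (X * d) * √d ^ k
          * ((m:ℝ) * η + Real.exp (C₀ * d ^ 2) * Real.exp (2 / 5 * (C₀ + 1) * d ^ 2) * D))) :=
        mul_le_mul hδ (mul_le_mul_of_nonneg_left
          (hsum.trans (mul_le_mul_of_nonneg_right hV (by positivity))) hE0)
          (mul_nonneg hE0 (Finset.sum_nonneg fun v _ => mass_nonneg (h0 v) _)) (Real.exp_pos _).le
    _ = Real.exp d * Real.exp ((CJ C₀ + X) * d) * Real.exp (X * d)
          * ((m:ℝ) * η + Real.exp (C₀ * d ^ 2) * Real.exp (2 / 5 * (C₀ + 1) * d ^ 2) * D) := by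
        have : √(d:ℝ) ^ k ≠ 0 :=
          pow_ne_zero _ (Real.sqrt_pos.2 (by linarith [h.one_le_d])).ne'
        simp only [E]
        field_simp
    _ ≤ _ := h.lost_num

lemma measurable_smooth {i : ℕ} (W : Fin i → Vec d) (R : ℝ) {F : Vec d → ℝ} (hF : Measurable F) :
    Measurable (smooth W R F) := by
  have h1 : Measurable (kerB (precond W) 1 R ∘ fun q : Vec d × Vec d => q.1 - q.2) :=
    (measurable_kerB _ _ _).comp (measurable_fst.sub measurable_snd)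
  exact ((h1.mul (hF.comp measurable_snd)).stronglyMeasurable.integral_prod_right'
    (ν := (volume : Measure (Vec d)))).measurable

/-- The part of a node outside its low part: the high part and the smoothing of the far part. -/
lemma leaf_high_le {σ₀ : Measure (Vec d)} [IsFiniteMeasure (gw σ₀)] {M : ℝ} {m i : ℕ}
    (hB : BumpW σ₀ M m) (hM : 0 ≤ M) (hi : i ≤ m) (W : Fin i → Vec d) (R Rc : ℝ) {F : Vec d → ℝ}
    (hF : Measurable F) (hF1 : ∀ g, |F g| ≤ 1) {p : ℝ} (hp : Real.exp (-p) ≤ pickVol W) :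
    ∫⁻ g, ENNReal.ofReal |F g - lowFn W R Rc F g| ∂gw σ₀
      ≤ ∫⁻ g, ENNReal.ofReal |F g - smooth W R F g| ∂gw σ₀
        + ENNReal.ofReal (M * (coefK d R * Real.exp p))
          * ∫⁻ x, (farSet d Rc).indicator
              (fun x => ENNReal.ofReal (Real.exp (-‖x‖ ^ 2 / 4))) x * ENNReal.ofReal |F x| := by
  have hfar : Measurable (farPart Rc F) := hF.indicator (measurableSet_farSet d Rc)
  calc ∫⁻ g, ENNReal.ofReal |F g - lowFn W R Rc F g| ∂gw σ₀
      ≤ ∫⁻ g, ENNReal.ofReal |F g - smooth W R F g|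
          + ENNReal.ofReal |smooth W R (farPart Rc F) g| ∂gw σ₀ := by
        refine lintegral_mono fun g => ?_
        rw [← ENNReal.ofReal_add (abs_nonneg _) (abs_nonneg _)]
        refine ENNReal.ofReal_le_ofReal ?_
        have e := smooth_split (Rc := Rc) W R hF hF1 g
        rw [show F g - lowFn W R Rc F g = (F g - smooth W R F g) + smooth W R (farPart Rc F) g by
          rw [e]; ring]
        exact abs_add_le _ _
    _ = ∫⁻ g, ENNReal.ofReal |F g - smooth W R F g| ∂gw σ₀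
          + ∫⁻ g, ENNReal.ofReal |smooth W R (farPart Rc F) g| ∂gw σ₀ :=
        lintegral_add_left (hF.sub (measurable_smooth W R hF)).norm.ennreal_ofReal _
    _ ≤ _ := by
        refine add_le_add le_rfl ((smooth_le hB hM hi W R hfar).trans ?_)
        refine mul_le_mul' (ENNReal.ofReal_le_ofReal (mul_le_mul_of_nonneg_left ?_ hM))
          (lintegral_mono fun x => le_of_eq ?_)
        · rw [coefK, div_eq_mul_inv]
          refine mul_le_mul_of_nonneg_left ?_ (by positivity)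
          refine (inv_anti₀ (Real.exp_pos _) hp).trans (le_of_eq ?_)
          rw [Real.exp_neg, inv_inv]
        · by_cases hx : x ∈ farSet d Rc
          · rw [farPart, Set.indicator_of_mem hx, Set.indicator_of_mem hx,
              ← ENNReal.ofReal_mul (Real.exp_pos _).le, mul_comm]
          · rw [farPart, Set.indicator_of_notMem hx, Set.indicator_of_notMem hx]
            simp

/-- The weights of disjoint leaves of a family sum to at most the volume of the window. -/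
lemma sum_leaf_mass_le {ι : Type*} [Fintype ι] {Φ : ι → (Fin k → Vec d) → Vec k → ℝ}
    (hΦ : ∀ v, Measurable (Function.uncurry (Φ v))) (h0 : ∀ v x y, 0 ≤ Φ v x y)
    (h1 : ∀ x y, ∑ v, Φ v x y ≤ 1) {Ry : ℝ} (c : ι → ℕ)
    (S : (v : ι) → Fin (c v) → Set (Fin k → Vec d)) (hS : ∀ v t, MeasurableSet (S v t))
    (hd : ∀ v, Pairwise fun s t => Disjoint (S v s) (S v t)) :
    ∑ v, ∑ t, mass (Φ v) Ry (S v t) ≤ volume.real (Metric.closedBall (0 : Vec k) Ry) := by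
  refine le_trans (le_of_eq (Finset.sum_congr rfl fun v _ => ?_))
    (sum_mass_le hΦ h0 h1 fun v => ⋃ t, S v t)
  exact (integral_iUnion_fintype (hS v) (hd v)
    fun t => integrable_wt (hΦ v) (h0 v) (single_le_one h0 h1 v) (S v t)).symm

/-- D2: the high parts of all leaves together. -/
theorem high_total {C₀ : ℝ} (hC₀ : 1 ≤ C₀) :
    ∀ᶠ X : ℝ in atTop, ∀ᶠ d : ℕ in atTop, ∀ k : ℕ, k = d / 64 →
    ∀ (P : Piece d) (σ₀ : Measure (Vec d)) [IsFiniteMeasure (gw σ₀)] (v₀ : Vec d) (M : ℝ),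
      Base σ₀ v₀ M → M ≤ Real.exp d →
    ∀ (N : ℕ) (Φ : Fin N → (Fin k → Vec d) → Vec k → ℝ), (∀ v, Measurable (Function.uncurry (Φ v))) →
      (∀ v x y, 0 ≤ Φ v x y) → (∀ x y, ∑ v, Φ v x y ≤ 1) →
    ∀ (c : Fin N → ℕ) (i : (v : Fin N) → Fin (c v) → ℕ)
      (W : (v : Fin N) → (t : Fin (c v)) → Fin (i v t) → Vec d)
      (S : (v : Fin N) → Fin (c v) → Set (Fin k → Vec d)),
      (∑ v, (c v : ℝ)) ≤ Real.exp (2 * (C₀ + 1) * d ^ 2) →
      (∀ v t, i v t ≤ d / 64) → (∀ v t, Real.exp (-(2 * gP C₀ * d)) ≤ pickVol (W v t)) →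
      (∀ v t, MeasurableSet (S v t)) → (∀ v, Pairwise fun s t => Disjoint (S v s) (S v t)) →
      (∀ v t, Terminal P.A P.δ (Φ v) (Rwin X d) (Lam X) (heavy X d k) (W v t) (S v t)) →
      ∑ v, ∑ t, ∫⁻ g, ENNReal.ofReal |nodeFn P.A P.δ (Φ v) (Rwin X d) (S v t) g
          - lowFn (W v t) (RW X d) (Rcut X d) (nodeFn P.A P.δ (Φ v) (Rwin X d) (S v t)) g| ∂gw σ₀
        ≤ ENNReal.ofReal (Real.exp (-(X ^ 3 * d / 4))) := by
  filter_upwards [eventually_big hC₀, window_le, high_le hC₀] with X hb hwin hhigh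
  filter_upwards [hb, hwin, hhigh] with d h hwin hhigh k hk P σ₀ _ v₀ M hB hMd N Φ hΦ h0 h1 c i W S
    hc hi hvol hS hdis hT
  have h01 := single_le_one h0 h1
  have hM := hB.nonneg
  set F : (v : Fin N) → Fin (c v) → Vec d → ℝ := fun v t =>
    nodeFn P.A P.δ (Φ v) (Rwin X d) (S v t)
  have hFm : ∀ v t, Measurable (F v t) := fun v t => measurable_nodeFn (hΦ v) (S v t)
  have hF0 : ∀ v t g, 0 ≤ F v t g := fun v t g => nodeFn_nonneg (h0 v) _ _
  have hFs : ∀ g, ∑ v, ∑ t, F v t g ≤ 1 := sum_nodeFn_le hΦ h0 h1 c S hS hdis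
  have hF1 : ∀ v t g, |F v t g| ≤ 1 := fun v t g => by
    rw [abs_of_nonneg (hF0 v t g)]
    exact ((Finset.single_le_sum (fun u _ => hF0 v u g) (Finset.mem_univ t)).trans
      (Finset.single_le_sum (f := fun v => ∑ t, F v t g)
        (fun u _ => Finset.sum_nonneg fun t _ => hF0 u t g) (Finset.mem_univ v))).trans (hFs g)
  set a := Real.exp (-(X ^ 3 * (d:ℝ) / 2)) / √(d:ℝ) ^ k
  set b := Real.exp (-(20 * (C₀ + 1) * (d:ℝ) ^ 2))
  set K := M * (coefK d (RW X d) * Real.exp (2 * gP C₀ * d))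
  have hK : 0 ≤ K := mul_nonneg hM (mul_nonneg (coefK_nonneg _ _) (Real.exp_pos _).le)
  set w : Vec d → ℝ≥0∞ :=
    (farSet d (Rcut X d)).indicator fun x => ENNReal.ofReal (Real.exp (-‖x‖ ^ 2 / 4))
  have hw : Measurable w :=
    (Real.measurable_exp.comp ((measurable_norm.pow_const 2).neg.div_const 4)).ennreal_ofReal.indicator
      (measurableSet_farSet d _)
  have hm0 : ∀ v t, 0 ≤ a * mass (Φ v) (Rwin X d) (S v t) + b := fun v t =>
    add_nonneg (mul_nonneg (by positivity) (mass_nonneg (h0 v) _)) (Real.exp_pos _).le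
  have hper : ∀ v t, ∫⁻ g, ENNReal.ofReal |F v t g - lowFn (W v t) (RW X d) (Rcut X d) (F v t) g|
      ∂gw σ₀ ≤ ENNReal.ofReal (M * (a * mass (Φ v) (Rwin X d) (S v t) + b))
        + ENNReal.ofReal K * ∫⁻ x, w x * ENNReal.ofReal |F v t x| := fun v t =>
    (leaf_high_le hB.bumpW hM (hi v t) (W v t) (RW X d) (Rcut X d) (hFm v t) (hF1 v t)
      (hvol v t)).trans (add_le_add (hhigh k hk P σ₀ v₀ M hM hB.dec (i v t) (W v t) (hi v t)
        (hvol v t) (Φ v) (hΦ v) (h0 v) (h01 v) (S v t) (hS v t) (hT v t)) le_rfl)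
  refine (Finset.sum_le_sum fun v _ => Finset.sum_le_sum fun t _ => hper v t).trans ?_
  simp only [Finset.sum_add_distrib, ← Finset.mul_sum]
  have hfar : ∑ v, ∑ t, ∫⁻ x, w x * ENNReal.ofReal |F v t x|
      ≤ ENNReal.ofReal (√(8 * π) ^ d * Real.exp (-(Rcut X d) ^ 2 / 8)) := by
    have hm : ∀ v t, Measurable fun x => w x * ENNReal.ofReal |F v t x| := fun v t =>
      hw.mul (hFm v t).norm.ennreal_ofReal
    simp only [← lintegral_finsetSum _ fun t _ => hm _ t]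
    rw [← lintegral_finsetSum _ fun v _ => Finset.measurable_fun_sum _ fun t _ => hm v t]
    refine (lintegral_mono fun x => ?_).trans (lintegral_far_le (Rcut X d))
    simp only [← Finset.mul_sum, fun v t => abs_of_nonneg (hF0 v t x),
      ← ENNReal.ofReal_sum_of_nonneg fun t (_ : t ∈ Finset.univ) => hF0 _ t x]
    rw [← ENNReal.ofReal_sum_of_nonneg fun v _ => Finset.sum_nonneg fun t _ => hF0 v t x]
    exact mul_le_of_le_one_right' (ENNReal.ofReal_le_one.2 (hFs x))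
  refine (add_le_add le_rfl (mul_le_mul_right hfar _)).trans ?_
  simp only [← ENNReal.ofReal_sum_of_nonneg
    fun t (_ : t ∈ Finset.univ) => mul_nonneg hM (hm0 _ t)]
  rw [← ENNReal.ofReal_sum_of_nonneg
      fun v _ => Finset.sum_nonneg fun t _ => mul_nonneg hM (hm0 v t),
    ← ENNReal.ofReal_mul hK, ← ENNReal.ofReal_add
      (Finset.sum_nonneg fun v _ => Finset.sum_nonneg fun t _ => mul_nonneg hM (hm0 v t))
      (mul_nonneg hK (by positivity))]
  refine ENNReal.ofReal_le_ofReal (le_trans (add_le_add ?_ le_rfl) (h.high_num hM hMd))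
  simp only [← Finset.mul_sum, Finset.sum_add_distrib, Finset.sum_const, Finset.card_univ,
    Fintype.card_fin, nsmul_eq_mul, ← Finset.sum_mul]
  refine mul_le_mul_of_nonneg_left (add_le_add ?_
    (mul_le_mul_of_nonneg_right hc (Real.exp_pos _).le)) hM
  refine (mul_le_mul_of_nonneg_left ((sum_leaf_mass_le hΦ h0 h1 c S hS hdis).trans (hwin k hk))
    (by positivity)).trans (le_of_eq ?_)
  have : √(d:ℝ) ^ k ≠ 0 := pow_ne_zero _ (Real.sqrt_pos.2 (by linarith [h.one_le_d])).ne'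
  simp only [a]
  field_simp

end Vale.Agent.P309.Sharp
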