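import Vale.Agent.P309.Sharp.StepCore
import Vale.Agent.P309.Sharp.StepAux

/-! One phase. -/

namespace Vale.Agent.P309.Sharp

open MeasureTheory ProbabilityTheory Filter
open scoped RealInnerProductSpace Real ENNReal

variable {d k : ℕ} {C₀ X : ℝ}

/-- One node against the future: its children, its window error and its kernel error. -/
lemma one_node_le {P : Piece d} {B : Vec d ≃ₗ[ℝ] Vec d} {ρ : ℝ} (cl : Clip P B ρ) (hρ : 0 ≤ ρ)
    (hρ1 : ρ < 1) (hC : ∀ y, ‖cl.C y‖ ≤ ρ * ‖y‖) {f : Vec d → ℝ} (hf : Measurable f)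
    {φ : Vec d → ℝ≥0∞} (hφm : Measurable φ) (hφ : ∀ u, φ u ≤ 1) {Z : ℝ} (hZ : 0 ≤ Z)
    (hfin : ∀ a, childW X f cl.C a ≠ ⊤)
    (hnext : ∀ a, ∫⁻ y, ENNReal.ofReal |childFn X f cl.C a y|
        * φ ((cl.piece a).μ + (cl.piece a).A y) ∂gw (cl.piece a).base
      ≤ ENNReal.ofReal ((childW X f cl.C a).toReal * Z)) :
    ∫⁻ g, ENNReal.ofReal |f g| * φ (P.μ + P.A g) ∂gw P.base
      ≤ ENNReal.ofReal Z * (∫⁻ a, mixW cl.C a * childW X f cl.C a)
        + ((∫⁻ a, mixW cl.C a * ∫⁻ y, ENNReal.ofReal |f (a + cl.C y) - childWin X f cl.C a y|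
              ∂gw (child P.base a cl.C))
          + ∫⁻ a, mixW cl.C a * ∫⁻ y, ENNReal.ofReal |childWin X f cl.C a y - childFn X f cl.C a y|
              ∂gw (child P.base a cl.C)) := by
  have hCm := measurable_equiv cl.C
  have hmu : Measurable fun g => φ (P.μ + P.A g) :=
    hφm.comp (measurable_const.add (measurable_equiv P.A))
  rw [← mix_total P.base hρ hρ1 hC (f := fun g => ENNReal.ofReal |f g| * φ (P.μ + P.A g))
    (hf.abs.ennreal_ofReal.mul hmu)]
  have m0 : Measurable fun q : Vec d × Vec d => f (q.1 + cl.C q.2) :=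
    hf.comp (measurable_fst.add (hCm.comp measurable_snd))
  have m1 := measurable_childWin (X := X) hf cl.C
  have m2 := measurable_childFn (X := X) hf cl.C
  set T : Vec d → Vec d → ℝ≥0∞ := fun a y => ENNReal.ofReal |f (a + cl.C y) - childWin X f cl.C a y|
  set K : Vec d → Vec d → ℝ≥0∞ := fun a y =>
    ENNReal.ofReal |childWin X f cl.C a y - childFn X f cl.C a y|
  have hT : Measurable (Function.uncurry T) := (m0.sub m1).abs.ennreal_ofReal
  have hK : Measurable (Function.uncurry K) := (m1.sub m2).abs.ennreal_ofReal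
  have key : ∀ a, ∫⁻ y, ENNReal.ofReal |f (a + cl.C y)| * φ (P.μ + P.A (a + cl.C y))
        ∂gw (child P.base a cl.C)
      ≤ ENNReal.ofReal Z * childW X f cl.C a
        + ((∫⁻ y, T a y ∂gw (child P.base a cl.C)) + ∫⁻ y, K a y ∂gw (child P.base a cl.C)) := by
    intro a
    have hm : Measurable fun y => ENNReal.ofReal |childFn X f cl.C a y|
        * φ ((cl.piece a).μ + (cl.piece a).A y) :=
      (m2.comp measurable_prodMk_left).abs.ennreal_ofReal.mul
        (hφm.comp (measurable_const.add (measurable_equiv _)))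
    have hTa : Measurable fun y => T a y := hT.comp measurable_prodMk_left
    refine (lintegral_mono (g := fun y => (ENNReal.ofReal |childFn X f cl.C a y|
      * φ ((cl.piece a).μ + (cl.piece a).A y)) + (T a y + K a y)) fun y => ?_).trans ?_
    · have e : P.μ + P.A (a + cl.C y) = (cl.piece a).μ + (cl.piece a).A y := by
        rw [map_add, ← add_assoc]
        rfl
      rw [e]
      refine le_trans (b := (ENNReal.ofReal |childFn X f cl.C a y| + (T a y + K a y))
        * φ ((cl.piece a).μ + (cl.piece a).A y)) (mul_le_mul' ?_ le_rfl) ?_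
      · simp only [T, K]
        rw [← ENNReal.ofReal_add (abs_nonneg _) (abs_nonneg _),
          ← ENNReal.ofReal_add (abs_nonneg _) (by positivity)]
        refine ENNReal.ofReal_le_ofReal ?_
        have h1 := abs_sub_le (f (a + cl.C y)) (childWin X f cl.C a y) (childFn X f cl.C a y)
        have h2 := abs_add_le (childFn X f cl.C a y) (f (a + cl.C y) - childFn X f cl.C a y)
        rw [add_sub_cancel] at h2
        linarith
      · rw [add_mul]
        exact add_le_add le_rfl (mul_le_of_le_one_right' (hφ _))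
    · rw [lintegral_add_left hm, lintegral_add_left hTa]
      refine add_le_add ?_ le_rfl
      rw [← cl.base_piece a]
      refine (hnext a).trans (le_of_eq ?_)
      rw [ENNReal.ofReal_mul' hZ, ENNReal.ofReal_toReal (hfin a), mul_comm]
  refine (lintegral_mono fun a => mul_le_mul_right (key a) _).trans (le_of_eq ?_)
  have n1 : Measurable fun a => ENNReal.ofReal Z * (mixW cl.C a * childW X f cl.C a) :=
    ((measurable_mixW cl.C).mul (measurable_childW hf cl.C)).const_mul _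
  have n2 : Measurable fun a => mixW cl.C a * ∫⁻ y, T a y ∂gw (child P.base a cl.C) :=
    (measurable_mixW cl.C).mul (measurable_child_lintegral P.base cl.C hT)
  simp only [mul_add, mul_left_comm (mixW cl.C _) (ENNReal.ofReal Z)]
  rw [lintegral_add_left n1, lintegral_add_left n2, lintegral_const_mul' _ _ ENNReal.ofReal_ne_top]

/-- One phase at fixed parameters, given the tree and its high parts. -/
theorem step_core (h : Big C₀ X d) {N : ℕ} {P : Piece d}
    (hP' : ∀ P' : Piece d, P.ratio * Real.exp (-Gs C₀ X d) ≤ P'.ratio → 1 / P'.δ ^ 2 ≤ Real.exp d)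
    {Φ : Fin N → (Fin k → Vec d) → Vec k → ℝ} (hΦ : ∀ v, Measurable (Function.uncurry (Φ v)))
    (h0 : ∀ v x y, 0 ≤ Φ v x y) (h1 : ∀ x y, ∑ v, Φ v x y ≤ 1)
    {G : Set (Fin k → Vec d)} (hG : MeasurableSet G) (hGR : ∀ x ∈ G, ∀ ζ, ‖comb x ζ‖ ≤ Rop X d * ‖ζ‖)
    (hbad : rowsLaw d k Gᶜ ≤ ENNReal.ofReal (Real.exp (-(X ^ 4 * d / 20))))
    {c : Fin N → ℕ} {i : (v : Fin N) → Fin (c v) → ℕ}
    {W : (v : Fin N) → (t : Fin (c v)) → Fin (i v t) → Vec d}
    {S : (v : Fin N) → Fin (c v) → Set (Fin k → Vec d)}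
    (hS : ∀ v t, MeasurableSet (S v t)) (hd : ∀ v, Pairwise fun s t => Disjoint (S v s) (S v t))
    (hpv : ∀ v t, Real.exp (-(2 * gP C₀ * d)) ≤ pickVol (W v t))
    (hlost : ∑ v, ∫⁻ g, ENNReal.ofReal (nodeFn P.A P.δ (Φ v) (Rwin X d) (G \ ⋃ t, S v t) g) ∂gw P.base
      ≤ ENNReal.ofReal (Real.exp (-(X ^ 3 * d / 4))))
    (hhigh : ∀ (σ₀ : Measure (Vec d)) [IsFiniteMeasure (gw σ₀)] (v₀ : Vec d) (M : ℝ),
      Base σ₀ v₀ M → M ≤ Real.exp d →
      ∑ v, ∑ t, ∫⁻ g, ENNReal.ofReal |nodeFn P.A P.δ (Φ v) (Rwin X d) (S v t) g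
          - lowFn (W v t) (RW X d) (Rcut X d) (nodeFn P.A P.δ (Φ v) (Rwin X d) (S v t)) g| ∂gw σ₀
        ≤ ENNReal.ofReal (Real.exp (-(X ^ 3 * d / 4))))
    {Ψ : Fin N → Vec d → ℝ≥0∞} (hΨm : ∀ v, Measurable (Ψ v)) (hΨ : ∀ v u, Ψ v u ≤ 1) {Z : ℝ} (hZ : 0 ≤ Z)
    (hnext : ∀ P' : Piece d, P.ratio * Real.exp (-Gs C₀ X d) ≤ P'.ratio →
      ∀ (L : Vec d → ℝ) (W : ℝ), Wgt X P' L W → ∀ v,
        ∫⁻ g, ENNReal.ofReal |L g| * Ψ v (P'.μ + P'.A g) ∂gw P'.base ≤ ENNReal.ofReal (W * Z))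
    {L : Vec d → ℝ} {W₀ : ℝ} (hW : Wgt X P L W₀) :
    ∫⁻ g, ENNReal.ofReal |L g| * ∑ v, (∫⁻ x, ENNReal.ofReal (Φ v x (labs P.A P.δ x g)) ∂rowsLaw d k)
        * Ψ v (P.μ + P.A g) ∂gw P.base
      ≤ ENNReal.ofReal (W₀ * ((1 + Real.exp (-(5 * d))) * Z + Real.exp (-(5 * d)))) := by
  classical
  have hd64 := h.d_ge_two
  have hd32 : 32 ≤ d := by omega
  have hexp1 : Real.exp (-Gs C₀ X d) ≤ 1 := Real.exp_le_one_iff.2 (by
    have : 0 ≤ gP C₀ := by unfold gP; linarith [h.one_le]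
    have := pow_pos h.X_pos 4
    unfold Gs
    nlinarith [Nat.cast_nonneg (α := ℝ) d])
  have hratio0 : 0 ≤ P.ratio := by unfold Piece.ratio; have := P.δpos; positivity
  have hPM : 1 / P.δ ^ 2 ≤ Real.exp d := hP' P (mul_le_of_le_one_right hratio0 hexp1)
  have hBP : Base P.base P.v (1 / P.δ ^ 2) := P.base_spec hd32
  -- the leaves
  let ι := Σ v : Fin N, Fin (c v)
  set F : ι → Vec d → ℝ := fun t => nodeFn P.A P.δ (Φ t.1) (Rwin X d) (S t.1 t.2)
  have hF : ∀ t, Measurable (F t) := fun t => measurable_nodeFn0 (hΦ t.1) _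
  have hF0 : ∀ t g, 0 ≤ F t g := fun t g => nodeFn_nonneg (h0 t.1) _ g
  have hF1 : ∀ g, ∑ t, F t g ≤ 1 := fun g => by
    rw [Fintype.sum_sigma]
    exact sum_nodeFn_le hΦ h0 h1 c S hS hd g
  have hρ0 : 0 < rhoC X := Real.exp_pos _
  set cl : (t : ι) → Clip P (precond (W t.1 t.2)) (rhoC X) := fun t =>
    (exists_clip P (by omega) (precond (W t.1 t.2)) (norm_precond_le_self _) hρ0 h.rhoC_lt.le).some
  set C : ι → (Vec d ≃ₗ[ℝ] Vec d) := fun t => (cl t).C
  have hC : ∀ t y, ‖C t y‖ ≤ rhoC X * ‖y‖ := fun t => (cl t).norm_le (norm_precond_le_self _)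
  have hBC : ∀ t ξ, ‖LinearMap.adjoint
      (((precond (W t.1 t.2)).symm : Vec d →ₗ[ℝ] Vec d) ∘ₗ (C t : Vec d →ₗ[ℝ] Vec d)) ξ‖
        ≤ rhoC X * ‖ξ‖ := fun t => (cl t).adjoint_le hρ0.le
  have hR : ∀ t a, P.ratio * Real.exp (-Gs C₀ X d) ≤ ((cl t).piece a).ratio := fun t a => by
    refine le_trans (mul_le_mul_of_nonneg_left ?_ hratio0) ((cl t).ratio_piece a)
    rw [← pickVol_eq, rhoC, ← Real.exp_nat_mul]
    refine le_trans (le_of_eq ?_) (mul_le_mul_of_nonneg_left (hpv t.1 t.2) (Real.exp_pos _).le)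
    rw [← Real.exp_add, Gs]
    ring_nf
  have hLm : Measurable L := hW.band.continuous.measurable
  set U := Real.exp (3 * X ^ 2 * d) * W₀
  have hW0 := hW.nonneg
  have hU : 0 ≤ U := by positivity
  set f : ι → Vec d → ℝ := fun t g => L g * F t g
  have hfm : ∀ t, Measurable (f t) := fun t => hLm.mul (hF t)
  have hfU : ∀ t g, |f t g| ≤ U := fun t g => by
    simp only [f, abs_mul]
    exact (mul_le_of_le_one_right (abs_nonneg _) (part_le_one hF0 hF1 t g)).trans (hW.band.abs_le g)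
  have hwgt : ∀ t a, childW X (f t) (C t) a ≠ ⊤ ∧
      Wgt X ((cl t).piece a) (childFn X (f t) (C t) a) (childW X (f t) (C t) a).toReal :=
    fun t a => child_wgt h hd32 (hfm t) (hfU t) _ (hP' _ (hR t a)) a
  have hh := hhigh P.base P.v _ hBP hPM
  have hhN := hhigh (volume : Measure (Vec d)) P.v 1 (base_volume hd32 _)
    (Real.one_le_exp (Nat.cast_nonneg d))
  rw [gw_volume] at hhN
  rw [← Fintype.sum_sigma' (fun v t => ∫⁻ g, ENNReal.ofReal |nodeFn P.A P.δ (Φ v) (Rwin X d) (S v t) g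
          - lowFn (W v t) (RW X d) (Rcut X d) (nodeFn P.A P.δ (Φ v) (Rwin X d) (S v t)) g| ∂gw P.base)]
    at hh
  rw [← Fintype.sum_sigma' (fun v t => ∫⁻ g, ENNReal.ofReal |nodeFn P.A P.δ (Φ v) (Rwin X d) (S v t) g
          - lowFn (W v t) (RW X d) (Rcut X d) (nodeFn P.A P.δ (Φ v) (Rwin X d) (S v t)) g|
          ∂stdGaussian (Vec d))] at hhN
  set ε₈ := Real.exp (-(8 * (d:ℝ)))
  -- window and kernel errors
  have hcut := cut_total (C₀ := C₀) hF hF0 hF1 hBP hPM hW0 hW.band hW.base hC h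
  have hfinP : ∀ t a, IsFiniteMeasure (gw (child P.base a (C t))) := fun t a => by
    rw [← (cl t).base_piece a]; infer_instance
  have hkeep := keep_total (C₀ := C₀) (M' := Real.exp d) hF hF0 hF1 hW0 hW.band hW.base hC
    (i := fun t => i t.1 t.2) (W := fun t => W t.1 t.2) (fun t => hpv t.1 t.2) hBC (Real.exp_pos _).le
    le_rfl (v' := fun t a => ((cl t).piece a).v)
    (fun t a => by
      have := (((cl t).piece a).base_spec hd32).mono (hP' _ (hR t a))
      rwa [(cl t).base_piece a] at this) h hh hhN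
  -- ambient kernel error
  have hfinV : ∀ t a, IsFiniteMeasure (gw (child (volume : Measure (Vec d)) a (C t))) := fun t a => by
    rw [child_volume]; infer_instance
  have hgauss : ∫⁻ g, ENNReal.ofReal |L g| ∂gw (volume : Measure (Vec d))
      ≤ ENNReal.ofReal (Real.exp (2 * X * d) * W₀) := by
    rw [gw_volume]
    refine hW.gauss.trans (ENNReal.ofReal_le_ofReal (le_mul_of_one_le_left hW0 (Real.one_le_exp ?_)))
    have := h.X_pos
    positivity
  have hkeepN := keep_total (C₀ := C₀) (σ₀ := (volume : Measure (Vec d))) (M' := Real.exp d) hF hF0 hF1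
    hW0 hW.band hgauss hC (i := fun t => i t.1 t.2) (W := fun t => W t.1 t.2) (fun t => hpv t.1 t.2)
    hBC (Real.exp_pos _).le le_rfl (v' := fun _ _ => P.v)
    (fun t a => by
      rw [child_volume]
      exact (base_volume hd32 _).mono (Real.one_le_exp (Nat.cast_nonneg d)))
    h (by rw [gw_volume]; exact hhN) hhN
  simp only [child_volume, gw_volume] at hkeepN
  -- weights of the children
  have hweights : ∑ t, ∫⁻ a, mixW (C t) a * childW X (f t) (C t) a
      ≤ ENNReal.ofReal ((1 + ε₈) * W₀) := by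
    simp only [childW, mul_add]
    have hm : ∀ t, Measurable fun a => mixW (C t) a
        * ∫⁻ y, ENNReal.ofReal |childWin X (f t) (C t) a y| ∂stdGaussian (Vec d) := fun t =>
      (measurable_mixW _).mul
        (measurable_childWin (X := X) (hfm t) (C t)).abs.ennreal_ofReal.lintegral_prod_right'
    simp only [lintegral_add_left (hm _), Finset.sum_add_distrib]
    rw [add_mul, one_mul, ENNReal.ofReal_add hW0 (by positivity)]
    refine add_le_add ?_ hkeepN
    refine le_trans (Finset.sum_le_sum fun t _ => ?_)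
      ((sum_parts_le hF hF0 hF1 hLm (stdGaussian (Vec d))).trans hW.gauss)
    rw [← mix_gauss hρ0.le h.rhoC_lt (hC t) (f := fun g => ENNReal.ofReal |f t g|)
      (hfm t).abs.ennreal_ofReal]
    exact lintegral_mono fun a => mul_le_mul_right (lintegral_mono fun y =>
      ENNReal.ofReal_le_ofReal (abs_winFn_le (u := fun z => f t (a + C t z)) y)) _
  -- main part
  have hmain : ∑ t : ι, ∫⁻ g, ENNReal.ofReal |f t g| * Ψ t.1 (P.μ + P.A g) ∂gw P.base
      ≤ ENNReal.ofReal (Z * ((1 + ε₈) * W₀) + (ε₈ * W₀ + ε₈ * W₀)) := by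
    refine (Finset.sum_le_sum fun t _ => one_node_le (X := X) (cl t) hρ0.le h.rhoC_lt (hC t) (hfm t)
      (hΨm t.1) (hΨ t.1) hZ (fun a => (hwgt t a).1) fun a =>
        hnext _ (hR t a) _ _ (hwgt t a).2 t.1).trans ?_
    rw [ENNReal.ofReal_add (by positivity) (by positivity), ENNReal.ofReal_mul hZ,
      ENNReal.ofReal_add (by positivity) (by positivity)]
    simp only [Finset.sum_add_distrib, ← Finset.mul_sum]
    exact add_le_add (mul_le_mul_right hweights _) (add_le_add hcut hkeep)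
  -- the rest
  have hpt : ∀ g, ENNReal.ofReal |L g|
      * ∑ v, (∫⁻ x, ENNReal.ofReal (Φ v x (labs P.A P.δ x g)) ∂rowsLaw d k) * Ψ v (P.μ + P.A g)
      ≤ ∑ t : ι, ENNReal.ofReal |f t g| * Ψ t.1 (P.μ + P.A g)
        + (ENNReal.ofReal U
            * ∑ v, ENNReal.ofReal (nodeFn P.A P.δ (Φ v) (Rwin X d) (G \ ⋃ t, S v t) g)
          + (ENNReal.ofReal |L g| * rowsLaw d k Gᶜ
            + ENNReal.ofReal U * (farSet d (Rcut X d)).indicator 1 g)) := by
    intro g
    refine (mul_le_mul_right (cover_le hΦ h0 h1 (Ry := Rwin X d) P.δpos P.norm_le (R := Rop X d) (Rc := Rcut X d)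
      (by unfold Rop; have := h.X_pos; positivity) (le_of_eq ?_) hG hGR c S
      (fun v => Ψ v (P.μ + P.A g)) (fun v => hΨ v _) g) _).trans ?_
    · rw [abs_of_nonneg (by unfold Rcut; have := h.X_pos; positivity)]
      simp only [Rop, Rcut, Rwin]
      rw [show X ^ 2 * √d * (X ^ 4 * √d) = X ^ 6 * (√d * √d) by ring,
        Real.mul_self_sqrt (Nat.cast_nonneg d)]
    have hLU : ENNReal.ofReal |L g| ≤ ENNReal.ofReal U := ENNReal.ofReal_le_ofReal (hW.band.abs_le g)
    simp only [mul_add, add_assoc]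
    refine add_le_add (le_of_eq ?_) (add_le_add (mul_le_mul_left hLU _) (add_le_add le_rfl
      (mul_le_mul_left hLU _)))
    rw [Fintype.sum_sigma, Finset.mul_sum]
    refine Finset.sum_congr rfl fun v _ => ?_
    rw [Finset.mul_sum]
    refine Finset.sum_congr rfl fun t _ => ?_
    simp only [f, F]
    rw [abs_mul, abs_of_nonneg (nodeFn_nonneg (h0 v) _ g), ENNReal.ofReal_mul (abs_nonneg _), mul_assoc]
  refine (lintegral_mono hpt).trans ?_
  have hm1 : ∀ t : ι, Measurable fun g => ENNReal.ofReal |f t g| * Ψ t.1 (P.μ + P.A g) := fun t =>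
    (hfm t).abs.ennreal_ofReal.mul ((hΨm t.1).comp (measurable_const.add (measurable_equiv P.A)))
  have hm2 : ∀ v, Measurable fun g =>
      ENNReal.ofReal (nodeFn P.A P.δ (Φ v) (Rwin X d) (G \ ⋃ t, S v t) g) := fun v =>
    (measurable_nodeFn0 (hΦ v) _).ennreal_ofReal
  rw [lintegral_add_left (Finset.measurable_sum _ fun t _ => hm1 t),
    lintegral_finsetSum _ fun t _ => hm1 t,
    lintegral_add_left ((Finset.measurable_sum _ fun v _ => hm2 v).const_mul _),
    lintegral_const_mul' _ _ ENNReal.ofReal_ne_top, lintegral_finsetSum _ fun v _ => hm2 v,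
    lintegral_add_left (hLm.abs.ennreal_ofReal.mul_const _),
    lintegral_mul_const _ hLm.abs.ennreal_ofReal, lintegral_const_mul' _ _ ENNReal.ofReal_ne_top,
    lintegral_indicator_one (measurableSet_farSet d _)]
  refine (add_le_add hmain (add_le_add (mul_le_mul_right hlost _)
    (add_le_add (mul_le_mul' hW.base hbad) (mul_le_mul_right (hBP.tail _) _)))).trans ?_
  rw [← ENNReal.ofReal_mul hU, ← ENNReal.ofReal_mul (by positivity), ← ENNReal.ofReal_mul hU,
    ← ENNReal.ofReal_add (by positivity) (by positivity),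
    ← ENNReal.ofReal_add (by positivity) (by positivity),
    ← ENNReal.ofReal_add (by positivity) (by positivity)]
  refine ENNReal.ofReal_le_ofReal ?_
  -- arithmetic
  obtain ⟨s1, s2, s3, s4, s5, s6, s7, s8⟩ := h.sizes
  have hX := h.X_large
  have hd1 := h.one_le_d
  have hRc : Rcut X d ^ 2 = X ^ 8 * d := by
    rw [Rcut, mul_pow, Real.sq_sqrt (Nat.cast_nonneg d)]
    ring
  have r1 : Real.exp (3 * X ^ 2 * d) * Real.exp (-(X ^ 3 * d / 4)) ≤ ε₈ := by
    rw [← Real.exp_add]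
    refine Real.exp_le_exp.2 ?_
    nlinarith [mul_le_mul_of_nonneg_right (show 8 + 3 * X ^ 2 ≤ X ^ 3 / 4 by linarith)
      (Nat.cast_nonneg (α := ℝ) d)]
  have r2 : Real.exp (2 * X * d) * Real.exp (-(X ^ 4 * d / 20)) ≤ ε₈ := by
    rw [← Real.exp_add]
    refine Real.exp_le_exp.2 ?_
    nlinarith [mul_le_mul_of_nonneg_right (show 8 + 2 * X ≤ X ^ 4 / 20 by linarith)
      (Nat.cast_nonneg (α := ℝ) d)]
  have r3 : Real.exp (3 * X ^ 2 * d) * (√2 ^ d * Real.exp (-Rcut X d ^ 2 / 4) * (1 / P.δ ^ 2))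
      ≤ ε₈ := by
    refine (mul_le_mul_of_nonneg_left (mul_le_mul (mul_le_mul_of_nonneg_right h.sqrt_two_pow_le
      (Real.exp_pos _).le) hPM (by positivity) (by positivity)) (Real.exp_pos _).le).trans ?_
    rw [← Real.exp_add, ← Real.exp_add, ← Real.exp_add, hRc]
    refine Real.exp_le_exp.2 ?_
    nlinarith [mul_le_mul_of_nonneg_right (show 8 + 3 * X ^ 2 + 2 ≤ X ^ 8 / 4 by linarith)
      (Nat.cast_nonneg (α := ℝ) d)]
  have r5 : 5 * ε₈ ≤ Real.exp (-(5 * (d:ℝ))) := by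
    refine (mul_le_mul_of_nonneg_right (show (5:ℝ) ≤ Real.exp (3 * d) by
      have := Real.quadratic_le_exp_of_nonneg (show (0:ℝ) ≤ 3 * d by positivity)
      nlinarith) (Real.exp_pos _).le).trans (le_of_eq ?_)
    rw [← Real.exp_add]
    ring_nf
  have r8 : ε₈ ≤ Real.exp (-(5 * (d:ℝ))) := by
    linarith [show 0 < ε₈ from Real.exp_pos _]
  simp only [U]
  nlinarith [mul_le_mul_of_nonneg_right r1 hW0, mul_le_mul_of_nonneg_right r2 hW0,
    mul_le_mul_of_nonneg_right r3 hW0, mul_le_mul_of_nonneg_right r5 hW0,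
    mul_le_mul_of_nonneg_right (mul_le_mul_of_nonneg_left r8 hZ) hW0]

/-- One phase. -/
theorem step {C₀ : ℝ} (hC₀ : 1 ≤ C₀) :
    ∀ᶠ X : ℝ in atTop, ∀ᶠ d : ℕ in atTop, ∀ k : ℕ, k = d / 64 →
    ∀ N : ℕ, (N:ℝ) ≤ Real.exp (C₀ * d ^ 2) →
    ∀ P : Piece d,
      (∀ P' : Piece d, P.ratio * Real.exp (-Gs C₀ X d) ≤ P'.ratio → 1 / P'.δ ^ 2 ≤ Real.exp d) →
    ∀ (B : (Fin k → Vec d) → (Fin k → ℝ) → Fin N → ℝ≥0∞),
      (∀ v, Measurable fun q : (Fin k → Vec d) × (Fin k → ℝ) => B q.1 q.2 v) →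
      (∀ x y, ∑ v, B x y v ≤ 1) →
    ∀ (Ψ : Fin N → Vec d → ℝ≥0∞), (∀ v, Measurable (Ψ v)) → (∀ v u, Ψ v u ≤ 1) →
    ∀ Z : ℝ, 0 ≤ Z →
      (∀ P' : Piece d, P.ratio * Real.exp (-Gs C₀ X d) ≤ P'.ratio →
        ∀ (L : Vec d → ℝ) (W : ℝ), Wgt X P' L W → ∀ v,
          ∫⁻ g, ENNReal.ofReal |L g| * Ψ v (P'.μ + P'.A g) ∂gw P'.base ≤ ENNReal.ofReal (W * Z)) →
    ∀ (L : Vec d → ℝ) (W : ℝ), Wgt X P L W →
      ∫⁻ g, ENNReal.ofReal |L g| * ∑ v, (∫⁻ x, B x (labels x (P.μ + P.A g)) v ∂rowsLaw d k)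
          * Ψ v (P.μ + P.A g) ∂gw P.base
        ≤ ENNReal.ofReal (W * ((1 + Real.exp (-(5 * d))) * Z + Real.exp (-(5 * d)))) := by
  filter_upwards [eventually_big hC₀, exists_tree hC₀, high_total hC₀] with X hb ht hh
  filter_upwards [hb, ht, hh] with d hb ht hh
  intro k hk N hN P hP' B hBm hB1 Ψ hΨm hΨ Z hZ hnext L W hW
  have hratio0 : 0 ≤ P.ratio := by unfold Piece.ratio; have := P.δpos; positivity
  have hPM : 1 / P.δ ^ 2 ≤ Real.exp d := hP' P (mul_le_of_le_one_right hratio0 (Real.exp_le_one_iff.2 (by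
    have : 0 ≤ gP C₀ := by unfold gP; linarith
    have := pow_pos hb.X_pos 4
    unfold Gs
    nlinarith [Nat.cast_nonneg (α := ℝ) d])))
  set y₀ : (Fin k → Vec d) → Vec k → Fin k → ℝ := fun x y l => ⟪x l, P.μ⟫ + P.δ * y l
  set Φ : Fin N → (Fin k → Vec d) → Vec k → ℝ := fun v x y => (B x (y₀ x y) v).toReal
  have hy : Measurable fun q : (Fin k → Vec d) × Vec k => (q.1, y₀ q.1 q.2) := by
    refine measurable_fst.prodMk (measurable_pi_lambda _ fun l => ?_)
    exact ((continuous_inner.measurable.comp (((measurable_pi_apply l).comp measurable_fst).prodMk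
      measurable_const))).add
      ((((PiLp.continuous_apply 2 (fun _ : Fin k => ℝ) l).measurable).comp
        (measurable_snd (α := Fin k → Vec d) (β := Vec k))).const_mul P.δ)
  have hΦ : ∀ v, Measurable (Function.uncurry (Φ v)) := fun v => by
    have h1 := ((hBm v).comp hy).ennreal_toReal
    exact h1
  have hle : ∀ x y v, B x y v ≤ 1 := fun x y v =>
    (Finset.single_le_sum (fun u _ => zero_le) (Finset.mem_univ v)).trans (hB1 x y)
  have h0 : ∀ v x y, 0 ≤ Φ v x y := fun v x y => ENNReal.toReal_nonneg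
  have h1 : ∀ x y, ∑ v, Φ v x y ≤ 1 := fun x y => by
    simp only [Φ]
    rw [← ENNReal.toReal_sum fun v _ => ((hle _ _ v).trans_lt ENNReal.one_lt_top).ne]
    simpa using ENNReal.toReal_mono ENNReal.one_ne_top (hB1 x (y₀ x y))
  obtain ⟨G, c, i, Wp, S, hG, hGR, hbad, hcount, hi, hpv, hS, hdisj, hterm, hlost⟩ :=
    ht k hk N hN P hPM Φ hΦ h0 h1
  have key : ∀ g x v, B x (labels x (P.μ + P.A g)) v
      = ENNReal.ofReal (Φ v x (labs P.A P.δ x g)) := by
    intro g x v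
    have e : y₀ x (labs P.A P.δ x g) = labels x (P.μ + P.A g) := by
      funext l
      simp only [y₀, labs, labels, inner_add_right, inner_hat]
      rw [← mul_assoc, mul_inv_cancel₀ P.δpos.ne', one_mul]
    simp only [Φ, e]
    rw [ENNReal.ofReal_toReal ((hle _ _ v).trans_lt ENNReal.one_lt_top).ne]
  simp only [key]
  exact step_core hb hP' hΦ h0 h1 hG hGR hbad hS hdisj hpv hlost
    (fun σ₀ _ v₀ M hB hM => hh k hk P σ₀ v₀ M hB hM N Φ hΦ h0 h1 c i Wp S hcount hi hpv hS hdisj hterm)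
    hΨm hΨ hZ hnext hW

end Vale.Agent.P309.Sharp
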