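import Vale.Agent.P309.Sharp.Totals
import Vale.Agent.P309.Sharp.Ends
import Vale.Agent.P309.Phase

/-! The children of one node and their weights. -/

namespace Vale.Agent.P309.Sharp

open MeasureTheory ProbabilityTheory
open scoped RealInnerProductSpace Real ENNReal

variable {d k : ℕ} {C₀ X : ℝ}

lemma Base.mono {σ₀ : Measure (Vec d)} {v : Vec d} {M M' : ℝ} (hB : Base σ₀ v M) (hM : M ≤ M') :
    Base σ₀ v M' := by
  refine ⟨hB.nonneg.trans hM, ⟨hB.dec.1.trans (ENNReal.ofReal_le_ofReal hM), fun ξ =>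
    (hB.dec.2 ξ).trans (mul_le_mul_of_nonneg_right hM (by positivity))⟩, ?_, ?_, ?_⟩
  · intro i hi W x
    exact (hB.bumpW i hi W x).trans (ENNReal.ofReal_le_ofReal
      (mul_le_mul_of_nonneg_right hM (Real.exp_pos _).le))
  · intro σ hσ hσ1 z
    refine (hB.bump σ hσ hσ1 z).trans (ENNReal.ofReal_le_ofReal ?_)
    gcongr
  · intro R
    refine (hB.tail R).trans (ENNReal.ofReal_le_ofReal ?_)
    gcongr

section measurable

variable {f : Vec d → ℝ} (hf : Measurable f) (C : Vec d ≃ₗ[ℝ] Vec d)

include hf in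
lemma measurable_childWin :
    Measurable fun q : Vec d × Vec d => childWin X f C q.1 q.2 := by
  have hCm := measurable_equiv C
  have h1 : Measurable fun q : Vec d × Vec d =>
      chi (sigC X) (radC X d) q.2 * f (q.1 + C q.2) :=
    ((measurable_chi _ _).comp measurable_snd).mul
      (hf.comp (measurable_fst.add (hCm.comp measurable_snd)))
  have h2 : MeasurableSet {q : Vec d × Vec d | ‖q.2‖ ≤ 2 * radC X d} :=
    measurableSet_le measurable_snd.norm measurable_const
  have h3 := h1.indicator h2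
  exact h3

include hf in
lemma measurable_childFn :
    Measurable fun q : Vec d × Vec d => childFn X f C q.1 q.2 := by
  have a1 : Measurable fun p : (Vec d × Vec d) × Vec d => p.1.2 - p.2 :=
    (measurable_snd.comp measurable_fst).sub measurable_snd
  have a2 : Measurable fun p : (Vec d × Vec d) × Vec d => (p.1.1, p.2) :=
    (measurable_fst.comp measurable_fst).prodMk measurable_snd
  have a3 := (measurable_kerK (d := d) (sigK X) (radK X d)).comp a1
  have a4 := (measurable_childWin (X := X) hf C).comp a2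
  have h1 : Measurable fun p : (Vec d × Vec d) × Vec d =>
      kerK (sigK X) (radK X d) (p.1.2 - p.2) * childWin X f C p.1.1 p.2 := a3.mul a4
  have h2 := (h1.stronglyMeasurable.integral_prod_right' (ν := (volume : Measure (Vec d)))).measurable
  exact h2

/-- The weight of a child at a shift, as an extended real. -/
noncomputable def childW (X : ℝ) (f : Vec d → ℝ) (C : Vec d ≃ₗ[ℝ] Vec d) (a : Vec d) : ℝ≥0∞ :=
  (∫⁻ y, ENNReal.ofReal |childWin X f C a y| ∂stdGaussian (Vec d))
    + ∫⁻ y, ENNReal.ofReal |childWin X f C a y - childFn X f C a y| ∂stdGaussian (Vec d)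

include hf in
lemma measurable_childW : Measurable (childW X f C) := by
  have h1 : Measurable fun q : Vec d × Vec d => ENNReal.ofReal |childWin X f C q.1 q.2| := by
    have := measurable_childWin (X := X) hf C
    fun_prop
  have h2 : Measurable fun q : Vec d × Vec d =>
      ENNReal.ofReal |childWin X f C q.1 q.2 - childFn X f C q.1 q.2| := by
    have := measurable_childWin (X := X) hf C
    have := measurable_childFn (X := X) hf C
    fun_prop
  exact h1.lintegral_prod_right'.add h2.lintegral_prod_right'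

end measurable

variable {f : Vec d → ℝ} {U : ℝ} {C : Vec d ≃ₗ[ℝ] Vec d}

/-- The weight of a child is admissible. -/
theorem child_wgt (h : Big C₀ X d) (hd : 32 ≤ d) (hf : Measurable f) (hU : ∀ g, |f g| ≤ U)
    (P' : Piece d) (hP' : 1 / P'.δ ^ 2 ≤ Real.exp d) (a : Vec d) :
    childW X f C a ≠ ⊤ ∧ Wgt X P' (childFn X f C a) (childW X f C a).toReal := by
  set G := childWin X f C a
  set u : Vec d → ℝ := fun z => f (a + C z)
  have hu : Measurable u := hf.comp (measurable_const.add (measurable_equiv C))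
  have hGm : Measurable G := measurable_winFn hu
  have hGi : Integrable G := integrable_winFn hu fun y => hU _
  set E := ∫⁻ y, ENNReal.ofReal |G y| ∂stdGaussian (Vec d)
  have hEle : E ≤ ENNReal.ofReal U := by
    refine (lintegral_mono (g := fun _ => ENNReal.ofReal U) fun y =>
      ENNReal.ofReal_le_ofReal ((abs_winFn_le (u := u) y).trans (hU (a + C y)))).trans ?_
    simp
  have hEtop : E ≠ ⊤ := (hEle.trans_lt ENNReal.ofReal_lt_top).ne
  have hc := coefK_nonneg d (radK X d)
  have hI : ∫ y, |G y| ≤ gaussConst (Vec d) * Real.exp (2 * radC X d ^ 2) * E.toReal := by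
    have h1 := lintegral_winFn_le (σ := sigC X) (r := radC X d) hu
    change ∫⁻ y, ENNReal.ofReal |G y| ≤ _ * E at h1
    rw [← ofReal_integral_eq_lintegral_ofReal hGi.abs (ae_of_all _ fun y => abs_nonneg _)] at h1
    have h2 := ENNReal.toReal_mono (ENNReal.mul_ne_top ENNReal.ofReal_ne_top hEtop) h1
    rwa [ENNReal.toReal_ofReal (integral_nonneg fun y => abs_nonneg _), ENNReal.toReal_mul,
      ENNReal.toReal_ofReal (mul_nonneg gaussConst_pos.le (Real.exp_pos _).le)] at h2
  have hband := band_convK (σ := sigK X) (R := radK X d) (T := X ^ 9 * √d) h.sigK_pos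
    (mul_le_mul_of_nonneg_right (h.pow_le (a := 8) (b := 9) (by norm_num)) (Real.sqrt_nonneg _)) hGi
  have hsup := hband.abs_le
  have hD : ∫⁻ y, ENNReal.ofReal |G y - childFn X f C a y| ∂stdGaussian (Vec d) ≠ ⊤ := by
    refine ((lintegral_mono fun y => ENNReal.ofReal_le_ofReal
      ((abs_sub (G y) (childFn X f C a y)).trans
      (add_le_add ((abs_winFn_le (u := u) y).trans (hU (a + C y))) (hsup y)))).trans_lt ?_).ne
    simp
  have hWtop : childW X f C a ≠ ⊤ := ENNReal.add_ne_top.2 ⟨hEtop, hD⟩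
  set W' := (childW X f C a).toReal
  have hEW : E.toReal ≤ W' := ENNReal.toReal_mono hWtop le_self_add
  have hW0 : 0 ≤ W' := ENNReal.toReal_nonneg
  obtain ⟨s1, s2, s3, s4, s5, s6, s7, s8⟩ := h.sizes
  have hX := h.X_pos
  have hrad : radC X d ^ 2 = X ^ 2 * d := by
    rw [radC, mul_pow, Real.sq_sqrt (Nat.cast_nonneg d)]
  have hMle : coefK d (radK X d) * (∫ y, |G y|) ≤ Real.exp ((X / 4 + 3 + 2 * X ^ 2) * d) * W' := by
    refine (mul_le_mul (h.coefK_pow_le 8) (hI.trans (mul_le_mul_of_nonneg_left hEW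
      (mul_nonneg gaussConst_pos.le (Real.exp_pos _).le))) (integral_nonneg fun y => abs_nonneg _)
      (Real.exp_pos _).le).trans ?_
    rw [← mul_assoc]
    refine mul_le_mul_of_nonneg_right ((mul_le_mul_of_nonneg_left (mul_le_mul_of_nonneg_right
      h.gaussConst_le (Real.exp_pos _).le) (Real.exp_pos _).le).trans (le_of_eq ?_)) hW0
    rw [← Real.exp_add, ← Real.exp_add, hrad]
    push_cast
    ring_nf
  refine ⟨hWtop, hW0, ?_, ?_, ?_⟩
  · refine hband.mono le_rfl (hMle.trans (mul_le_mul_of_nonneg_right (Real.exp_le_exp.2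
      (mul_le_mul_of_nonneg_right (by linarith [h.X_large]) (Nat.cast_nonneg d))) hW0)) ?_
    have hT : X ^ 16 / 16 * d ≤ (sigK X * (X ^ 9 * √d - radK X d)) ^ 2 := by
      have e : sigK X * (X ^ 9 * √d - radK X d) = (X ^ 8 * ((X - 1) / (2 * X))) * √d := by
        rw [sigK, radK]
        field_simp
      rw [e, mul_pow, mul_pow, Real.sq_sqrt (Nat.cast_nonneg d)]
      refine mul_le_mul_of_nonneg_right ?_ (Nat.cast_nonneg d)
      have h14 : (1:ℝ) / 4 ≤ (X - 1) / (2 * X) := by
        rw [div_le_div_iff₀ (by norm_num) (by positivity)]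
        linarith [h.X_large]
      have h15 := pow_le_pow_left₀ (by norm_num) h14 2
      have h16 := mul_le_mul_of_nonneg_left h15 (show (0:ℝ) ≤ (X ^ 8) ^ 2 by positivity)
      nlinarith [pow_nonneg hX.le 16, h.pow_le (a := 2) (b := 16) (by norm_num)]
    have h1 : coefK d (radK X d) * (√2 ^ d * Real.exp (-(sigK X * (X ^ 9 * √d - radK X d)) ^ 2 / 4))
        * (∫ y, |G y|)
        ≤ Real.exp ((X / 4 + 4 + 2 * X ^ 2 - X ^ 16 / 64) * d) * W' := by
      rw [mul_comm (coefK d (radK X d)), mul_assoc]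
      refine (mul_le_mul (mul_le_mul h.sqrt_two_pow_le (Real.exp_le_exp.2
        (le_of_le_of_eq (show -(sigK X * (X ^ 9 * √d - radK X d)) ^ 2 / 4 ≤ -(X ^ 16 / 4 * d / 16) by
          linarith [pow_nonneg hX.le 16, mul_nonneg (pow_nonneg hX.le 16) (Nat.cast_nonneg (α := ℝ) d)])
        rfl)) (Real.exp_pos _).le (Real.exp_pos _).le) hMle
        (mul_nonneg hc (integral_nonneg fun y => abs_nonneg _)) (by positivity)).trans (le_of_eq ?_)
      rw [← Real.exp_add, ← mul_assoc, ← Real.exp_add]
      ring_nf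
    refine h1.trans (mul_le_mul_of_nonneg_right (Real.exp_le_exp.2 ?_) hW0)
    have h17 : 100 * X ^ 15 ≤ X ^ 16 := h.hundred_mul
    have h18 : 100 * X ^ 14 ≤ X ^ 15 := h.hundred_mul
    have h19 := h.pow_le (a := 2) (b := 12) (by norm_num)
    rw [← neg_mul]
    refine mul_le_mul_of_nonneg_right ?_ (Nat.cast_nonneg d)
    linarith [h.X_large]
  · rw [ENNReal.ofReal_toReal hWtop, childW, ← lintegral_add_left
      (show Measurable fun y => ENNReal.ofReal |G y| from hGm.abs.ennreal_ofReal)]
    refine lintegral_mono fun y => ?_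
    rw [← ENNReal.ofReal_add (abs_nonneg _) (abs_nonneg _)]
    refine ENNReal.ofReal_le_ofReal ?_
    have := abs_sub (G y) (G y - childFn X f C a y)
    rw [sub_sub_cancel] at this
    exact this
  · have hB := P'.base_spec hd
    refine (conv_winFn_base_le (σ := sigC X) (r := radC X d) hB (R := radK X d) h.sigK_pos h.sigK_le
      hu).trans ?_
    have hk := kap_nonneg h.sigK_pos.le d (radK X d)
    rw [show (∫⁻ y, ENNReal.ofReal |winFn u (sigC X) (radC X d) y| ∂stdGaussian (Vec d)) = E from rfl,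
      ← ENNReal.ofReal_toReal hEtop,
      ← ENNReal.ofReal_mul (mul_nonneg (mul_nonneg hB.nonneg hk)
        (mul_nonneg gaussConst_pos.le (Real.exp_pos _).le))]
    refine ENNReal.ofReal_le_ofReal (mul_le_mul ?_ hEW ENNReal.toReal_nonneg (Real.exp_pos _).le)
    rw [h.two_sigK_radC, ← mul_assoc, mul_assoc (1 / P'.δ ^ 2)]
    refine (mul_le_mul_of_nonneg_right (mul_le_mul hP' h.kap_gauss_le
      (mul_nonneg hk gaussConst_pos.le) (Real.exp_pos _).le) (Real.exp_pos _).le).trans ?_
    rw [← Real.exp_add, ← Real.exp_add]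
    refine Real.exp_le_exp.2 ?_
    have := mul_le_mul_of_nonneg_right (show 1 + (X / 4 + 4) + 1 / 2 ≤ 2 * X by linarith [h.X_large])
      (Nat.cast_nonneg (α := ℝ) d)
    linarith

end Vale.Agent.P309.Sharp
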