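import Vale.Agent.P309.Sharp.Low
import Mathlib.Analysis.SpecialFunctions.Pow.Asymptotics
import Mathlib.Analysis.Complex.ExponentialBounds
import Mathlib.Analysis.Real.Pi.Bounds

/-! Numerical facts for one phase. -/

namespace Vale.Agent.P309.Sharp

open MeasureTheory ProbabilityTheory Filter
open scoped RealInnerProductSpace Real ENNReal

variable {d : ℕ} {C₀ X : ℝ}

/-- The regime of the parameters. -/
structure Big (C₀ X : ℝ) (d : ℕ) : Prop where
  one_le : 1 ≤ C₀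
  gP_le : gP C₀ ≤ X
  CJ_le : CJ C₀ ≤ X
  X_large : 100 ≤ X
  log_le : Real.log X ≤ X / 32
  d_large : X ^ 24 ≤ d

lemma eventually_big (hC₀ : 1 ≤ C₀) :
    ∀ᶠ X : ℝ in atTop, ∀ᶠ d : ℕ in atTop, Big C₀ X d := by
  filter_upwards [Real.isLittleO_log_id_atTop.bound (show (0:ℝ) < 1/32 by norm_num),
    eventually_ge_atTop (gP C₀), eventually_ge_atTop (CJ C₀), eventually_ge_atTop (100:ℝ)]
    with X hl h1 h2 h3
  filter_upwards [tendsto_natCast_atTop_atTop.eventually (eventually_ge_atTop (X ^ 24))] with d hd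
  refine ⟨hC₀, h1, h2, h3, ?_, hd⟩
  simp only [id, Real.norm_eq_abs] at hl
  rw [abs_of_nonneg (by linarith : (0:ℝ) ≤ X)] at hl
  linarith [le_abs_self (Real.log X)]

namespace Big

variable (h : Big C₀ X d)
include h

lemma X_pos : 0 < X := by linarith [h.X_large]

lemma pow_le {a b : ℕ} (hab : a ≤ b) : X ^ a ≤ X ^ b :=
  pow_le_pow_right₀ (by linarith [h.X_large]) hab

lemma hundred_mul {a : ℕ} : 100 * X ^ a ≤ X ^ (a + 1) := by
  rw [pow_succ, mul_comm (X ^ a)]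
  exact mul_le_mul_of_nonneg_right h.X_large (pow_nonneg h.X_pos.le a)

lemma d_ge_two : 64 ≤ d := by
  have h1 := h.pow_le (a := 1) (b := 24) (by norm_num)
  have h2 : (100:ℝ) ≤ d := by linarith [h.X_large, h.d_large, pow_one X]
  have : (100:ℕ) ≤ d := by exact_mod_cast h2
  omega

lemma one_le_d : (1:ℝ) ≤ d := by
  have := h.d_ge_two
  exact_mod_cast (by omega : 1 ≤ d)

lemma pow_le_exp (a : ℕ) : X ^ a ≤ Real.exp (a * (X / 32)) := by
  rw [Real.exp_nat_mul]
  refine pow_le_pow_left₀ h.X_pos.le ?_ a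
  exact (Real.exp_log h.X_pos).symm.le.trans (Real.exp_le_exp.2 h.log_le)

lemma coefK_le (c : ℝ) (hc : 0 ≤ c) : coefK d (c * √d) ≤ Real.exp (d / 2) * c ^ d := by
  refine (ball_coeff_le (by positivity)).trans (mul_le_mul_of_nonneg_left ?_ (Real.exp_pos _).le)
  have hd : (0:ℝ) < √d := Real.sqrt_pos.2 (by linarith [h.one_le_d])
  refine pow_le_pow_left₀ (by positivity) ?_ d
  rw [div_le_iff₀ (by positivity)]
  have h1 : (1:ℝ) ≤ √(2 * π) := Real.one_le_sqrt.2 (by linarith [Real.pi_gt_three])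
  exact mul_le_mul_of_nonneg_left (le_mul_of_one_le_left hd.le h1) hc

lemma coefK_pow_le (a : ℕ) : coefK d (X ^ a * √d) ≤ Real.exp ((a * (X / 32) + 1) * d) := by
  refine (h.coefK_le _ (pow_nonneg h.X_pos.le a)).trans ?_
  refine (mul_le_mul_of_nonneg_left (pow_le_pow_left₀ (pow_nonneg h.X_pos.le a) (h.pow_le_exp a) d)
    (Real.exp_pos _).le).trans ?_
  rw [← Real.exp_nat_mul, ← Real.exp_add]
  refine Real.exp_le_exp.2 ?_
  linarith [h.one_le_d]

lemma coefK_RW_le : coefK d (RW X d) ≤ Real.exp ((2 * X ^ 4 + 1) * d) := by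
  rw [RW, mul_comm]
  refine (h.coefK_le _ (Real.exp_pos _).le).trans ?_
  rw [← Real.exp_nat_mul, ← Real.exp_add]
  refine Real.exp_le_exp.2 ?_
  linarith [h.one_le_d]

lemma sqrt_two_pow_le : √2 ^ d ≤ Real.exp (d : ℝ) := by
  rw [← mul_one (d:ℝ), Real.exp_nat_mul]
  refine pow_le_pow_left₀ (Real.sqrt_nonneg _) ?_ d
  have := Real.exp_one_gt_d9
  have : √2 ≤ 2 := Real.sqrt_le_iff.2 ⟨by norm_num, by norm_num⟩
  linarith

lemma sqrt_pi_pow_le {c : ℝ} (hc0 : 0 ≤ c) (hc : c ≤ 8) : √(c * π) ^ d ≤ Real.exp (2 * d) := by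
  rw [mul_comm 2, Real.exp_nat_mul]
  refine pow_le_pow_left₀ (Real.sqrt_nonneg _) ?_ d
  have h1 : √(c * π) ≤ 6 := Real.sqrt_le_iff.2 ⟨by norm_num, by nlinarith [Real.pi_lt_four, Real.pi_pos]⟩
  have h2 : (2.7:ℝ) < Real.exp 1 := by linarith [Real.exp_one_gt_d9]
  have h3 : Real.exp 2 = Real.exp 1 * Real.exp 1 := by rw [← Real.exp_add]; norm_num
  nlinarith [Real.exp_pos 1]

lemma gaussConst_le : gaussConst (Vec d) ≤ Real.exp (2 * d) := by
  rw [gaussConst_vec]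
  exact h.sqrt_pi_pow_le (by norm_num) (by norm_num)

lemma chi_coeff_le {c : ℝ} (hc0 : 0 ≤ c) (hc : c ≤ 8) :
    coefK d (X * √d) * (√(c * π) / (X ^ 3)⁻¹) ^ d ≤ Real.exp (X * d) := by
  rw [div_inv_eq_mul, mul_pow]
  refine (mul_le_mul (by simpa using h.coefK_pow_le 1) (mul_le_mul (h.sqrt_pi_pow_le hc0 hc)
    (pow_le_pow_left₀ (pow_nonneg h.X_pos.le 3) (h.pow_le_exp 3) d) (by have := h.X_pos; positivity)
    (Real.exp_pos _).le) (by have := h.X_pos; positivity) (Real.exp_pos _).le).trans ?_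
  rw [← Real.exp_nat_mul, ← Real.exp_add, ← Real.exp_add]
  refine Real.exp_le_exp.2 ?_
  push_cast
  nlinarith [h.one_le_d, h.X_large]

lemma ball_cut_le :
    volume.real (Metric.closedBall (0 : Vec d) |Rcut X d|) ≤ Real.exp (X * d) := by
  have hR : |Rcut X d| = X ^ 4 * √d := by
    rw [abs_of_nonneg (by unfold Rcut; have := h.X_pos; positivity), Rcut]
  rw [hR]
  have e : volume.real (Metric.closedBall (0 : Vec d) (X ^ 4 * √d))
      = (2 * π) ^ d * coefK d (X ^ 4 * √d) := by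
    rw [coefK, ← mul_assoc, mul_inv_cancel₀ (by positivity), one_mul]
  rw [e]
  refine (mul_le_mul (le_of_eq_of_le (b := √(2 * π) ^ d * √(2 * π) ^ d) ?_
    (mul_le_mul (h.sqrt_pi_pow_le (by norm_num) (by norm_num))
      (h.sqrt_pi_pow_le (by norm_num) (by norm_num)) (by positivity) (Real.exp_pos _).le))
    (h.coefK_pow_le 4) (coefK_nonneg _ _) (by positivity)).trans ?_
  · rw [← mul_pow, Real.mul_self_sqrt (by positivity)]
  rw [← Real.exp_add, ← Real.exp_add]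
  refine Real.exp_le_exp.2 ?_
  push_cast
  nlinarith [h.one_le_d, h.X_large]

lemma kap_gauss_le :
    kap d (2 * X)⁻¹ (X ^ 8 * √d) * gaussConst (Vec d) ≤ Real.exp ((X / 4 + 4) * d) := by
  have hX := h.X_pos
  have h1 : (2 * X)⁻¹ ^ d ≤ (1:ℝ) := by
    refine pow_le_one₀ (by positivity) (inv_le_one_of_one_le₀ (by linarith [h.X_large]))
  have h2 : (2:ℝ) / (2 * X)⁻¹ ^ 2 ≤ Real.exp d := by
    have e : (2:ℝ) / (2 * X)⁻¹ ^ 2 = 8 * X ^ 2 := by field_simp; ring
    rw [e]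
    refine le_trans ?_ (le_trans h.d_large (by linarith [Real.add_one_le_exp (d:ℝ)]))
    have h3 := h.hundred_mul (a := 2)
    have h4 := h.pow_le (a := 3) (b := 24) (by norm_num)
    norm_num at h3
    nlinarith [sq_nonneg X]
  unfold kap
  refine (mul_le_mul (mul_le_mul (mul_le_mul (h.coefK_pow_le 8) h2 (by positivity) (Real.exp_pos _).le)
    h1 (by positivity) (by positivity)) h.gaussConst_le gaussConst_pos.le (by positivity)).trans ?_
  rw [mul_one, ← Real.exp_add, ← Real.exp_add]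
  refine Real.exp_le_exp.2 ?_
  push_cast
  linarith

lemma tilt_rho_le : Real.exp (-(4 * X ^ 4)) ^ 2 * (Rcut X d) ^ 2 / 2 ≤ d := by
  have e : (Rcut X d) ^ 2 = (X ^ 4) ^ 2 * d := by
    rw [Rcut, mul_pow, Real.sq_sqrt (by linarith [h.one_le_d])]
  have h1 : X ^ 4 * Real.exp (-(4 * X ^ 4)) ≤ 1 := by
    rw [Real.exp_neg, ← div_eq_mul_inv, div_le_one (Real.exp_pos _)]
    linarith [Real.add_one_le_exp (4 * X ^ 4), pow_nonneg h.X_pos.le 4]
  have h2 := pow_le_one₀ (n := 2) (by have := h.X_pos; positivity) h1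
  rw [e]
  have h3 := mul_le_mul_of_nonneg_right h2 (Nat.cast_nonneg (α := ℝ) d)
  nlinarith [Nat.cast_nonneg (α := ℝ) d]

lemma RW_sq_ge : X ^ 12 * d ≤ RW X d ^ 2 / 4 := by
  have e : RW X d ^ 2 = d * Real.exp (4 * X ^ 4) := by
    rw [RW, mul_pow, Real.sq_sqrt (by linarith [h.one_le_d]), ← Real.exp_nat_mul]
    congr 2
    push_cast
    ring
  rw [e]
  have h1 := Real.pow_div_factorial_le_exp (4 * X ^ 4) (by have := h.X_pos; positivity) 3
  norm_num [Nat.factorial] at h1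
  nlinarith [Nat.cast_nonneg (α := ℝ) d, pow_nonneg h.X_pos.le 12]

lemma band_room : X ^ 7 * √d + (Real.exp (-(4 * X ^ 4)) * (X ^ 9 * √d)
    + Real.exp (-(4 * X ^ 4)) * (2 * RW X d)) ≤ X ^ 8 * √d / 2 := by
  have hX := h.X_pos
  have hd : (0:ℝ) ≤ √d := Real.sqrt_nonneg _
  have h1 : X ^ 4 * Real.exp (-(4 * X ^ 4)) ≤ 1 := by
    rw [Real.exp_neg, ← div_eq_mul_inv, div_le_one (Real.exp_pos _)]
    linarith [Real.add_one_le_exp (4 * X ^ 4), pow_nonneg hX.le 4]
  have h2 : Real.exp (-(4 * X ^ 4)) * (X ^ 9 * √d) ≤ X ^ 5 * √d := by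
    have := mul_le_mul_of_nonneg_right h1 (show (0:ℝ) ≤ X ^ 5 * √d by positivity)
    linarith
  have h3 : Real.exp (-(4 * X ^ 4)) * (2 * RW X d) ≤ 2 * √d := by
    rw [RW]
    have e : Real.exp (-(4 * X ^ 4)) * Real.exp (2 * X ^ 4) ≤ 1 := by
      rw [← Real.exp_add]
      exact Real.exp_le_one_iff.2 (by linarith [pow_nonneg hX.le 4])
    nlinarith
  have h4 := h.hundred_mul (a := 7)
  have h5 := h.pow_le (a := 5) (b := 7) (by norm_num)
  have h6 := h.pow_le (a := 1) (b := 7) (by norm_num)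
  have h7 : X ^ 7 + X ^ 5 + 2 ≤ X ^ 8 / 2 := by
    linarith [h.X_large, pow_one X, show X ^ (7 + 1) = X ^ 8 from rfl]
  have := mul_le_mul_of_nonneg_right h7 hd
  linarith

end Big

end Vale.Agent.P309.Sharp
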