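import Vale.Agent.P309.Sharp.Density
import Vale.Agent.P309.Gauss
import Mathlib.MeasureTheory.Constructions.HaarToSphere
import Mathlib.MeasureTheory.Measure.Haar.InnerProductSpace

/-! Elementary facts on the standard normal law and on polar coordinates. -/

namespace Vale.Agent.P309.Sharp

open MeasureTheory ProbabilityTheory Filter Topology Complex
open scoped RealInnerProductSpace Real ENNReal

/-- `d`-space. -/
abbrev Vec (d : ℕ) : Type := EuclideanSpace ℝ (Fin d)

variable {d : ℕ}

lemma measurable_gaussKer : Measurable (gaussKer (V := Vec d)) := by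
  unfold gaussKer; fun_prop

lemma continuous_gaussKer : Continuous (gaussKer (V := Vec d)) := by
  unfold gaussKer; fun_prop

lemma gaussConst_vec : gaussConst (Vec d) = √(2 * π) ^ d := by
  rw [gaussConst, finrank_euclideanSpace_fin, Real.sqrt_eq_rpow, ← Real.rpow_natCast,
    ← Real.rpow_mul (by positivity)]
  ring_nf

lemma gaussKer_toLp (x : Fin d → ℝ) :
    gaussKer (WithLp.toLp 2 x : Vec d) = ∏ i, pdf1 (x i) := by
  rw [prod_pdf1, gaussKer, gaussConst_vec, EuclideanSpace.real_norm_sq_eq, inv_pow]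

lemma lintegral_stdGaussian {F : Vec d → ℝ≥0∞} (hF : Measurable F) :
    ∫⁻ g, F g ∂stdGaussian (Vec d) = ∫⁻ g, ENNReal.ofReal (gaussKer g) * F g := by
  rw [← map_pi_eq_stdGaussian, lintegral_map hF (by fun_prop),
    lintegral_pi_G1 (f := fun x => F (WithLp.toLp 2 x)) (hF.comp (by fun_prop)),
    ← (PiLp.volume_preserving_toLp (Fin d)).lintegral_comp
      (f := fun g : Vec d => ENNReal.ofReal (gaussKer g) * F g)
      (measurable_gaussKer.ennreal_ofReal.mul hF)]
  refine lintegral_congr fun x => ?_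
  rw [gaussKer_toLp, ENNReal.ofReal_prod_of_nonneg fun i _ => pdf1_nonneg _]

lemma stdGaussian_eq_withDensity :
    stdGaussian (Vec d) = volume.withDensity fun g => ENNReal.ofReal (gaussKer g) := by
  refine Measure.ext_of_lintegral _ fun F hF => ?_
  rw [lintegral_stdGaussian hF, lintegral_withDensity_eq_lintegral_mul _
    measurable_gaussKer.ennreal_ofReal hF]
  rfl

/-- Coordinates along a family of vectors. -/
noncomputable def coord {N : ℕ} (e : Fin N → Vec d) : Vec d →ₗ[ℝ] Vec N where
  toFun g := WithLp.toLp 2 fun r => ⟪e r, g⟫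
  map_add' g h := by ext r; simp [inner_add_right]
  map_smul' c g := by ext r; simp [inner_smul_right]

/-- The vector with given coordinates along a family. -/
noncomputable def lift {N : ℕ} (e : Fin N → Vec d) : Vec N →ₗ[ℝ] Vec d where
  toFun h := ∑ r, h r • e r
  map_add' g h := by simp [add_smul, Finset.sum_add_distrib]
  map_smul' c g := by simp [Finset.smul_sum, smul_smul]

lemma coord_apply {N : ℕ} (e : Fin N → Vec d) (g : Vec d) (r : Fin N) :
    coord e g r = ⟪e r, g⟫ := rfl

lemma inner_lift {N : ℕ} (e : Fin N → Vec d) (h : Vec N) (g : Vec d) :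
    ⟪g, lift e h⟫ = ⟪coord e g, h⟫ := by
  simp only [lift, LinearMap.coe_mk, AddHom.coe_mk, inner_sum, inner_smul_right]
  rw [PiLp.inner_apply]
  refine Finset.sum_congr rfl fun r _ => ?_
  simp [coord_apply, real_inner_comm g]

lemma measurable_coord {N : ℕ} (e : Fin N → Vec d) : Measurable (coord e) :=
  (coord e).continuous_of_finiteDimensional.measurable

lemma measurable_lift {N : ℕ} (e : Fin N → Vec d) : Measurable (lift e) :=
  (lift e).continuous_of_finiteDimensional.measurable

lemma coord_lift {N : ℕ} {e : Fin N → Vec d} (he : Orthonormal ℝ e) (h : Vec N) :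
    coord e (lift e h) = h := by
  ext r
  simp only [coord_apply, lift, LinearMap.coe_mk, AddHom.coe_mk]
  exact he.inner_right_fintype (fun i => h i) r

lemma norm_lift {N : ℕ} {e : Fin N → Vec d} (he : Orthonormal ℝ e) (h : Vec N) :
    ‖lift e h‖ = ‖h‖ := by
  rw [← sq_eq_sq₀ (norm_nonneg _) (norm_nonneg _), ← real_inner_self_eq_norm_sq,
    ← real_inner_self_eq_norm_sq, inner_lift, coord_lift he]

/-- The component orthogonal to an orthonormal family. -/
noncomputable def rest {N : ℕ} (e : Fin N → Vec d) : Vec d →ₗ[ℝ] Vec d :=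
  LinearMap.id - lift e ∘ₗ coord e

lemma coord_rest {N : ℕ} {e : Fin N → Vec d} (he : Orthonormal ℝ e) (g : Vec d) :
    coord e (rest e g) = 0 := by
  simp [rest, coord_lift he]

lemma norm_sq_split {N : ℕ} {e : Fin N → Vec d} (he : Orthonormal ℝ e) (g : Vec d) :
    ‖g‖ ^ 2 = ‖coord e g‖ ^ 2 + ‖rest e g‖ ^ 2 := by
  have h : g = lift e (coord e g) + rest e g := by simp [rest]
  conv_lhs => rw [h]
  rw [norm_add_sq_real, norm_lift he, real_inner_comm, inner_lift, coord_rest he]
  simp

lemma stdGaussian_split {N : ℕ} {e : Fin N → Vec d} (he : Orthonormal ℝ e) :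
    ((stdGaussian (Vec N)).prod (stdGaussian (Vec d))).map (fun p => lift e p.1 + rest e p.2)
      = stdGaussian (Vec d) := by
  have hm : Measurable fun p : Vec N × Vec d => lift e p.1 + rest e p.2 :=
    ((measurable_lift e).comp measurable_fst).add
      ((rest e).continuous_of_finiteDimensional.measurable.comp measurable_snd)
  refine Measure.ext_of_charFun (funext fun ξ => ?_)
  rw [charFun_apply, integral_map hm.aemeasurable (by fun_prop)]
  have h : ∀ p : Vec N × Vec d, cexp ((⟪lift e p.1 + rest e p.2, ξ⟫ : ℝ) * I)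
      = cexp ((⟪p.1, coord e ξ⟫ : ℝ) * I) * cexp ((⟪p.2, rest e ξ⟫ : ℝ) * I) := by
    intro p
    rw [← Complex.exp_add, ← add_mul, ← Complex.ofReal_add]
    congr 3
    simp only [inner_add_left, rest, LinearMap.sub_apply, LinearMap.id_coe, id_eq,
      LinearMap.comp_apply, inner_sub_left, inner_sub_right]
    rw [real_inner_comm ξ (lift e p.1), inner_lift, real_inner_comm ξ (lift e (coord e p.2)),
      inner_lift, real_inner_comm p.1, inner_lift e (coord e ξ) p.2,
      real_inner_comm (coord e p.2) (coord e ξ)]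
  simp only [h]
  rw [integral_prod_mul (f := fun x : Vec N => cexp ((⟪x, coord e ξ⟫ : ℝ) * I))
    (g := fun y : Vec d => cexp ((⟪y, rest e ξ⟫ : ℝ) * I)),
    ← charFun_apply, ← charFun_apply, charFun_stdGaussian, charFun_stdGaussian,
    charFun_stdGaussian, ← Complex.exp_add]
  congr 1
  have := norm_sq_split he ξ
  rw [← Complex.ofReal_pow, ← Complex.ofReal_pow, ← Complex.ofReal_pow, this]
  push_cast
  ring

lemma map_coord {N : ℕ} {e : Fin N → Vec d} (he : Orthonormal ℝ e) :
    (stdGaussian (Vec d)).map (coord e) = stdGaussian (Vec N) := by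
  refine Measure.ext_of_charFun (funext fun ξ => ?_)
  rw [charFun_apply, integral_map (measurable_coord e).aemeasurable (by fun_prop)]
  simp only [← inner_lift]
  rw [← charFun_apply, charFun_stdGaussian, charFun_stdGaussian, norm_lift he]

/-- Gaussian duality for finitely many linear forms. -/
lemma gauss_duality {i : ℕ} (w : Fin i → Vec d) :
    ∫ g, Real.exp (-(∑ j, ⟪w j, g⟫ ^ 2) / 2) ∂stdGaussian (Vec d)
      = ∫ η, Real.exp (-‖∑ j, η j • w j‖ ^ 2 / 2) ∂stdGaussian (Vec i) := by
  have key : ∀ g : Vec d, ((Real.exp (-(∑ j, ⟪w j, g⟫ ^ 2) / 2) : ℝ) : ℂ)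
      = ∫ η : Vec i, cexp ((⟪g, ∑ j, η j • w j⟫ : ℝ) * I) ∂stdGaussian (Vec i) := by
    intro g
    have h : ∀ η : Vec i, ⟪g, ∑ j, η j • w j⟫ = ⟪η, WithLp.toLp 2 fun j => ⟪w j, g⟫⟫ := by
      intro η
      rw [inner_sum, PiLp.inner_apply]
      refine Finset.sum_congr rfl fun j _ => ?_
      simp [inner_smul_right, real_inner_comm g, mul_comm]
    simp only [h]
    rw [← charFun_apply, charFun_stdGaussian, ← Complex.ofReal_pow,
      EuclideanSpace.real_norm_sq_eq, Complex.ofReal_exp]
    simp
  have key2 : ∀ η : Vec i, ((Real.exp (-‖∑ j, η j • w j‖ ^ 2 / 2) : ℝ) : ℂ)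
      = ∫ g : Vec d, cexp ((⟪g, ∑ j, η j • w j⟫ : ℝ) * I) ∂stdGaussian (Vec d) := by
    intro η
    rw [← charFun_apply, charFun_stdGaussian, Complex.ofReal_exp]
    simp
  refine Complex.ofReal_injective ?_
  rw [← integral_complex_ofReal, ← integral_complex_ofReal]
  simp only [key, key2]
  refine integral_integral_swap (Integrable.of_bound (by fun_prop) 1 (ae_of_all _ fun p => ?_))
  simp [Function.uncurry, Complex.norm_exp_ofReal_mul_I]

/-- The radial part of Lebesgue measure, in the squared radius. -/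
noncomputable def radial (d : ℕ) : Measure ℝ :=
  (volume.restrict (Set.Ioi 0)).withDensity fun s => ENNReal.ofReal (√s ^ (d - 2) / 2)

/-- Surface measure of the unit sphere. -/
noncomputable abbrev surf (d : ℕ) : Measure (Metric.sphere (0 : Vec d) 1) :=
  (volume : Measure (Vec d)).toSphere

instance (d : ℕ) : SFinite (radial d) := by unfold radial; infer_instance

lemma lintegral_polar (hd : 2 ≤ d) {F : Vec d → ℝ≥0∞} (hF : Measurable F) :
    ∫⁻ x, F x = ∫⁻ s, ∫⁻ ω, F (√s • (ω : Vec d)) ∂surf d ∂radial d := by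
  have : Nontrivial (Vec d) := Module.nontrivial_of_finrank_pos (R := ℝ) (by simp; omega)
  have h0 : ∫⁻ x, F x = ∫⁻ x in ({0}ᶜ : Set (Vec d)), F x := by
    rw [restrict_compl_singleton]
  have hmp := (volume : Measure (Vec d)).measurePreserving_homeomorphUnitSphereProd
  rw [h0, ← lintegral_subtype_comap (measurableSet_singleton _).compl,
    ← (hmp.symm (homeomorphUnitSphereProd (Vec d)).toMeasurableEquiv).lintegral_comp_emb
      (MeasurableEquiv.measurableEmbedding _) (fun x => F x)]
  rw [lintegral_prod_symm _ (by fun_prop), finrank_euclideanSpace_fin, Measure.volumeIoiPow,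
    lintegral_withDensity_eq_lintegral_mul _ (by fun_prop)]
  swap
  · exact Measurable.lintegral_prod_left'
      (f := fun p : Metric.sphere (0 : Vec d) 1 × Set.Ioi (0:ℝ) =>
        F ((homeomorphUnitSphereProd (Vec d)).toMeasurableEquiv.symm p : Vec d))
      (hF.comp (measurable_subtype_coe.comp (MeasurableEquiv.measurable _)))
  have hsym : ∀ (p : Metric.sphere (0 : Vec d) 1 × Set.Ioi (0:ℝ)),
      (((homeomorphUnitSphereProd (Vec d)).toMeasurableEquiv.symm p : ({0}ᶜ : Set (Vec d))) : Vec d)
        = (p.2 : ℝ) • (p.1 : Vec d) := fun p => rfl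
  simp only [hsym, Pi.mul_apply]
  rw [lintegral_subtype_comap measurableSet_Ioi
    (fun r : ℝ => ENNReal.ofReal (r ^ (d - 1)) * ∫⁻ ω, F (r • (ω : Vec d)) ∂surf d)]
  have himg : (fun r : ℝ => r ^ 2) '' Set.Ioi 0 = Set.Ioi 0 := by
    ext s
    constructor
    · rintro ⟨r, hr, rfl⟩; exact pow_pos (Set.mem_Ioi.1 hr) 2
    · intro hs; exact ⟨√s, Real.sqrt_pos.2 hs, Real.sq_sqrt (le_of_lt hs)⟩
  have h3 := lintegral_image_eq_lintegral_abs_deriv_mul (s := Set.Ioi (0:ℝ))
    (f := fun r => r ^ 2) (f' := fun r => 2 * r) measurableSet_Ioi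
    (fun r _ => by simpa using (hasDerivAt_pow 2 r).hasDerivWithinAt)
    (fun a ha b hb h => by
      have := congrArg Real.sqrt h
      rwa [Real.sqrt_sq (le_of_lt ha), Real.sqrt_sq (le_of_lt hb)] at this)
    (fun s => ENNReal.ofReal (√s ^ (d - 2) / 2) * ∫⁻ ω, F (√s • (ω : Vec d)) ∂surf d)
  rw [himg] at h3
  rw [radial, lintegral_withDensity_eq_lintegral_mul _ (by fun_prop)
    (Measurable.lintegral_prod_right' (f := fun p : ℝ × Metric.sphere (0 : Vec d) 1 =>
      F (√p.1 • (p.2 : Vec d))) (hF.comp (by fun_prop)))]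
  simp only [Pi.mul_apply]
  rw [h3]
  refine setLIntegral_congr_fun measurableSet_Ioi fun r hr => ?_
  rw [Set.mem_Ioi] at hr
  rw [Real.sqrt_sq hr.le, ← mul_assoc, ← ENNReal.ofReal_mul (abs_nonneg _),
    abs_of_pos (by positivity : (0:ℝ) < 2 * r)]
  congr 2
  have : d - 1 = d - 2 + 1 := by omega
  rw [this, pow_succ]
  ring

/-- Polar coordinates in the squared radius. -/
lemma map_polar (hd : 2 ≤ d) :
    ((radial d).prod (surf d)).map (fun p => √p.1 • (p.2 : Vec d)) = volume := by
  refine Measure.ext_of_lintegral _ fun F hF => ?_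
  rw [lintegral_map hF (by fun_prop), lintegral_prod (fun p : ℝ × Metric.sphere (0 : Vec d) 1 =>
    F (√p.1 • (p.2 : Vec d))) (hF.comp (by fun_prop)).aemeasurable, lintegral_polar hd hF]

end Vale.Agent.P309.Sharp
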