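import Vale.Agent.P309.Sharp.Bases

/-! The weights carried from phase to phase. -/

namespace Vale.Agent.P309.Sharp

open MeasureTheory ProbabilityTheory
open scoped RealInnerProductSpace Real ENNReal

variable {d : ℕ}

/-- Loss in the normalised volume of a piece in one phase. -/
noncomputable def Gs (C₀ X : ℝ) (d : ℕ) : ℝ := (4 * X ^ 4 + 2 * gP C₀) * d

/-- A weight of size `W` on a piece. -/
structure Wgt (X : ℝ) (P : Piece d) (L : Vec d → ℝ) (W : ℝ) : Prop where
  nonneg : 0 ≤ W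
  band : Band L (X ^ 9 * √d) (Real.exp (3 * X ^ 2 * d) * W) (Real.exp (-(X ^ 12 * d)) * W)
  gauss : ∫⁻ g, ENNReal.ofReal |L g| ∂stdGaussian (Vec d) ≤ ENNReal.ofReal W
  base : ∫⁻ g, ENNReal.ofReal |L g| ∂gw P.base ≤ ENNReal.ofReal (Real.exp (2 * X * d) * W)

end Vale.Agent.P309.Sharp
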