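import Vale.Agent.P309.Sharp.StepNum
import Vale.Agent.P309.Sharp.Weight

/-! Total errors of all children in one phase. -/

namespace Vale.Agent.P309.Sharp

open MeasureTheory ProbabilityTheory
open scoped RealInnerProductSpace Real ENNReal

variable {d : ℕ} {C₀ X : ℝ}

/-- Width of the window of a child. -/
noncomputable def sigC (X : ℝ) : ℝ := (X ^ 3)⁻¹

/-- Radius of the window of a child. -/
noncomputable def radC (X : ℝ) (d : ℕ) : ℝ := X * √d

/-- Width of the kernel of a child. -/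
noncomputable def sigK (X : ℝ) : ℝ := (2 * X)⁻¹

/-- Frequencies kept by the kernel of a child. -/
noncomputable def radK (X : ℝ) (d : ℕ) : ℝ := X ^ 8 * √d

/-- Scale of the children. -/
noncomputable def rhoC (X : ℝ) : ℝ := Real.exp (-(4 * X ^ 4))

/-- The window function of a child. -/
noncomputable def childWin (X : ℝ) (f : Vec d → ℝ) (C : Vec d ≃ₗ[ℝ] Vec d) (a : Vec d) : Vec d → ℝ :=
  winFn (fun z => f (a + C z)) (sigC X) (radC X d)

/-- The weight of a child. -/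
noncomputable def childFn (X : ℝ) (f : Vec d → ℝ) (C : Vec d ≃ₗ[ℝ] Vec d) (a : Vec d) : Vec d → ℝ :=
  convK (sigK X) (radK X d) (childWin X f C a)

namespace Big

variable (h : Big C₀ X d)
include h

lemma sigC_pos : 0 < sigC X := by unfold sigC; have := h.X_pos; positivity

lemma sigK_pos : 0 < sigK X := by unfold sigK; have := h.X_pos; positivity

lemma sigK_le : sigK X ≤ 1 := inv_le_one_of_one_le₀ (by linarith [h.X_large])

lemma radC_nonneg : 0 ≤ radC X d := by unfold radC; have := h.X_pos; positivity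

lemma radK_nonneg : 0 ≤ radK X d := by unfold radK; have := h.X_pos; positivity

lemma rhoC_lt : rhoC X < 1 := Real.exp_lt_one_iff.2 (by linarith [pow_pos h.X_pos 4])

lemma ratio_sq : (radC X d / sigC X) ^ 2 = X ^ 8 * d := by
  have := h.X_pos
  rw [radC, sigC, div_inv_eq_mul, mul_pow, mul_pow, Real.sq_sqrt (Nat.cast_nonneg d)]
  ring

lemma ratio_ge : 32 * (d:ℝ) ≤ (radC X d / sigC X) ^ 2 := by
  rw [h.ratio_sq]
  refine mul_le_mul_of_nonneg_right ?_ (Nat.cast_nonneg d)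
  have h1 := h.pow_le (a := 1) (b := 8) (by norm_num)
  linarith [h.X_large, pow_one X]

lemma keep_sq : (sigK X * radK X d) ^ 2 = X ^ 14 / 4 * d := by
  have := h.X_pos
  rw [sigK, radK, mul_pow, mul_pow, Real.sq_sqrt (Nat.cast_nonneg d), inv_pow]
  field_simp
  ring

lemma keep_ge : 32 * (d:ℝ) ≤ (sigK X * radK X d) ^ 2 := by
  rw [h.keep_sq]
  refine mul_le_mul_of_nonneg_right ?_ (Nat.cast_nonneg d)
  have h1 := h.pow_le (a := 1) (b := 13) (by norm_num)
  have h2 := h.hundred_mul (a := 13)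
  linarith [h.X_large, pow_one X, show X ^ (13 + 1) = X ^ 14 from rfl]

lemma two_sigK_radC : Real.exp (2 * (sigK X * radC X d) ^ 2) = Real.exp ((d:ℝ) / 2) := by
  have := h.X_pos
  congr 1
  rw [sigK, radC, mul_pow, mul_pow, Real.sq_sqrt (Nat.cast_nonneg d), inv_pow]
  field_simp

/-- Basic size facts used in the exponents. -/
lemma sizes : 100 * X ≤ X ^ 2 ∧ 100 * X ^ 2 ≤ X ^ 3 ∧ 100 * X ^ 3 ≤ X ^ 4 ∧ 100 * X ^ 4 ≤ X ^ 5 ∧
    X ^ 5 ≤ X ^ 8 ∧ X ^ 8 ≤ X ^ 12 ∧ X ^ 12 ≤ X ^ 14 ∧ X ^ 14 ≤ X ^ 24 := by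
  refine ⟨?_, h.hundred_mul, h.hundred_mul, h.hundred_mul, h.pow_le (by norm_num),
    h.pow_le (by norm_num), h.pow_le (by norm_num), h.pow_le (by norm_num)⟩
  have := h.hundred_mul (a := 1)
  simpa using this

lemma add_three {u a b c : ℝ} (ha : a ≤ u - 3) (hb : b ≤ u - 3) (hc : c ≤ u - 3) :
    Real.exp (a * d) + Real.exp (b * d) + Real.exp (c * d) ≤ Real.exp (u * d) := by
  have hd := h.one_le_d
  have key : ∀ {x : ℝ}, x ≤ u - 3 → Real.exp (x * d) ≤ Real.exp (u * d) / 3 := by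
    intro x hx
    rw [le_div_iff₀ (by norm_num : (0:ℝ) < 3), mul_comm]
    have h3 : (3:ℝ) ≤ Real.exp (3 * d) := by linarith [Real.add_one_le_exp (3 * (d:ℝ))]
    refine (mul_le_mul_of_nonneg_right h3 (Real.exp_pos _).le).trans ?_
    rw [← Real.exp_add]
    refine Real.exp_le_exp.2 ?_
    have := mul_le_mul_of_nonneg_right hx (Nat.cast_nonneg (α := ℝ) d)
    linarith
  linarith [key ha, key hb, key hc]

end Big

variable {ι : Type*} [Fintype ι] {F : ι → Vec d → ℝ} (hF : ∀ t, Measurable (F t))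
  (hF0 : ∀ t g, 0 ≤ F t g) (hF1 : ∀ g, ∑ t, F t g ≤ 1)

include hF0 hF1 in
lemma part_le_one (t : ι) (g : Vec d) : |F t g| ≤ 1 := by
  rw [abs_of_nonneg (hF0 t g)]
  exact (Finset.single_le_sum (fun u _ => hF0 u g) (Finset.mem_univ t)).trans (hF1 g)

include hF hF0 hF1 in
/-- Parts of a function are lighter than the function. -/
lemma sum_parts_le {L : Vec d → ℝ} (hL : Measurable L) (ν : Measure (Vec d)) :
    ∑ t, ∫⁻ g, ENNReal.ofReal |L g * F t g| ∂ν ≤ ∫⁻ g, ENNReal.ofReal |L g| ∂ν := by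
  rw [← lintegral_finsetSum _ fun t _ => by fun_prop]
  refine lintegral_mono fun g => ?_
  rw [← ENNReal.ofReal_sum_of_nonneg fun t _ => abs_nonneg _]
  refine ENNReal.ofReal_le_ofReal ?_
  simp only [abs_mul, abs_of_nonneg (hF0 _ g), ← Finset.mul_sum]
  exact mul_le_of_le_one_right (abs_nonneg _) (hF1 g)

variable {σ₀ : Measure (Vec d)} [IsFiniteMeasure (gw σ₀)] [SFinite σ₀] {v₀ : Vec d} {M : ℝ}
  (hB : Base σ₀ v₀ M) (hM : M ≤ Real.exp d) {L : Vec d → ℝ} {T₀ W₀ : ℝ} (hW : 0 ≤ W₀)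
  (hLb : Band L (X ^ 9 * √d) (Real.exp (3 * X ^ 2 * d) * W₀) (Real.exp (-(X ^ 12 * d)) * W₀))
  (hLν : ∫⁻ g, ENNReal.ofReal |L g| ∂gw σ₀ ≤ ENNReal.ofReal (Real.exp (2 * X * d) * W₀))
  {C : ι → (Vec d ≃ₗ[ℝ] Vec d)} (hC : ∀ t y, ‖C t y‖ ≤ rhoC X * ‖y‖)

include hF hF0 hF1 hB hM hW hLb hLν hC in
/-- Everything cut away by the windows of all children. -/
theorem cut_total (h : Big C₀ X d) :
    ∑ t, ∫⁻ a, mixW (C t) a * ∫⁻ y, ENNReal.ofReal
        |L (a + C t y) * F t (a + C t y) - childWin X (fun g => L g * F t g) (C t) a y|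
          ∂gw (child σ₀ a (C t))
      ≤ ENNReal.ofReal (Real.exp (-(8 * d)) * W₀) := by
  have hLm : Measurable L := hLb.continuous.measurable
  set e := Real.exp (-(radC X d / sigC X) ^ 2 / 32)
    + √2 ^ d * Real.exp (rhoC X ^ 2 * Rcut X d ^ 2 / 2 - (radC X d / 2) ^ 2 / 4)
  have he : 0 ≤ e := by positivity
  set U := Real.exp (3 * X ^ 2 * d) * W₀
  have hU : 0 ≤ U := by positivity
  refine (Finset.sum_le_sum fun t _ => cut_err_le (f := fun g => L g * F t g) (σ₀ := σ₀)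
    (show 0 ≤ rhoC X from (Real.exp_pos _).le) h.rhoC_lt (hC t) (hLm.mul (hF t)) (σ := sigC X) (r := radC X d)
    (Rc := Rcut X d) h.sigC_pos h.radC_nonneg h.ratio_ge).trans ?_
  rw [Finset.sum_add_distrib, ← Finset.mul_sum]
  have hfar : ∑ t, ∫⁻ g, {g : Vec d | Rcut X d ^ 2 ≤ ‖g‖ ^ 2}.indicator
      (fun g => ENNReal.ofReal |L g * F t g|) g ∂gw σ₀
        ≤ ENNReal.ofReal (U * (√2 ^ d * Real.exp (-Rcut X d ^ 2 / 4) * M)) := by
    have hS : MeasurableSet {g : Vec d | Rcut X d ^ 2 ≤ ‖g‖ ^ 2} :=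
      measurableSet_le measurable_const (by fun_prop)
    simp only [lintegral_indicator hS]
    refine (sum_parts_le hF hF0 hF1 hLm _).trans ?_
    refine (lintegral_mono fun g => ENNReal.ofReal_le_ofReal (hLb.abs_le g)).trans ?_
    rw [setLIntegral_const, ENNReal.ofReal_mul hU]
    exact mul_le_mul_right (hB.tail _) _
  refine (add_le_add (mul_le_mul_right ((sum_parts_le hF hF0 hF1 hLm _).trans hLν) _) hfar).trans ?_
  rw [← ENNReal.ofReal_mul he, ← ENNReal.ofReal_add (by positivity)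
    (mul_nonneg hU (mul_nonneg (by positivity) hB.nonneg))]
  refine ENNReal.ofReal_le_ofReal ?_
  rw [show e * (Real.exp (2 * X * d) * W₀) + U * (√2 ^ d * Real.exp (-Rcut X d ^ 2 / 4) * M)
    = (e * Real.exp (2 * X * d)
      + Real.exp (3 * X ^ 2 * d) * (√2 ^ d * Real.exp (-Rcut X d ^ 2 / 4) * M)) * W₀ by
      simp only [U]; ring]
  refine mul_le_mul_of_nonneg_right ?_ hW
  have hd := h.one_le_d
  obtain ⟨s1, s2, s3, s4, s5, s6, -, -⟩ := h.sizes
  have h1 : Real.exp (-(radC X d / sigC X) ^ 2 / 32) * Real.exp (2 * X * d)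
      ≤ Real.exp ((2 * X - X ^ 8 / 32) * d) := by
    rw [← Real.exp_add, h.ratio_sq]
    exact le_of_eq (by ring_nf)
  have h2 : √2 ^ d * Real.exp (rhoC X ^ 2 * Rcut X d ^ 2 / 2 - (radC X d / 2) ^ 2 / 4)
      * Real.exp (2 * X * d) ≤ Real.exp ((2 + 2 * X - X ^ 2 / 16) * d) := by
    refine (mul_le_mul_of_nonneg_right (mul_le_mul_of_nonneg_right h.sqrt_two_pow_le
      (Real.exp_pos _).le) (Real.exp_pos _).le).trans ?_
    rw [← Real.exp_add, ← Real.exp_add]
    refine Real.exp_le_exp.2 ?_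
    have ht : rhoC X ^ 2 * Rcut X d ^ 2 / 2 ≤ d := h.tilt_rho_le
    have e2 : (radC X d / 2) ^ 2 / 4 = X ^ 2 / 16 * d := by
      rw [radC, div_pow, mul_pow, Real.sq_sqrt (Nat.cast_nonneg d)]
      ring
    linarith
  have h3 : Real.exp (3 * X ^ 2 * d) * (√2 ^ d * Real.exp (-Rcut X d ^ 2 / 4) * M)
      ≤ Real.exp ((3 * X ^ 2 + 2 - X ^ 8 / 4) * d) := by
    have e3 : Rcut X d ^ 2 = X ^ 8 * d := by
      rw [Rcut, mul_pow, Real.sq_sqrt (Nat.cast_nonneg d)]
      ring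
    refine (mul_le_mul_of_nonneg_left (mul_le_mul (mul_le_mul_of_nonneg_right h.sqrt_two_pow_le
      (Real.exp_pos _).le) hM hB.nonneg (by positivity)) (Real.exp_pos _).le).trans (le_of_eq ?_)
    rw [← Real.exp_add, ← Real.exp_add, ← Real.exp_add, e3]
    ring_nf
  rw [add_mul]
  refine le_trans (add_le_add (add_le_add h1 h2) h3) ?_
  rw [show -(8 * (d:ℝ)) = (-8) * d by ring]
  exact h.add_three (by linarith [h.X_large]) (by linarith [h.X_large]) (by linarith [h.X_large])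

/-- The tilt of a bounded function. -/
lemma tilted_le {ρ : ℝ} (hρ : ρ ^ 2 ≤ 1 / 2) {f : Vec d → ℝ≥0∞} {B : ℝ≥0∞} (hf : ∀ g, f g ≤ B) :
    tilted ρ f ≤ B * ENNReal.ofReal (√2 ^ d) := by
  obtain ⟨hi, hv⟩ := integral_exp_sq_stdGaussian (d := d) (a := ρ ^ 2 / 2) (by linarith)
  refine (lintegral_mono fun g => mul_le_mul_left (hf g) _).trans ?_
  rw [lintegral_const_mul _ (by fun_prop)]
  refine mul_le_mul_right ?_ _
  have e : ∀ g : Vec d, Real.exp (ρ ^ 2 * ‖g‖ ^ 2 / 2) = Real.exp (ρ ^ 2 / 2 * ‖g‖ ^ 2) := fun g => by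
    ring_nf
  simp only [e]
  rw [← ofReal_integral_eq_lintegral_ofReal hi (ae_of_all _ fun g => (Real.exp_pos _).le), hv]
  refine ENNReal.ofReal_le_ofReal (pow_le_pow_left₀ (Real.sqrt_nonneg _) (Real.sqrt_le_sqrt ?_) d)
  rw [inv_le_comm₀ (by linarith) (by norm_num)]
  linarith

variable {i : ι → ℕ} {W : (t : ι) → Fin (i t) → Vec d}
  (hpv : ∀ t, Real.exp (-(2 * gP C₀ * d)) ≤ pickVol (W t))
  (hBC : ∀ t ξ, ‖LinearMap.adjoint
    (((precond (W t)).symm : Vec d →ₗ[ℝ] Vec d) ∘ₗ (C t : Vec d →ₗ[ℝ] Vec d)) ξ‖ ≤ rhoC X * ‖ξ‖)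

include hF hF0 hF1 hpv in
lemma low_total (h : Big C₀ X d) :
    ∑ t, coefK d (RW X d) * ((pickVol (W t))⁻¹ * ∫ g, |nearPart (Rcut X d) (F t) g|)
      ≤ Real.exp (3 * X ^ 4 * d) := by
  have hI : ∀ t, 0 ≤ ∫ g, |nearPart (Rcut X d) (F t) g| := fun t => integral_nonneg fun g => abs_nonneg _
  refine (Finset.sum_le_sum fun t _ => mul_le_mul_of_nonneg_left (mul_le_mul_of_nonneg_right
    ((inv_anti₀ (Real.exp_pos _) (hpv t)).trans (le_of_eq (by rw [← Real.exp_neg, neg_neg]))) (hI t))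
    (coefK_nonneg _ _)).trans ?_
  rw [← Finset.mul_sum, ← Finset.mul_sum]
  refine (mul_le_mul h.coefK_RW_le (mul_le_mul_of_nonneg_left
    ((integral_nearPart_sum_le F hF hF0 hF1).trans h.ball_cut_le) (Real.exp_pos _).le)
    (by positivity) (Real.exp_pos _).le).trans ?_
  rw [← Real.exp_add, ← Real.exp_add]
  refine Real.exp_le_exp.2 ?_
  obtain ⟨s1, s2, s3, -, -, -, -, -⟩ := h.sizes
  have : (2 * X ^ 4 + 1 + 2 * gP C₀ + X) * d ≤ 3 * X ^ 4 * d :=
    mul_le_mul_of_nonneg_right (by linarith [h.gP_le, h.X_large]) (Nat.cast_nonneg d)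
  linarith

variable {M' : ℝ} (hM'0 : 0 ≤ M') (hM' : M' ≤ Real.exp d) {v' : ι → Vec d → Vec d}
  [hfin : ∀ t a, IsFiniteMeasure (gw (child σ₀ a (C t)))]
  (hB' : ∀ t a, Base (child σ₀ a (C t)) (v' t a) M')

include hF hF0 hF1 hW hLb hLν hC hpv hBC hM'0 hM' hB' in
/-- Everything the kernels of all children do not keep. -/
theorem keep_total (h : Big C₀ X d)
    (hHν : ∑ t, ∫⁻ g, ENNReal.ofReal |F t g - lowFn (W t) (RW X d) (Rcut X d) (F t) g| ∂gw σ₀
      ≤ ENNReal.ofReal (Real.exp (-(X ^ 3 * d / 4))))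
    (hHN : ∑ t, ∫⁻ g, ENNReal.ofReal |F t g - lowFn (W t) (RW X d) (Rcut X d) (F t) g|
        ∂stdGaussian (Vec d) ≤ ENNReal.ofReal (Real.exp (-(X ^ 3 * d / 4)))) :
    ∑ t, ∫⁻ a, mixW (C t) a * ∫⁻ y, ENNReal.ofReal
        |childWin X (fun g => L g * F t g) (C t) a y - childFn X (fun g => L g * F t g) (C t) a y|
          ∂gw (child σ₀ a (C t))
      ≤ ENNReal.ofReal (Real.exp (-(8 * d)) * W₀) := by
  have hLm : Measurable L := hLb.continuous.measurable
  have hXp := h.X_pos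
  have hRW : 0 ≤ RW X d := by unfold RW; positivity
  set U := Real.exp (3 * X ^ 2 * d) * W₀
  have hU : 0 ≤ U := by positivity
  set ε₀ := Real.exp (-(X ^ 12 * d)) * W₀
  set J : ι → ℝ := fun t => coefK d (RW X d) * ((pickVol (W t))⁻¹ * ∫ g, |nearPart (Rcut X d) (F t) g|)
  have hJ0 : ∀ t, 0 ≤ J t := fun t => mul_nonneg (coefK_nonneg _ _)
    (mul_nonneg (inv_nonneg.2 (pickVol_pos _).le) (integral_nonneg fun g => abs_nonneg _))
  have hJ : ∑ t, J t ≤ Real.exp (3 * X ^ 4 * d) := low_total hF hF0 hF1 hpv h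
  have hFb := fun t g => part_le_one hF0 hF1 t g
  have hlow : ∀ t g, |lowFn (W t) (RW X d) (Rcut X d) (F t) g| ≤ J t := fun t g =>
    abs_lowFn_le (W t) hRW (hF t) (hFb t) g
  set Mχ := coefK d (radC X d) * (√(2 * π) / sigC X) ^ d
  set εχ := coefK d (radC X d) * (√(4 * π) / sigC X) ^ d * Real.exp (-(sigC X * (X ^ 7 * √d)) ^ 2 / 4)
  set Δ := Mχ * Real.exp (3 * X ^ 2 * d) * Real.exp (-(sigK X * radK X d) ^ 2 / 32)
    + (Mχ * (Real.exp (3 * X ^ 2 * d) * (√2 ^ d * Real.exp (-RW X d ^ 2 / 4))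
        + Real.exp (-(X ^ 12 * d))) + εχ * Real.exp (3 * X ^ 2 * d))
  have hMχ : 0 ≤ Mχ := mul_nonneg (coefK_nonneg _ _) (by have := h.sigC_pos; positivity)
  have hεχ : 0 ≤ εχ := mul_nonneg (mul_nonneg (coefK_nonneg _ _) (by have := h.sigC_pos; positivity))
    (Real.exp_pos _).le
  have hΔ : 0 ≤ Δ := by positivity
  set e₀ := Real.exp (-(radC X d / sigC X) ^ 2 / 8)
  set κ := M' * kap d (sigK X) (radK X d) * gaussConst (Vec d)
  have hκ0 : 0 ≤ κ := mul_nonneg (mul_nonneg hM'0 (kap_nonneg h.sigK_pos.le d _)) gaussConst_pos.le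
  set Hb := Real.exp (-(X ^ 3 * d / 4))
  set hh : ι → Vec d → ℝ≥0∞ := fun t g =>
    ENNReal.ofReal |L g * F t g - L g * lowFn (W t) (RW X d) (Rcut X d) (F t) g|
  have hhle : ∀ t g, hh t g
      ≤ ENNReal.ofReal U * ENNReal.ofReal |F t g - lowFn (W t) (RW X d) (Rcut X d) (F t) g| := by
    intro t g
    rw [← ENNReal.ofReal_mul hU]
    refine ENNReal.ofReal_le_ofReal ?_
    rw [← mul_sub, abs_mul]
    exact mul_le_mul_of_nonneg_right (hLb.abs_le g) (abs_nonneg _)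
  have hsum : ∀ ν : Measure (Vec d), ∑ t, ∫⁻ g, hh t g ∂ν ≤ ENNReal.ofReal U
      * ∑ t, ∫⁻ g, ENNReal.ofReal |F t g - lowFn (W t) (RW X d) (Rcut X d) (F t) g| ∂ν := by
    intro ν
    rw [Finset.mul_sum]
    refine Finset.sum_le_sum fun t _ => ?_
    rw [← lintegral_const_mul' _ _ ENNReal.ofReal_ne_top]
    exact lintegral_mono (hhle t)
  have hρ2 : rhoC X ^ 2 ≤ 1 / 2 := by
    have h1 : rhoC X ≤ 1 / 2 := by
      rw [rhoC, Real.exp_neg, inv_le_comm₀ (Real.exp_pos _) (by norm_num)]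
      obtain ⟨s1, s2, s3, -⟩ := h.sizes
      linarith [Real.add_one_le_exp (4 * X ^ 4), h.X_large]
    nlinarith [Real.exp_pos (-(4 * X ^ 4)), show 0 < rhoC X from Real.exp_pos _]
  have htilt : ∑ t, (tilted (rhoC X) (hh t)
      + tilted (rhoC X) (fun g => ENNReal.ofReal |L g * F t g|))
      ≤ ENNReal.ofReal (U * (2 + Real.exp (3 * X ^ 4 * d))) * ENNReal.ofReal (√2 ^ d) := by
    have hm : ∀ t, Measurable (hh t) := fun t => by
      have := measurable_lowFn (Rc := Rcut X d) (W t) hRW (hF t) (hFb t)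
      fun_prop
    have e : ∑ t, (tilted (rhoC X) (hh t) + tilted (rhoC X) (fun g => ENNReal.ofReal |L g * F t g|))
        = tilted (rhoC X) (fun g => ∑ t, (hh t g + ENNReal.ofReal |L g * F t g|)) := by
      simp only [tilted, Finset.sum_mul, add_mul]
      rw [lintegral_finsetSum _ fun t _ => by fun_prop]
      exact Finset.sum_congr rfl fun t _ => (lintegral_add_left (by fun_prop) _).symm
    rw [e]
    refine tilted_le hρ2 fun g => ?_
    rw [Finset.sum_add_distrib, ← ENNReal.ofReal_sum_of_nonneg fun t _ => abs_nonneg _]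
    rw [← ENNReal.ofReal_sum_of_nonneg fun t _ => abs_nonneg _,
      ← ENNReal.ofReal_add (Finset.sum_nonneg fun t _ => abs_nonneg _)
        (Finset.sum_nonneg fun t _ => abs_nonneg _)]
    refine ENNReal.ofReal_le_ofReal ?_
    simp only [← mul_sub, abs_mul, ← Finset.mul_sum, ← mul_add]
    refine mul_le_mul (hLb.abs_le g) ?_ (by positivity) hU
    have h1 : ∑ t, |F t g - lowFn (W t) (RW X d) (Rcut X d) (F t) g| ≤ ∑ t, (F t g + J t) :=
      Finset.sum_le_sum fun t _ => (abs_sub _ _).trans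
        (add_le_add (le_of_eq (abs_of_nonneg (hF0 t g))) (hlow t g))
    rw [Finset.sum_add_distrib] at h1
    simp only [abs_of_nonneg (hF0 _ g)]
    linarith [hF1 g]
  have hband : ∀ t a y, |chi (sigC X) (radC X d) y
        * (L (a + C t y) * lowFn (W t) (RW X d) (Rcut X d) (F t) (a + C t y))
      - convK (sigK X) (radK X d) (fun z => chi (sigC X) (radC X d) z
        * (L (a + C t z) * lowFn (W t) (RW X d) (Rcut X d) (F t) (a + C t z))) y| ≤ Δ * J t * W₀ := by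
    intro t a y
    refine (keep_low_le (W t) hRW (hF t) (hFb t) hLb (Real.exp_pos _).le (hC t) (hBC t)
      (Tχ := X ^ 7 * √d) h.sigC_pos (by positivity) h.sigK_pos h.radK_nonneg h.band_room h.keep_ge a y).trans
      (le_of_eq ?_)
    simp only [Δ, Mχ, εχ, J, U]
    ring
  refine (Finset.sum_le_sum fun t _ => keep_err_le (σ₀ := σ₀) (show 0 ≤ rhoC X from (Real.exp_pos _).le) h.rhoC_lt (hC t)
    hM'0 (hB' t) (f := fun g => L g * F t g)
    (l := fun g => L g * lowFn (W t) (RW X d) (Rcut X d) (F t) g) (hLm.mul (hF t))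
    (hLm.mul (measurable_lowFn (W t) hRW (hF t) (hFb t))) (U := U * (1 + J t))
    (fun g => by
      rw [abs_mul]
      exact mul_le_mul (hLb.abs_le g) (by linarith [hFb t g, hJ0 t]) (abs_nonneg _) hU)
    (fun g => by
      rw [abs_mul]
      exact mul_le_mul (hLb.abs_le g) (by linarith [hlow t g, hJ0 t]) (abs_nonneg _) hU)
    (σ := sigC X) (r := radC X d) (s := sigK X) (R := radK X d) h.sigC_pos h.radC_nonneg h.ratio_ge
    h.sigK_pos h.sigK_le (hband t)).trans ?_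
  simp only [Finset.sum_add_distrib, ← Finset.mul_sum]
  refine (add_le_add (add_le_add (b := ENNReal.ofReal (M' * (Δ * Real.exp (3 * X ^ 4 * d) * W₀))) ?_
    (add_le_add ((hsum _).trans (mul_le_mul_right hHν _))
      (mul_le_mul_right ((sum_parts_le hF hF0 hF1 hLm _).trans hLν) _)))
    (mul_le_mul_right (add_le_add (mul_le_mul_right ((hsum _).trans (mul_le_mul_right hHN _)) _)
      (mul_le_mul_right (le_of_eq_of_le (Finset.sum_add_distrib).symm htilt) _)) _)).trans ?_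
  · rw [← ENNReal.ofReal_sum_of_nonneg fun t _ => by have := hJ0 t; positivity]
    refine ENNReal.ofReal_le_ofReal ?_
    rw [← Finset.mul_sum, ← Finset.sum_mul, ← Finset.mul_sum]
    gcongr
  rw [← ENNReal.ofReal_mul hU, ← ENNReal.ofReal_mul (Real.exp_pos _).le,
    ← ENNReal.ofReal_mul (show (0:ℝ) ≤ U * (2 + Real.exp (3 * X ^ 4 * d)) by positivity),
    ← ENNReal.ofReal_mul (show (0:ℝ) ≤ Real.exp (2 * (sigK X * radC X d) ^ 2) by positivity),
    ← ENNReal.ofReal_mul (show (0:ℝ) ≤ e₀ * √2 ^ d by positivity),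
    ← ENNReal.ofReal_add (p := U * Hb) (by positivity) (by positivity),
    ← ENNReal.ofReal_add (p := Real.exp (2 * (sigK X * radC X d) ^ 2) * (U * Hb)) (by positivity)
      (by positivity),
    ← ENNReal.ofReal_mul (show 0 ≤ M' * kap d (sigK X) (radK X d) * gaussConst (Vec d) from hκ0),
    ← ENNReal.ofReal_add (p := M' * (Δ * Real.exp (3 * X ^ 4 * d) * W₀)) (by positivity) (by positivity),
    ← ENNReal.ofReal_add (by positivity) (mul_nonneg hκ0 (by positivity))]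
  refine ENNReal.ofReal_le_ofReal ?_
  rw [show M' * (Δ * Real.exp (3 * X ^ 4 * d) * W₀) + (U * Hb + e₀ * (Real.exp (2 * X * d) * W₀))
      + κ * (Real.exp (2 * (sigK X * radC X d) ^ 2) * (U * Hb)
        + e₀ * √2 ^ d * (U * (2 + Real.exp (3 * X ^ 4 * d)) * √2 ^ d))
    = (M' * Δ * Real.exp (3 * X ^ 4 * d) + (Real.exp (3 * X ^ 2 * d) * Hb + e₀ * Real.exp (2 * X * d))
      + κ * (Real.exp (2 * (sigK X * radC X d) ^ 2) * (Real.exp (3 * X ^ 2 * d) * Hb)
        + e₀ * √2 ^ d * (Real.exp (3 * X ^ 2 * d) * (2 + Real.exp (3 * X ^ 4 * d)) * √2 ^ d))) * W₀ by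
      simp only [U]; ring]
  refine mul_le_mul_of_nonneg_right ?_ hW
  have hd := h.one_le_d
  obtain ⟨s1, s2, s3, s4, s5, s6, s7, -⟩ := h.sizes
  have hX100 := h.X_large
  have hMχle : Mχ ≤ Real.exp (X * d) := h.chi_coeff_le (by norm_num) (by norm_num)
  have hΔle : Δ ≤ Real.exp ((-(X ^ 8 / 8) + 3) * d) := by
    have t1 : Mχ * Real.exp (3 * X ^ 2 * d) * Real.exp (-(sigK X * radK X d) ^ 2 / 32)
        ≤ Real.exp ((X + 3 * X ^ 2 - X ^ 14 / 128) * d) := by
      refine (mul_le_mul_of_nonneg_right (mul_le_mul_of_nonneg_right hMχle (Real.exp_pos _).le)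
        (Real.exp_pos _).le).trans (le_of_eq ?_)
      rw [← Real.exp_add, ← Real.exp_add, h.keep_sq]
      ring_nf
    have t2 : Mχ * (Real.exp (3 * X ^ 2 * d) * (√2 ^ d * Real.exp (-RW X d ^ 2 / 4))
        + Real.exp (-(X ^ 12 * d))) ≤ Real.exp ((X + 3 * X ^ 2 + 2 - X ^ 12) * d) := by
      refine (mul_le_mul hMχle (?_ : _ ≤ Real.exp ((3 * X ^ 2 + 2 - X ^ 12) * d)) (by positivity)
        (Real.exp_pos _).le).trans (le_of_eq ?_)
      · have a1 : Real.exp (3 * X ^ 2 * d) * (√2 ^ d * Real.exp (-RW X d ^ 2 / 4))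
            ≤ Real.exp ((3 * X ^ 2 + 1 - X ^ 12) * d) := by
          refine (mul_le_mul_of_nonneg_left (mul_le_mul_of_nonneg_right h.sqrt_two_pow_le
            (Real.exp_pos _).le) (Real.exp_pos _).le).trans ?_
          rw [← Real.exp_add, ← Real.exp_add]
          refine Real.exp_le_exp.2 ?_
          linarith [h.RW_sq_ge]
        have a2 : Real.exp (-(X ^ 12 * d)) ≤ Real.exp ((3 * X ^ 2 + 1 - X ^ 12) * d) := by
          refine Real.exp_le_exp.2 ?_
          nlinarith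
        have a3 : 2 * Real.exp ((3 * X ^ 2 + 1 - X ^ 12) * d) ≤ Real.exp ((3 * X ^ 2 + 2 - X ^ 12) * d) := by
          refine (mul_le_mul_of_nonneg_right (show (2:ℝ) ≤ Real.exp (1 * d) by
            linarith [Real.add_one_le_exp (1 * (d:ℝ))]) (Real.exp_pos _).le).trans (le_of_eq ?_)
          rw [← Real.exp_add]
          ring_nf
        linarith
      · rw [← Real.exp_add]
        ring_nf
    have t3 : εχ * Real.exp (3 * X ^ 2 * d) ≤ Real.exp ((X + 3 * X ^ 2 - X ^ 8 / 4) * d) := by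
      refine (mul_le_mul_of_nonneg_right (mul_le_mul_of_nonneg_right
        (h.chi_coeff_le (c := 4) (by norm_num) (by norm_num)) (Real.exp_pos _).le)
        (Real.exp_pos _).le).trans (le_of_eq ?_)
      have e : (sigC X * (X ^ 7 * √d)) ^ 2 = X ^ 8 * d := by
        rw [sigC, mul_pow, mul_pow, Real.sq_sqrt (Nat.cast_nonneg d)]
        field_simp
      rw [← Real.exp_add, ← Real.exp_add, e]
      ring_nf
    refine le_trans (le_of_eq_of_le (add_assoc _ _ _).symm (add_le_add (add_le_add t1 t2) t3)) ?_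
    have hp : 100 * X ^ 8 ≤ X ^ 14 :=
      (h.hundred_mul (a := 13)).trans' (mul_le_mul_of_nonneg_left (h.pow_le (by norm_num)) (by norm_num))
    have hp2 : 100 * X ^ 8 ≤ X ^ 12 :=
      (h.hundred_mul (a := 11)).trans' (mul_le_mul_of_nonneg_left (h.pow_le (by norm_num)) (by norm_num))
    exact h.add_three (by linarith) (by linarith) (by linarith)
  have he₀ : e₀ = Real.exp (-(X ^ 8 / 8) * d) := by
    simp only [e₀, h.ratio_sq]
    ring_nf
  have hκle : κ ≤ Real.exp ((X / 4 + 5) * d) := by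
    simp only [κ, mul_assoc]
    refine (mul_le_mul hM' h.kap_gauss_le (mul_nonneg (kap_nonneg h.sigK_pos.le d _) gaussConst_pos.le)
      (Real.exp_pos _).le).trans (le_of_eq ?_)
    rw [← Real.exp_add]
    ring_nf
  have q1 : M' * Δ * Real.exp (3 * X ^ 4 * d) ≤ Real.exp ((3 * X ^ 4 + 4 - X ^ 8 / 8) * d) := by
    refine (mul_le_mul_of_nonneg_right (mul_le_mul hM' hΔle hΔ (Real.exp_pos _).le)
      (Real.exp_pos _).le).trans (le_of_eq ?_)
    rw [← Real.exp_add, ← Real.exp_add]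
    ring_nf
  have q2 : Real.exp (3 * X ^ 2 * d) * Hb + e₀ * Real.exp (2 * X * d)
      ≤ Real.exp ((3 * X ^ 2 + 1 - X ^ 3 / 4) * d) := by
    have a1 : Real.exp (3 * X ^ 2 * d) * Hb = Real.exp ((3 * X ^ 2 - X ^ 3 / 4) * d) := by
      simp only [Hb, ← Real.exp_add]
      ring_nf
    have a2 : e₀ * Real.exp (2 * X * d) ≤ Real.exp ((3 * X ^ 2 - X ^ 3 / 4) * d) := by
      rw [he₀, ← Real.exp_add, ← add_mul]
      exact Real.exp_le_exp.2 (mul_le_mul_of_nonneg_right (by linarith) (Nat.cast_nonneg d))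
    have a3 : 2 * Real.exp ((3 * X ^ 2 - X ^ 3 / 4) * d) ≤ Real.exp ((3 * X ^ 2 + 1 - X ^ 3 / 4) * d) := by
      refine (mul_le_mul_of_nonneg_right (show (2:ℝ) ≤ Real.exp (1 * d) by
        linarith [Real.add_one_le_exp (1 * (d:ℝ))]) (Real.exp_pos _).le).trans (le_of_eq ?_)
      rw [← Real.exp_add]
      ring_nf
    linarith
  have q3 : κ * (Real.exp (2 * (sigK X * radC X d) ^ 2) * (Real.exp (3 * X ^ 2 * d) * Hb)
      + e₀ * √2 ^ d * (Real.exp (3 * X ^ 2 * d) * (2 + Real.exp (3 * X ^ 4 * d)) * √2 ^ d))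
      ≤ Real.exp ((X / 4 + 3 * X ^ 2 + 9 - X ^ 3 / 4) * d) := by
    have a1 : Real.exp (2 * (sigK X * radC X d) ^ 2) * (Real.exp (3 * X ^ 2 * d) * Hb)
        = Real.exp ((3 * X ^ 2 + 1/2 - X ^ 3 / 4) * d) := by
      rw [h.two_sigK_radC]
      simp only [Hb, ← Real.exp_add]
      ring_nf
    have a2 : e₀ * √2 ^ d * (Real.exp (3 * X ^ 2 * d) * (2 + Real.exp (3 * X ^ 4 * d)) * √2 ^ d)
        ≤ Real.exp ((3 * X ^ 2 + 3 * X ^ 4 + 4 - X ^ 8 / 8) * d) := by
      have b1 : 2 + Real.exp (3 * X ^ 4 * d) ≤ Real.exp ((3 * X ^ 4 + 2) * d) := by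
        rw [add_mul, Real.exp_add]
        have b2 : (3:ℝ) ≤ Real.exp (2 * d) := by linarith [Real.add_one_le_exp (2 * (d:ℝ))]
        have b3 : (1:ℝ) ≤ Real.exp (3 * X ^ 4 * d) := Real.one_le_exp (by positivity)
        have b4 := mul_le_mul_of_nonneg_left b2 (Real.exp_pos (3 * X ^ 4 * (d:ℝ))).le
        linarith
      rw [he₀]
      refine (mul_le_mul (mul_le_mul_of_nonneg_left h.sqrt_two_pow_le (Real.exp_pos _).le)
        (mul_le_mul (mul_le_mul_of_nonneg_left b1 (Real.exp_pos _).le) h.sqrt_two_pow_le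
          (by positivity) (by positivity)) (by positivity) (by positivity)).trans (le_of_eq ?_)
      rw [← Real.exp_add, ← Real.exp_add, ← Real.exp_add, ← Real.exp_add]
      ring_nf
    refine (mul_le_mul hκle (add_le_add a1.le a2) (by positivity) (Real.exp_pos _).le).trans ?_
    rw [mul_add, ← Real.exp_add, ← Real.exp_add, ← add_mul, ← add_mul]
    refine le_trans (le_add_of_nonneg_right (Real.exp_pos (((0:ℝ) - X ^ 8) * d)).le) ?_
    exact h.add_three (by linarith) (by linarith) (by linarith)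
  rw [show -(8 * (d:ℝ)) = (-8) * d by ring]
  exact (add_le_add (add_le_add q1 q2) q3).trans
    (h.add_three (by linarith) (by linarith) (by linarith))

end Vale.Agent.P309.Sharp
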