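import Vale.Agent.P309.Sharp.Setup

/-! The tree of heavy picks of one phase. -/

namespace Vale.Agent.P309.Sharp

open MeasureTheory ProbabilityTheory
open scoped RealInnerProductSpace Real ENNReal

variable {d k : ℕ}

section

variable {Φ : (Fin k → Vec d) → Vec k → ℝ} (hΦ : Measurable (Function.uncurry Φ))
  (h0 : ∀ x y, 0 ≤ Φ x y) {Ry V : ℝ} (hV : ∀ x, wt Φ Ry x ≤ V)

include h0 in
lemma wt_nonneg' (x : Fin k → Vec d) : 0 ≤ wt Φ Ry x :=
  integral_nonneg fun y => Set.indicator_nonneg (fun y _ => h0 x y) y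

include hΦ in
lemma measurable_wt' : Measurable (wt Φ Ry) := by
  have hS : MeasurableSet {q : (Fin k → Vec d) × Vec k | ‖q.2‖ ≤ Ry} :=
    measurableSet_le measurable_snd.norm measurable_const
  have h : StronglyMeasurable (Function.uncurry fun (x : Fin k → Vec d) (y : Vec k) => cutK Φ Ry x y) := by
    refine (Measurable.stronglyMeasurable ?_)
    exact hΦ.indicator hS
  exact h.integral_prod_right.measurable

include hΦ h0 hV in
lemma integrable_wt' : Integrable (wt Φ Ry) (rowsLaw d k) :=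
  (memLp_top_of_bound (measurable_wt' hΦ).aestronglyMeasurable V (ae_of_all _ fun x => by
    rw [Real.norm_of_nonneg (wt_nonneg' h0 x)]; exact hV x)).integrable le_top

include h0 in
lemma mass_nonneg' (S : Set (Fin k → Vec d)) : 0 ≤ mass Φ Ry S :=
  integral_nonneg fun x => wt_nonneg' h0 x

include hΦ h0 hV in
lemma mass_union' {S T : Set (Fin k → Vec d)} (hST : Disjoint S T) (hT : MeasurableSet T) :
    mass Φ Ry (S ∪ T) = mass Φ Ry S + mass Φ Ry T :=
  setIntegral_union hST hT (integrable_wt' hΦ h0 hV).integrableOn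
    (integrable_wt' hΦ h0 hV).integrableOn

include hΦ h0 hV in
lemma mass_mono' {S T : Set (Fin k → Vec d)} (hST : S ⊆ T) : mass Φ Ry S ≤ mass Φ Ry T :=
  setIntegral_mono_set (integrable_wt' hΦ h0 hV).integrableOn (ae_of_all _ (wt_nonneg' h0))
    hST.eventuallyLE

include hΦ h0 hV in
lemma mass_le' {S : Set (Fin k → Vec d)} {D : ℝ} (hD0 : 0 ≤ D)
    (hD : rowsLaw d k S ≤ ENNReal.ofReal D) : mass Φ Ry S ≤ V * D := by
  have hV0 : 0 ≤ V := (wt_nonneg' h0 (fun _ => 0)).trans (hV _)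
  calc mass Φ Ry S ≤ ∫ _ in S, V ∂rowsLaw d k :=
        setIntegral_mono (integrable_wt' hΦ h0 hV).integrableOn (integrable_const V).integrableOn hV
    _ = (rowsLaw d k).real S * V := by rw [setIntegral_const, smul_eq_mul]
    _ ≤ D * V := by
        refine mul_le_mul_of_nonneg_right ?_ hV0
        rw [measureReal_def]
        exact (ENNReal.toReal_mono ENNReal.ofReal_ne_top hD).trans_eq (ENNReal.toReal_ofReal hD0)
    _ = V * D := mul_comm _ _

end

/-- A leaf: its picks and its rows. -/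
structure Leaf (d k : ℕ) where
  /-- depth -/
  i : ℕ
  /-- picks -/
  W : Fin i → Vec d
  /-- rows -/
  S : Set (Fin k → Vec d)

/-- The rows of a list of leaves. -/
def cover (L : List (Leaf d k)) : Set (Fin k → Vec d) := ⋃ l ∈ L, l.S

lemma cover_append (L L' : List (Leaf d k)) : cover (L ++ L') = cover L ∪ cover L' := by
  simp only [cover, List.mem_append, Set.iUnion_or, Set.iUnion_union_distrib]

/-- A tree of picks below a node. -/
def Grows (A : Vec d ≃ₗ[ℝ] Vec d) (δ : ℝ) (Φ : (Fin k → Vec d) → Vec k → ℝ) (Ry Λ α : ℝ) (m : ℕ)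
    (S : Set (Fin k → Vec d)) (N b : ℝ) : Prop :=
  ∃ L : List (Leaf d k), (L.length : ℝ) ≤ N ∧
    (∀ l ∈ L, l.i < m ∧ pickVol l.W = ((√(1 + Λ ^ 2)) ^ l.i)⁻¹ ∧ MeasurableSet l.S ∧ l.S ⊆ S ∧
      Terminal A δ Φ Ry Λ α l.W l.S) ∧
    L.Pairwise (fun l l' => Disjoint l.S l'.S) ∧ mass Φ Ry (S \ cover L) ≤ b

section

variable {A : Vec d ≃ₗ[ℝ] Vec d} {δ : ℝ}
    {Φ : (Fin k → Vec d) → Vec k → ℝ} (hΦ : Measurable (Function.uncurry Φ))
    (h0 : ∀ x y, 0 ≤ Φ x y) {Ry Λ α η V D : ℝ}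
    (hα1 : α ≤ 1) {n : ℕ} (hn : (1 - α) ^ n ≤ η) (hV : ∀ x, wt Φ Ry x ≤ V)
    {G : Set (Fin k → Vec d)} {m : ℕ}
    (hD : ∀ W : Fin m → Vec d, pickVol W ≤ ((√(1 + Λ ^ 2)) ^ m)⁻¹ →
      rowsLaw d k (G ∩ ⋂ j, nearSet A δ (W j)) ≤ ENNReal.ofReal D) (hD0 : 0 ≤ D)

include hΦ h0 hα1 hn hV hD hD0 in
theorem grows_node : ∀ (r : ℕ) {i : ℕ} (W : Fin i → Vec d) (S : Set (Fin k → Vec d)), i + r = m →
    pickVol W = ((√(1 + Λ ^ 2)) ^ i)⁻¹ → MeasurableSet S → S ⊆ G →
    (∀ j, S ⊆ nearSet A δ (W j)) →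
    Grows A δ Φ Ry Λ α m S (((n : ℝ) + 1) ^ r)
      (r * η * mass Φ Ry S + ((n : ℝ) + 1) ^ r * (V * D)) := by
  have hVD : 0 ≤ V * D :=
    mul_nonneg ((wt_nonneg' (Ry := Ry) h0 (fun _ => 0)).trans (hV _)) hD0
  intro r
  induction r with
  | zero =>
    intro i W S hi hW hS hSG hnear
    obtain rfl : i = m := by omega
    refine ⟨[], by simp, by simp, List.Pairwise.nil, ?_⟩
    have h1 : mass Φ Ry S ≤ V * D := mass_le' hΦ h0 hV hD0 <| (measure_mono
      (Set.subset_inter hSG (Set.subset_iInter hnear))).trans (hD W hW.le)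
    simpa [cover] using h1
  | succ r ih =>
    intro i W S hi hW hS hSG hnear
    set N : ℝ := ((n : ℝ) + 1) ^ r
    have hN1 : 1 ≤ N := one_le_pow₀ (by linarith [n.cast_nonneg (α := ℝ)])
    have loop : ∀ q : ℕ, ∀ S' ⊆ S, MeasurableSet S' → Grows A δ Φ Ry Λ α m S' (1 + q * N)
        (r * η * mass Φ Ry S' + q * (N * (V * D)) + (1 - α) ^ q * mass Φ Ry S') := by
      have hη : 0 ≤ η := (pow_nonneg (by linarith) n).trans hn
      intro q
      induction q with
      | zero =>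
        intro S' _ _
        refine ⟨[], by simp, by simp, List.Pairwise.nil, ?_⟩
        have := mass_nonneg' (Φ := Φ) (Ry := Ry) h0 S'
        simp [cover]
        positivity
      | succ q ihq =>
        intro S' hS'S hS'
        have hM := mass_nonneg' (Φ := Φ) (Ry := Ry) h0 S'
        by_cases hT : Terminal A δ Φ Ry Λ α W S'
        · refine ⟨[⟨i, W, S'⟩], by simp only [List.length_singleton, Nat.cast_one]; linarith [show (0:ℝ) ≤ (q + 1 : ℕ) * N by positivity],
            ?_, List.pairwise_singleton _ _, ?_⟩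
          · simp only [List.mem_singleton, forall_eq]
            exact ⟨by omega, hW, hS', subset_rfl, hT⟩
          · have : (0:ℝ) ≤ (1 - α) ^ (q + 1) := pow_nonneg (by linarith) _
            simp [cover, mass]
            unfold mass at hM
            positivity
        simp only [Terminal, not_forall, not_le] at hT
        obtain ⟨w, hw, hheavy⟩ := hT
        set S₁ := S' ∩ nearSet A δ w with hS1
        set S₂ := S' \ nearSet A δ w with hS2
        have hm1 : MeasurableSet S₁ := hS'.inter (measurableSet_nearSet A δ w)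
        have hm2 : MeasurableSet S₂ := hS'.diff (measurableSet_nearSet A δ w)
        have hdis : Disjoint S₁ S₂ := Disjoint.mono_left Set.inter_subset_right Set.disjoint_sdiff_right
        have hsum : mass Φ Ry S' = mass Φ Ry S₁ + mass Φ Ry S₂ := by
          rw [← mass_union' hΦ h0 hV hdis hm2, hS1, hS2, Set.inter_union_sdiff]
        obtain ⟨L₁, hc₁, hl₁, hp₁, hb₁⟩ := ih (Fin.cons w W) S₁ (by omega)
          (by rw [pickVol_cons, hW, hw, ← mul_inv, ← pow_succ])
          hm1 (Set.inter_subset_left.trans (hS'S.trans hSG)) (fun j => by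
            refine Fin.cases ?_ (fun j => ?_) j
            · rw [Fin.cons_zero]; exact Set.inter_subset_right
            · rw [Fin.cons_succ]; exact Set.inter_subset_left.trans (hS'S.trans (hnear j)))
        obtain ⟨L₂, hc₂, hl₂, hp₂, hb₂⟩ := ihq S₂ (Set.sdiff_subset.trans hS'S) hm2
        refine ⟨L₁ ++ L₂, ?_, ?_, ?_, ?_⟩
        · push_cast [List.length_append]
          linarith
        · intro l hl
          rcases List.mem_append.1 hl with h | h
          · obtain ⟨a, b, c, e, f⟩ := hl₁ l h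
            exact ⟨a, b, c, e.trans Set.inter_subset_left, f⟩
          · obtain ⟨a, b, c, e, f⟩ := hl₂ l h
            exact ⟨a, b, c, e.trans Set.sdiff_subset, f⟩
        · refine List.pairwise_append.2 ⟨hp₁, hp₂, fun l hl l' hl' => ?_⟩
          exact hdis.mono (hl₁ l hl).2.2.2.1 (hl₂ l' hl').2.2.2.1
        · have hsub : S' \ cover (L₁ ++ L₂) ⊆ (S₁ \ cover L₁) ∪ (S₂ \ cover L₂) := by
            rw [cover_append]
            rintro x ⟨hx, hx'⟩
            simp only [Set.mem_union, not_or] at hx'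
            by_cases h : x ∈ nearSet A δ w
            · exact Or.inl ⟨⟨hx, h⟩, hx'.1⟩
            · exact Or.inr ⟨⟨hx, h⟩, hx'.2⟩
          have hc : MeasurableSet (cover L₂) :=
            MeasurableSet.biUnion L₂.finite_toSet.countable fun l hl => (hl₂ l hl).2.2.1
          have h2 := (mass_mono' hΦ h0 hV hsub).trans (mass_union' hΦ h0 hV
            (hdis.mono Set.sdiff_subset Set.sdiff_subset) (hm2.diff hc)).le
          have h3 : mass Φ Ry S₂ ≤ (1 - α) * mass Φ Ry S' := by linarith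
          have h4 := mul_le_mul_of_nonneg_left h3 (pow_nonneg (show 0 ≤ 1 - α by linarith) q)
          push_cast at hb₂ ⊢
          rw [pow_succ]
          linear_combination h2 + hb₁ + hb₂ + h4 - (r : ℝ) * η * hsum
    obtain ⟨L, hc, hl, hp, hb⟩ := loop n S subset_rfl hS
    refine ⟨L, hc.trans ?_, hl, hp, hb.trans ?_⟩
    · rw [pow_succ]
      linarith
    · have h1 := mul_le_mul_of_nonneg_right hn (mass_nonneg' (Φ := Φ) (Ry := Ry) h0 S)
      have h2 : 0 ≤ N * (V * D) := mul_nonneg (zero_le_one.trans hN1) hVD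
      rw [pow_succ]
      push_cast
      linarith

end

/-- B: the leaves of the tree of picks. -/
theorem exists_leaves {d k : ℕ} {A : Vec d ≃ₗ[ℝ] Vec d} {δ : ℝ}
    {Φ : (Fin k → Vec d) → Vec k → ℝ} (hΦ : Measurable (Function.uncurry Φ))
    (h0 : ∀ x y, 0 ≤ Φ x y) (h1 : ∀ x y, Φ x y ≤ 1) {Ry Λ α η V D : ℝ}
    (hΛ : 0 ≤ Λ) (hα0 : 0 ≤ α) (hα1 : α ≤ 1) {n : ℕ} (hn : (1 - α) ^ n ≤ η)
    (hV : ∀ x, wt Φ Ry x ≤ V) {G : Set (Fin k → Vec d)} (hG : MeasurableSet G) (m : ℕ)
    (hD : ∀ W : Fin m → Vec d, pickVol W ≤ ((√(1 + Λ ^ 2)) ^ m)⁻¹ →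
      rowsLaw d k (G ∩ ⋂ j, nearSet A δ (W j)) ≤ ENNReal.ofReal D) (hD0 : 0 ≤ D) :
    ∃ (c : ℕ) (i : Fin c → ℕ) (W : (t : Fin c) → Fin (i t) → Vec d)
      (S : Fin c → Set (Fin k → Vec d)),
      (c : ℝ) ≤ ((n : ℝ) + 1) ^ m ∧ (∀ t, i t < m) ∧
      (∀ t, pickVol (W t) = ((√(1 + Λ ^ 2)) ^ i t)⁻¹) ∧
      (∀ t, MeasurableSet (S t)) ∧ (∀ t, S t ⊆ G) ∧ Pairwise (fun s t => Disjoint (S s) (S t)) ∧
      (∀ t, Terminal A δ Φ Ry Λ α (W t) (S t)) ∧
      mass Φ Ry (G \ ⋃ t, S t) ≤ m * η * mass Φ Ry G + ((n : ℝ) + 1) ^ m * V * D := by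
  have _ := h1
  have _ := hΛ
  have _ := hα0
  obtain ⟨L, hc, hl, hp, hb⟩ := grows_node hΦ h0 hα1 hn hV hD hD0 m
    (Fin.elim0 : Fin 0 → Vec d) G (Nat.zero_add m) (by simp [pickVol]) hG subset_rfl
    fun j => j.elim0
  refine ⟨L.length, fun t => (L.get t).i, fun t => (L.get t).W, fun t => (L.get t).S, hc,
    fun t => (hl _ (L.get_mem t)).1, fun t => (hl _ (L.get_mem t)).2.1,
    fun t => (hl _ (L.get_mem t)).2.2.1, fun t => (hl _ (L.get_mem t)).2.2.2.1, ?_,
    fun t => (hl _ (L.get_mem t)).2.2.2.2, ?_⟩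
  · intro s t hst
    rcases lt_or_gt_of_ne hst with h | h
    · exact List.pairwise_iff_get.1 hp s t h
    · exact (List.pairwise_iff_get.1 hp t s h).symm
  · have : (⋃ t, (L.get t).S) = cover L := by
      ext x
      simp only [cover, Set.mem_iUnion, exists_prop]
      constructor
      · rintro ⟨t, ht⟩
        exact ⟨_, L.get_mem t, ht⟩
      · rintro ⟨l, hlL, hx⟩
        obtain ⟨t, rfl⟩ := List.get_of_mem hlL
        exact ⟨t, hx⟩
    rw [this]
    linarith

end Vale.Agent.P309.Sharp
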