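import Vale.Agent.P309.Sharp.Tools

/-! Integrals along a family of rows, controlled by the inverse volume of the rows. -/

namespace Vale.Agent.P309.Sharp

open MeasureTheory ProbabilityTheory Filter Topology Complex
open scoped RealInnerProductSpace Real ENNReal

variable {N n : ℕ}

/-- The combination of rows with given coefficients. -/
noncomputable def comb {d n : ℕ} (X : Fin n → Vec d) (ζ : Vec n) : Vec d := ∑ l, ζ l • X l

lemma continuous_comb {d n : ℕ} (X : Fin n → Vec d) : Continuous (comb X) := by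
  unfold comb; fun_prop

lemma comb_sub {d n : ℕ} (X : Fin n → Vec d) (a b : Vec n) :
    comb X (a - b) = comb X a - comb X b := by
  simp [comb, sub_smul, Finset.sum_sub_distrib]

lemma comb_smul {d n : ℕ} (X : Fin n → Vec d) (c : ℝ) (a : Vec n) :
    comb X (c • a) = c • comb X a := by
  simp [comb, Finset.smul_sum, smul_smul]

lemma lintegral_comp_smul {F : Vec n → ℝ≥0∞} (hF : Measurable F) {c : ℝ} (hc : 0 < c) :
    ∫⁻ ζ, F ζ = ENNReal.ofReal (c ^ n) * ∫⁻ ζ, F (c • ζ) := by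
  have h := Measure.map_addHaar_smul (volume : Measure (Vec n)) hc.ne'
  rw [← lintegral_map hF (measurable_const_smul c), h, lintegral_smul_measure, smul_eq_mul,
    ← mul_assoc, ← ENNReal.ofReal_mul (by positivity), finrank_euclideanSpace_fin,
    abs_of_pos (by positivity), mul_inv_cancel₀ (by positivity), ENNReal.ofReal_one, one_mul]

/-- The Gaussian integral along rows is controlled by the inverse volume. -/
theorem lintegral_exp_comb_le (X : Fin n → Vec (N + 1)) :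
    ∫⁻ ζ : Vec n, ENNReal.ofReal (Real.exp (-‖comb X ζ‖ ^ 2 / 2))
      ≤ ENNReal.ofReal (√(2 * π) ^ n) * jac X := by
  rcases eq_or_ne (jac X) ⊤ with hJ | hJ
  · rw [hJ, ENNReal.mul_top]
    · exact le_top
    · simp only [ne_eq, ENNReal.ofReal_eq_zero, not_le]; positivity
  set L : Vec (N + 1) → Vec n := fun g => WithLp.toLp 2 fun l => ⟪X l, g⟫
  have hL : Continuous L := by simp only [L]; fun_prop
  have hLc : ∀ g ζ, ⟪g, comb X ζ⟫ = ⟪L g, ζ⟫ := by
    intro g ζ
    simp only [comb, inner_sum, inner_smul_right, L]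
    rw [PiLp.inner_apply]
    refine Finset.sum_congr rfl fun l _ => ?_
    simp [real_inner_comm g]
  have hb : ∀ h : ℝ, 0 < h →
      ∫⁻ ζ : Vec n, ENNReal.ofReal (Real.exp (-‖comb X ζ‖ ^ 2 / 2) * Real.exp (-(h ^ 2 / 2) * ‖ζ‖ ^ 2))
        ≤ ENNReal.ofReal (√(2 * π) ^ n) * jac X := by
    intro h hh
    have hg : Integrable fun ζ : Vec n => Real.exp (-(h ^ 2 / 2) * ‖ζ‖ ^ 2) := by
      refine ((integrable_gauss (V := Vec n)).comp_smul hh.ne').congr (ae_of_all _ fun ξ => ?_)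
      simp only [norm_smul, Real.norm_eq_abs, mul_pow, sq_abs]
      ring_nf
    have hc := continuous_comb X
    have hi : Integrable fun ζ : Vec n =>
        Real.exp (-‖comb X ζ‖ ^ 2 / 2) * Real.exp (-(h ^ 2 / 2) * ‖ζ‖ ^ 2) := by
      refine hg.mono' (by fun_prop) (ae_of_all _ fun ζ => ?_)
      rw [Real.norm_of_nonneg (by positivity)]
      exact mul_le_of_le_one_left (Real.exp_pos _).le
        (Real.exp_le_one_iff.2 (by nlinarith [sq_nonneg ‖comb X ζ‖]))
    have key : ((∫ ζ : Vec n, Real.exp (-‖comb X ζ‖ ^ 2 / 2) * Real.exp (-(h ^ 2 / 2) * ‖ζ‖ ^ 2) : ℝ) : ℂ)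
        = ((∫ g, (2 * π) ^ n * (h ^ n)⁻¹ * gaussKer (h⁻¹ • L g) ∂stdGaussian (Vec (N + 1)) : ℝ) : ℂ) := by
      rw [← integral_complex_ofReal, ← integral_complex_ofReal]
      have e1 : ∀ g, (((2 * π) ^ n * (h ^ n)⁻¹ * gaussKer (h⁻¹ • L g) : ℝ) : ℂ)
          = ∫ ζ : Vec n, cexp (-((h ^ 2 / 2 : ℝ) : ℂ) * (‖ζ‖:ℂ) ^ 2 + I * (⟪L g, ζ⟫ : ℝ)) :=
        fun g => by rw [gaussKer_fourier hh, finrank_euclideanSpace_fin]
      simp only [e1]
      rw [integral_integral_swap]
      · refine integral_congr_ae (ae_of_all _ fun ζ => ?_)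
        simp only [Complex.exp_add, ← hLc]
        rw [integral_const_mul]
        simp only [mul_comm I, ← charFun_apply]
        rw [charFun_stdGaussian, Complex.ofReal_mul, Complex.ofReal_exp, Complex.ofReal_exp, mul_comm]
        push_cast
        ring_nf
      · refine (hg.comp_snd (stdGaussian (Vec (N + 1)))).mono' (by fun_prop) (ae_of_all _ fun p => ?_)
        simp only [Function.uncurry, Complex.norm_exp]
        simp [← Complex.ofReal_pow]
    rw [← ofReal_integral_eq_lintegral_ofReal hi (ae_of_all _ fun ζ => by positivity),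
      Complex.ofReal_injective key]
    have hk : Continuous fun g => (2 * π) ^ n * (h ^ n)⁻¹ * gaussKer (h⁻¹ • L g) := by
      have := continuous_gaussKer (d := n)
      fun_prop
    have hk0 : ∀ g, 0 ≤ (2 * π) ^ n * (h ^ n)⁻¹ * gaussKer (h⁻¹ • L g) := fun g =>
      mul_nonneg (by positivity) (gaussKer_nonneg _)
    rw [← Real.enorm_of_nonneg (integral_nonneg hk0)]
    refine (enorm_integral_le_lintegral_enorm _).trans ?_
    simp only [Real.enorm_of_nonneg (hk0 _)]
    refine (lawBound X (F := fun y => ENNReal.ofReal ((2 * π) ^ n * (h ^ n)⁻¹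
      * gaussKer (h⁻¹ • (WithLp.toLp 2 y : Vec n)))) (by
        have := continuous_gaussKer (d := n); fun_prop) hJ).trans ?_
    rw [(PiLp.volume_preserving_toLp (Fin n)).lintegral_comp
      (f := fun y : Vec n => ENNReal.ofReal ((2 * π) ^ n * (h ^ n)⁻¹ * gaussKer (h⁻¹ • y))) (by
        have := continuous_gaussKer (d := n); fun_prop)]
    rw [lintegral_comp_smul (by have := continuous_gaussKer (d := n); fun_prop) hh]
    simp only [inv_smul_smul₀ hh.ne']
    rw [← ofReal_integral_eq_lintegral_ofReal (integrable_gaussKer.const_mul _)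
      (ae_of_all _ fun y => mul_nonneg (by positivity) (gaussKer_nonneg _)),
      integral_const_mul, integral_gaussKer, mul_one, ← ENNReal.ofReal_pow (by positivity),
      ← ENNReal.ofReal_mul (by positivity), mul_comm (ENNReal.ofReal _) (jac X), mul_assoc,
      ← ENNReal.ofReal_mul (by positivity), mul_comm]
    refine mul_le_mul_left (ENNReal.ofReal_le_ofReal (le_of_eq ?_)) _
    have hs : √(2 * π) * √(2 * π) = 2 * π := Real.mul_self_sqrt (by positivity)
    rw [← mul_assoc (((√(2 * π))⁻¹) ^ n), inv_pow]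
    field_simp
    rw [← pow_mul, mul_comm n 2, pow_mul, sq (√(2 * π)), hs]
  have hlim : ∀ ζ : Vec n, Tendsto (fun j : ℕ => ENNReal.ofReal (Real.exp (-‖comb X ζ‖ ^ 2 / 2)
      * Real.exp (-((1 / (j + 1) : ℝ) ^ 2 / 2) * ‖ζ‖ ^ 2))) atTop
      (𝓝 (ENNReal.ofReal (Real.exp (-‖comb X ζ‖ ^ 2 / 2)))) := by
    intro ζ
    have hc : Continuous fun x : ℝ => Real.exp (-‖comb X ζ‖ ^ 2 / 2)
        * Real.exp (-(x ^ 2 / 2) * ‖ζ‖ ^ 2) := by fun_prop
    have := ENNReal.tendsto_ofReal ((hc.tendsto 0).comp tendsto_one_div_add_atTop_nhds_zero_nat)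
    simpa [Function.comp_def] using this
  calc ∫⁻ ζ : Vec n, ENNReal.ofReal (Real.exp (-‖comb X ζ‖ ^ 2 / 2))
      = ∫⁻ ζ : Vec n, liminf (fun j : ℕ => ENNReal.ofReal (Real.exp (-‖comb X ζ‖ ^ 2 / 2)
          * Real.exp (-((1 / (j + 1) : ℝ) ^ 2 / 2) * ‖ζ‖ ^ 2))) atTop :=
        lintegral_congr fun ζ => (hlim ζ).liminf_eq.symm
    _ ≤ liminf (fun j : ℕ => ∫⁻ ζ : Vec n, ENNReal.ofReal (Real.exp (-‖comb X ζ‖ ^ 2 / 2)
          * Real.exp (-((1 / (j + 1) : ℝ) ^ 2 / 2) * ‖ζ‖ ^ 2))) atTop := by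
        refine lintegral_liminf_le fun j => ?_
        have := continuous_comb X
        fun_prop
    _ ≤ _ := liminf_le_of_frequently_le (Frequently.of_forall fun j => hb _ (by positivity))
        (by isBoundedDefault)

/-- Gaussian integral along rows at scale `c`. -/
lemma lintegral_exp_comb_scaled (X : Fin n → Vec (N + 1)) {c : ℝ} (hc : 0 < c) :
    ∫⁻ ζ : Vec n, ENNReal.ofReal (Real.exp (-‖comb X ζ‖ ^ 2 / (2 * c ^ 2)))
      ≤ ENNReal.ofReal ((√(2 * π) * c) ^ n) * jac X := by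
  have := continuous_comb X
  rw [lintegral_comp_smul (by fun_prop) hc]
  have e : ∀ ζ : Vec n, Real.exp (-‖comb X (c • ζ)‖ ^ 2 / (2 * c ^ 2))
      = Real.exp (-‖comb X ζ‖ ^ 2 / 2) := by
    intro ζ
    rw [comb_smul, norm_smul, Real.norm_of_nonneg hc.le]
    congr 1
    field_simp
  simp only [e]
  refine (mul_le_mul_right (lintegral_exp_comb_le X) _).trans (le_of_eq ?_)
  rw [← mul_assoc, ← ENNReal.ofReal_mul (by positivity), ← mul_pow, mul_comm c]

/-- Volume of the coefficients whose combination lies in a ball. -/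
lemma volume_comb_le (X : Fin n → Vec (N + 1)) (w : Vec (N + 1)) {r : ℝ} (hr : 0 < r) :
    volume {ζ : Vec n | ‖comb X ζ - w‖ ≤ r}
      ≤ ENNReal.ofReal (Real.exp 2 * (√(2 * π) * r) ^ n) * jac X := by
  by_cases hne : ∃ a : Vec n, ‖comb X a - w‖ ≤ r
  swap
  · push Not at hne
    have : {ζ : Vec n | ‖comb X ζ - w‖ ≤ r} = ∅ := Set.eq_empty_of_forall_notMem fun a ha =>
      absurd ha (not_le.2 (hne a))
    simp [this]
  obtain ⟨a, ha⟩ := hne
  have hcc := continuous_comb X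
  have hS : MeasurableSet {ζ : Vec n | ‖comb X ζ - w‖ ≤ r} := measurableSet_le (by fun_prop) (by fun_prop)
  have key := lintegral_exp_comb_scaled X hr
  rw [← lintegral_indicator_one hS]
  rw [← lintegral_sub_right_eq_self (fun ζ : Vec n =>
    ENNReal.ofReal (Real.exp (-‖comb X ζ‖ ^ 2 / (2 * r ^ 2)))) a] at key
  calc ∫⁻ ζ, Set.indicator {ζ : Vec n | ‖comb X ζ - w‖ ≤ r} 1 ζ
      ≤ ∫⁻ ζ : Vec n, ENNReal.ofReal (Real.exp 2)
          * ENNReal.ofReal (Real.exp (-‖comb X (ζ - a)‖ ^ 2 / (2 * r ^ 2))) := by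
        refine lintegral_mono fun ζ => ?_
        by_cases hζ : ζ ∈ {ζ : Vec n | ‖comb X ζ - w‖ ≤ r}
        · rw [Set.indicator_of_mem hζ, ← ENNReal.ofReal_mul (Real.exp_pos _).le, ← Real.exp_add,
            Pi.one_apply, ← ENNReal.ofReal_one]
          refine ENNReal.ofReal_le_ofReal (Real.one_le_exp ?_)
          have h2 : ‖comb X (ζ - a)‖ ≤ 2 * r := by
            rw [comb_sub, show comb X ζ - comb X a = (comb X ζ - w) - (comb X a - w) by abel]
            refine (norm_sub_le _ _).trans ?_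
            have : ‖comb X ζ - w‖ ≤ r := hζ
            linarith
          have h3 : ‖comb X (ζ - a)‖ ^ 2 / (2 * r ^ 2) ≤ 2 := by
            rw [div_le_iff₀ (by positivity)]
            nlinarith [pow_le_pow_left₀ (norm_nonneg _) h2 2]
          rw [neg_div]
          linarith
        · simp [Set.indicator_of_notMem hζ]
    _ ≤ _ := by
        rw [lintegral_const_mul' _ _ ENNReal.ofReal_ne_top, ENNReal.ofReal_mul (Real.exp_pos _).le,
          mul_assoc]
        exact mul_le_mul_right key _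

/-- Polynomial weights along rows. -/
theorem lintegral_poly_comb_le (X : Fin n → Vec (N + 1)) {p : ℕ} (hp : n + 1 ≤ 2 * p) :
    ∫⁻ ζ : Vec n, ENNReal.ofReal ((1 / (1 + ‖comb X ζ‖ ^ 2)) ^ p)
      ≤ ENNReal.ofReal (4 * 4 ^ p * √(2 * π) ^ n) * jac X * 2 := by
  set φ : ℕ → Vec n → ℝ≥0∞ := fun l ζ => ENNReal.ofReal (4 * 4 ^ p * ((4 ^ p) ^ l)⁻¹
    * Real.exp (-‖comb X ζ‖ ^ 2 / (2 * ((2:ℝ) ^ l) ^ 2)))
  have hpt : ∀ ζ, ENNReal.ofReal ((1 / (1 + ‖comb X ζ‖ ^ 2)) ^ p) ≤ ∑' l, φ l ζ := by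
    intro ζ
    set R := ‖comb X ζ‖
    have hex : ∃ l : ℕ, R ^ 2 ≤ 4 ^ l := by
      obtain ⟨l, hl⟩ := pow_unbounded_of_one_lt (R ^ 2) (show (1:ℝ) < 4 by norm_num)
      exact ⟨l, hl.le⟩
    classical
    set l := Nat.find hex
    have hl : R ^ 2 ≤ 4 ^ l := Nat.find_spec hex
    have hl' : (4:ℝ) ^ l ≤ 4 * (1 + R ^ 2) := by
      rcases Nat.eq_zero_or_pos l with h | h
      · rw [h, pow_zero]; nlinarith
      · have := Nat.find_min hex (show l - 1 < l by omega)
        rw [not_le] at this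
        calc (4:ℝ) ^ l = 4 * 4 ^ (l - 1) := by rw [← pow_succ']; congr 1; omega
          _ ≤ _ := by linarith
    refine le_trans ?_ (ENNReal.le_tsum l)
    refine ENNReal.ofReal_le_ofReal ?_
    have h2l : ((2:ℝ) ^ l) ^ 2 = 4 ^ l := by rw [← pow_mul, mul_comm, pow_mul]; norm_num
    rw [h2l]
    have he : (1:ℝ) / 4 ≤ Real.exp (-R ^ 2 / (2 * 4 ^ l)) := by
      have h1 : Real.exp (-1) ≤ Real.exp (-R ^ 2 / (2 * 4 ^ l)) := by
        refine Real.exp_le_exp.2 ?_
        rw [le_div_iff₀ (by positivity)]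
        nlinarith [pow_pos (show (0:ℝ) < 4 by norm_num) l]
      have h2 : (1:ℝ) / 4 ≤ Real.exp (-1) := by
        rw [Real.exp_neg, one_div]
        exact inv_anti₀ (Real.exp_pos _) (by linarith [Real.exp_one_lt_d9])
      linarith
    calc (1 / (1 + R ^ 2)) ^ p ≤ (4 * (1 / 4 ^ l)) ^ p := by
          refine pow_le_pow_left₀ (by positivity) ?_ p
          rw [mul_one_div, div_le_div_iff₀ (by positivity) (by positivity)]
          linarith
      _ = 4 ^ p * ((4 ^ p) ^ l)⁻¹ := by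
          rw [mul_pow, one_div, inv_pow, ← pow_mul, ← pow_mul, mul_comm l p]
      _ = 4 * 4 ^ p * ((4 ^ p) ^ l)⁻¹ * (1 / 4) := by ring
      _ ≤ _ := mul_le_mul_of_nonneg_left he (by positivity)
  have hcc := continuous_comb X
  refine (lintegral_mono hpt).trans ?_
  rw [lintegral_tsum fun l => by fun_prop]
  have hle : ∀ l, ∫⁻ ζ, φ l ζ
      ≤ ENNReal.ofReal (4 * 4 ^ p * √(2 * π) ^ n) * jac X * ENNReal.ofReal ((1/2) ^ l) := by
    intro l
    simp only [φ]
    simp_rw [ENNReal.ofReal_mul (show (0:ℝ) ≤ 4 * 4 ^ p * ((4 ^ p) ^ l)⁻¹ by positivity)]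
    rw [lintegral_const_mul' _ _ ENNReal.ofReal_ne_top]
    refine (mul_le_mul_right (lintegral_exp_comb_scaled X (pow_pos two_pos l)) _).trans ?_
    rw [← mul_assoc, mul_right_comm (ENNReal.ofReal _) (jac X), ← ENNReal.ofReal_mul (by positivity),
      ← ENNReal.ofReal_mul (by positivity)]
    refine mul_le_mul_left (ENNReal.ofReal_le_ofReal ?_) _
    have h4 : (2:ℝ) ^ (l * (n + 1)) ≤ (4 ^ p) ^ l := by
      rw [show (4:ℝ) = 2 ^ 2 by norm_num, ← pow_mul, ← pow_mul]
      refine pow_le_pow_right₀ one_le_two ?_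
      rw [mul_comm l, ← mul_assoc]
      exact Nat.mul_le_mul_right l hp
    rw [mul_pow, ← pow_mul (2:ℝ), one_div_pow]
    calc 4 * 4 ^ p * ((4 ^ p) ^ l)⁻¹ * (√(2 * π) ^ n * 2 ^ (l * n))
        = 4 * 4 ^ p * √(2 * π) ^ n * (((4 ^ p) ^ l)⁻¹ * 2 ^ (l * n)) := by ring
      _ ≤ 4 * 4 ^ p * √(2 * π) ^ n * (1 / 2 ^ l) := by
          refine mul_le_mul_of_nonneg_left ?_ (by positivity)
          rw [← div_eq_inv_mul, div_le_div_iff₀ (by positivity) (by positivity), ← pow_add, one_mul]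
          refine le_trans (le_of_eq ?_) h4
          ring_nf
  refine (ENNReal.tsum_le_tsum hle).trans ?_
  rw [ENNReal.tsum_mul_left, ← ENNReal.ofReal_tsum_of_nonneg (fun l => by positivity)
    (summable_geometric_two), tsum_geometric_two, ENNReal.ofReal_ofNat]

/-- Tail of polynomial weights along rows. -/
theorem lintegral_poly_tail_le (X : Fin n → Vec (N + 1)) {p r : ℕ} (hp : n + 1 ≤ 2 * p) {R₀ : ℝ}
    (hR : 0 ≤ R₀) :
    ∫⁻ ζ : Vec n, Set.indicator {ζ | R₀ ≤ ‖comb X ζ‖}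
        (fun ζ => ENNReal.ofReal ((1 / (1 + ‖comb X ζ‖ ^ 2)) ^ (p + r))) ζ
      ≤ ENNReal.ofReal ((1 / (1 + R₀ ^ 2)) ^ r)
        * (ENNReal.ofReal (4 * 4 ^ p * √(2 * π) ^ n) * jac X * 2) := by
  refine le_trans ?_ (mul_le_mul_right (lintegral_poly_comb_le X hp) _)
  rw [← lintegral_const_mul' _ _ ENNReal.ofReal_ne_top]
  refine lintegral_mono fun ζ => ?_
  by_cases hζ : ζ ∈ {ζ | R₀ ≤ ‖comb X ζ‖}
  · rw [Set.indicator_of_mem hζ, ← ENNReal.ofReal_mul (by positivity)]
    refine ENNReal.ofReal_le_ofReal ?_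
    rw [pow_add, mul_comm]
    refine mul_le_mul_of_nonneg_right (pow_le_pow_left₀ (by positivity) ?_ r) (by positivity)
    exact one_div_le_one_div_of_le (by positivity)
      (by linarith [pow_le_pow_left₀ hR (show R₀ ≤ ‖comb X ζ‖ from hζ) 2])
  · simp [Set.indicator_of_notMem hζ]

end Vale.Agent.P309.Sharp
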